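import Vale.Agent.H22.Kernel

set_option linter.unusedSectionVars false

namespace Vale.Agent.H22

open Finset Real

section average

variable {V : Type*} [Fintype V] [PseudoMetricSpace V]
variable {W : Type*} [AddCommGroup W] [Module ℝ W]

theorem seminorm_sum_le (N : Seminorm ℝ W) {ι : Type*} (s : Finset ι) (f : ι → W) :
    N (∑ k ∈ s, f k) ≤ ∑ k ∈ s, N (f k) := by
  classical
  induction s using Finset.induction_on with
  | empty => simp
  | insert a s ha ih =>
    rw [Finset.sum_insert ha, Finset.sum_insert ha]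
    exact (map_add_le_add N _ _).trans (by linarith)

theorem seminorm_smul_le (N : Seminorm ℝ W) (a : ℝ) (w : W) : N (a • w) = |a| * N w := by
  rw [map_smul_eq_mul, Real.norm_eq_abs]

/-- average of `G` against the kernel at `i` -/
noncomputable def avg (r : ℝ) (i : V) (G : V → W) : W := ∑ k, Pk r i k • G k

theorem avg_sub (r : ℝ) (i : V) (G H : V → W) :
    avg r i (fun k => G k - H k) = avg r i G - avg r i H := by
  simp only [avg, smul_sub, Finset.sum_sub_distrib]

theorem avg_const (r : ℝ) (i : V) (w : W) : avg r i (fun _ => w) = w := by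
  simp only [avg]
  rw [← Finset.sum_smul, Pk_sum, one_smul]

theorem N_avg_le (N : Seminorm ℝ W) (r : ℝ) (i : V) (G : V → W) (b : V → ℝ)
    (hb : ∀ k, N (G k) ≤ b k) : N (avg r i G) ≤ ∑ k, Pk r i k * b k := by
  refine (seminorm_sum_le N _ _).trans ?_
  apply Finset.sum_le_sum
  intro k _
  rw [seminorm_smul_le, abs_of_pos (Pk_pos r i k)]
  exact mul_le_mul_of_nonneg_left (hb k) (Pk_pos r i k).le

theorem N_avg_sub_le (N : Seminorm ℝ W) {r : ℝ} (hr : 0 < r) (i : V) (G : V → W) {c : ℝ}
    (hG : ∀ k, N (G k - G i) ≤ c * dist i k) : N (avg r i G - G i) ≤ c * (r * ek r i) := by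
  have h1 : avg r i G - G i = avg r i (fun k => G k - G i) := by
    rw [avg_sub, avg_const]
  rw [h1, ← sum_P_dist hr, Finset.mul_sum]
  refine (N_avg_le N r i _ _ hG).trans (le_of_eq ?_)
  apply Finset.sum_congr rfl
  intro k _; ring

theorem avg_diff_eq (r : ℝ) (i j : V) (G : V → W) (w : W) :
    avg r i G - avg r j G = ∑ k, (Pk r i k - Pk r j k) • (G k - w) := by
  have h : ∑ k, (Pk r i k - Pk r j k) • (G k - w) =
      (avg r i G - avg r j G) - (∑ k, (Pk r i k - Pk r j k)) • w := by
    simp only [avg, smul_sub, sub_smul, Finset.sum_sub_distrib, Finset.sum_smul]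
  rw [h, Finset.sum_sub_distrib, Pk_sum, Pk_sum]
  simp

/-- close points: weighted bound for the change of kernel -/
theorem N_avg_diff_le (N : Seminorm ℝ W) {r : ℝ} (hr : 0 < r) {i j : V} (hij : dist i j ≤ r)
    (G : V → W) (w : W) (b : V → ℝ) (hb : ∀ k, N (G k - w) ≤ b k) :
    N (avg r i G - avg r j G) ≤ 7 * (dist i j / r) * ∑ k, Pk r i k * b k := by
  rw [avg_diff_eq r i j G w, Finset.mul_sum]
  refine (seminorm_sum_le N _ _).trans ?_
  apply Finset.sum_le_sum
  intro k _
  rw [seminorm_smul_le]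
  have h1 := Pk_diff hr hij k
  have h2 : 0 ≤ N (G k - w) := apply_nonneg N _
  calc |Pk r i k - Pk r j k| * N (G k - w)
      ≤ (7 * (dist i j / r) * Pk r i k) * N (G k - w) := mul_le_mul_of_nonneg_right h1 h2
    _ ≤ (7 * (dist i j / r) * Pk r i k) * b k := by
        apply mul_le_mul_of_nonneg_left (hb k)
        have := Pk_pos r i k
        positivity
    _ = _ := by ring

theorem single_diff (N : Seminorm ℝ W) {r : ℝ} (hr : 0 < r) (i j : V) (G : V → W) {c : ℝ}
    (hc : 0 ≤ c) (hG : ∀ k l, N (G k - G l) ≤ c * dist k l) :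
    N (avg r i G - avg r j G) ≤
      c * dist i j * ((if r < dist i j then 1 else 0) + 7 * ek r i + ek r j) := by
  have hei := ek_nonneg hr i
  have hej := ek_nonneg hr j
  by_cases h : r < dist i j
  · rw [if_pos h]
    have h1 : avg r i G - avg r j G = (avg r i G - G i) + ((G i - G j) - (avg r j G - G j)) := by
      abel
    have h2 := N_avg_sub_le N hr i G (fun k => (hG k i).trans (by rw [dist_comm]))
    have h3 := N_avg_sub_le N hr j G (fun k => (hG k j).trans (by rw [dist_comm]))
    rw [h1]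
    refine (map_add_le_add N _ _).trans ?_
    have h4 : N ((G i - G j) - (avg r j G - G j)) ≤ N (G i - G j) + N (avg r j G - G j) :=
      map_sub_le_add N _ _
    have h5 := hG i j
    have h6 : r * ek r i ≤ dist i j * ek r i := mul_le_mul_of_nonneg_right h.le hei
    have h7 : r * ek r j ≤ dist i j * ek r j := mul_le_mul_of_nonneg_right h.le hej
    have h8 := mul_le_mul_of_nonneg_left h6 hc
    have h9 := mul_le_mul_of_nonneg_left h7 hc
    have h10 : 0 ≤ c * dist i j * ek r i := by positivity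
    nlinarith
  · rw [if_neg h]
    push Not at h
    have h1 := N_avg_diff_le N hr h G (G i) (fun k => c * dist i k)
      (fun k => (hG k i).trans (by rw [dist_comm]))
    have h2 : ∑ k, Pk r i k * (c * dist i k) = c * (r * ek r i) := by
      rw [← sum_P_dist hr, Finset.mul_sum]
      apply Finset.sum_congr rfl
      intro k _; ring
    rw [h2] at h1
    have h3 : 7 * (dist i j / r) * (c * (r * ek r i)) = 7 * (c * dist i j * ek r i) := by
      field_simp
    rw [h3] at h1
    have h10 : 0 ≤ c * dist i j * ek r j := by positivity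
    nlinarith

/-- double average -/
noncomputable def dbl (R r : ℝ) (F : V → V → W) (i : V) : W :=
  avg R i (fun k => avg r i (F k))

theorem sum_dist_two {R r : ℝ} (hR : 0 < R) (hr : 0 < r) (i : V) :
    ∑ k, Pk R i k * ∑ k', Pk r i k' * dist k k' ≤ R * ek R i + r * ek r i := by
  calc ∑ k, Pk R i k * ∑ k', Pk r i k' * dist k k'
      ≤ ∑ k, Pk R i k * (dist i k + r * ek r i) := by
        apply Finset.sum_le_sum
        intro k _
        apply mul_le_mul_of_nonneg_left _ (Pk_pos R i k).le
        calc ∑ k', Pk r i k' * dist k k' ≤ ∑ k', (dist i k * Pk r i k' + Pk r i k' * dist i k') := by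
              apply Finset.sum_le_sum
              intro k' _
              have := dist_triangle k i k'
              rw [dist_comm k i] at this
              nlinarith [Pk_pos r i k']
          _ = dist i k + r * ek r i := by
              rw [Finset.sum_add_distrib, ← Finset.mul_sum, Pk_sum, sum_P_dist hr, mul_one]
    _ = R * ek R i + r * ek r i := by
        simp_rw [mul_add]
        rw [Finset.sum_add_distrib, sum_P_dist hR, ← Finset.sum_mul, Pk_sum, one_mul]

theorem N_dbl_le (N : Seminorm ℝ W) {R r : ℝ} (hR : 0 < R) (hr : 0 < r) (F : V → V → W) {c : ℝ}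
    (hc : 0 ≤ c) (hF : ∀ k k', N (F k k') ≤ c * dist k k') (i : V) :
    N (dbl R r F i) ≤ c * (R * ek R i + r * ek r i) := by
  have h1 : N (dbl R r F i) ≤ ∑ k, Pk R i k * ∑ k', Pk r i k' * (c * dist k k') :=
    N_avg_le N R i _ _ (fun k => N_avg_le N r i _ _ (fun k' => hF k k'))
  refine h1.trans ?_
  have h2 : ∑ k, Pk R i k * ∑ k', Pk r i k' * (c * dist k k') =
      c * ∑ k, Pk R i k * ∑ k', Pk r i k' * dist k k' := by
    rw [Finset.mul_sum]
    apply Finset.sum_congr rfl
    intro k _
    rw [Finset.mul_sum, Finset.mul_sum, Finset.mul_sum]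
    apply Finset.sum_congr rfl
    intro k' _
    ring
  rw [h2]
  exact mul_le_mul_of_nonneg_left (sum_dist_two hR hr i) hc

theorem dbl_split (R r : ℝ) (F : V → V → W) (i j : V) :
    dbl R r F i - dbl R r F j =
      (avg R i (fun k => avg r i (F k)) - avg R j (fun k => avg r i (F k))) +
      avg R j (fun k => avg r i (F k) - avg r j (F k)) := by
  rw [avg_sub]
  simp only [dbl]
  abel

theorem dbl_diff (N : Seminorm ℝ W) {R r : ℝ} (hr : 0 < r) (hrR : r ≤ R) (F : V → V → W)
    {c : ℝ} (hc : 0 ≤ c) (hF0 : ∀ k k', N (F k k') ≤ c * dist k k')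
    (hF : ∀ k k' l l', N (F k k' - F l l') ≤ c * (dist k l + dist k' l')) (i j : V) :
    N (dbl R r F i - dbl R r F j) ≤ c * dist i j *
      ((if r < dist i j ∧ dist i j ≤ R then 1 else 0) +
        7 * (ek R i + ek R j + ek r i + ek r j)) := by
  have hR : 0 < R := lt_of_lt_of_le hr hrR
  have e1 := ek_nonneg hr i
  have e2 := ek_nonneg hr j
  have e3 := ek_nonneg hR i
  have e4 := ek_nonneg hR j
  have hd : 0 ≤ dist i j := dist_nonneg
  by_cases hRd : R < dist i j
  · rw [if_neg (by intro h; linarith [h.2])]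
    have h1 := N_dbl_le N hR hr F hc hF0 i
    have h2 := N_dbl_le N hR hr F hc hF0 j
    have h3 : N (dbl R r F i - dbl R r F j) ≤ N (dbl R r F i) + N (dbl R r F j) :=
      map_sub_le_add N _ _
    have h4 : ∀ i' : V, 0 ≤ ek R i' → 0 ≤ ek r i' →
        c * (R * ek R i' + r * ek r i') ≤ c * dist i j * (ek R i' + ek r i') := by
      intro i' ha hb
      rw [mul_assoc]
      apply mul_le_mul_of_nonneg_left _ hc
      nlinarith
    have h5 := h4 i e3 e1
    have h6 := h4 j e4 e2
    have h7 : 0 ≤ c * dist i j := by positivity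
    nlinarith [mul_nonneg h7 e1, mul_nonneg h7 e2, mul_nonneg h7 e3, mul_nonneg h7 e4]
  · rw [dbl_split]
    refine (map_add_le_add N _ _).trans ?_
    have h1 : N (avg R i (fun k => avg r i (F k)) - avg R j (fun k => avg r i (F k))) ≤
        c * dist i j * ((if R < dist i j then 1 else 0) + 7 * ek R i + ek R j) := by
      apply single_diff N hR i j _ hc
      intro k l
      rw [← avg_sub]
      refine (N_avg_le N r i _ (fun _ => c * dist k l) ?_).trans ?_
      · intro k'
        refine (hF k k' l k').trans ?_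
        rw [dist_self, add_zero]
      · rw [← Finset.sum_mul, Pk_sum, one_mul]
    have h2 : N (avg R j (fun k => avg r i (F k) - avg r j (F k))) ≤
        c * dist i j * ((if r < dist i j then 1 else 0) + 7 * ek r i + ek r j) := by
      refine (N_avg_le N R j _ (fun _ => c * dist i j *
        ((if r < dist i j then 1 else 0) + 7 * ek r i + ek r j)) ?_).trans ?_
      · intro k
        apply single_diff N hr i j _ hc
        intro k' l'
        refine (hF k k' k l').trans ?_
        rw [dist_self, zero_add]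
      · rw [← Finset.sum_mul, Pk_sum, one_mul]
    rw [if_neg hRd] at h1
    have h7 : 0 ≤ c * dist i j := by positivity
    push Not at hRd
    have h8 : (if r < dist i j ∧ dist i j ≤ R then (1 : ℝ) else 0) =
        (if r < dist i j then 1 else 0) := by
      by_cases h : r < dist i j
      · rw [if_pos ⟨h, hRd⟩, if_pos h]
      · rw [if_neg (fun hh => h hh.1), if_neg h]
    rw [h8]
    nlinarith [mul_nonneg h7 e1, mul_nonneg h7 e2, mul_nonneg h7 e3, mul_nonneg h7 e4]

/-- the number of dyadic scales just below `d` -/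
theorem card_scales {r d : ℝ} (hr : 0 < r) (T Λ : ℕ) :
    ∑ m ∈ range Λ, (if r * 2 ^ m < d ∧ d ≤ r * 2 ^ (m + T) then (1 : ℝ) else 0) ≤ T := by
  rw [← Finset.sum_filter, Finset.sum_const, nsmul_eq_mul, mul_one]
  set s := (range Λ).filter (fun m => r * 2 ^ m < d ∧ d ≤ r * 2 ^ (m + T)) with hs
  rcases s.eq_empty_or_nonempty with h | h
  · rw [h]; simp
  · have hmin := s.min'_mem h
    set m0 := s.min' h with hm0
    have hsub : s ⊆ Finset.Ico m0 (m0 + T) := by
      intro m hm
      rw [Finset.mem_Ico]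
      refine ⟨s.min'_le m hm, ?_⟩
      have h1 := (Finset.mem_filter.1 hm).2.1
      have h2 := (Finset.mem_filter.1 hmin).2.2
      have h3 : r * 2 ^ m < r * 2 ^ (m0 + T) := lt_of_lt_of_le h1 h2
      have h4 : (2 : ℝ) ^ m < 2 ^ (m0 + T) := lt_of_mul_lt_mul_left h3 hr.le
      exact (pow_lt_pow_iff_right₀ (by norm_num : (1 : ℝ) < 2)).1 h4
    have h5 := Finset.card_le_card hsub
    rw [Nat.card_Ico] at h5
    have : s.card ≤ T := by omega
    exact_mod_cast this

/-- the multi-scale average -/
noncomputable def tot (r : ℝ) (T Λ : ℕ) (F : V → V → W) (i : V) : W :=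
  (T : ℝ)⁻¹ • ∑ m ∈ range Λ, dbl (r * 2 ^ (m + T)) (r * 2 ^ m) F i

theorem tot_diff (N : Seminorm ℝ W) {r : ℝ} (hr : 0 < r) {T : ℕ} (hT : 1 ≤ T) (Λ : ℕ)
    (F : V → V → W) {c : ℝ} (hc : 0 ≤ c) (hF0 : ∀ k k', N (F k k') ≤ c * dist k k')
    (hF : ∀ k k' l l', N (F k k' - F l l') ≤ c * (dist k l + dist k' l')) (i j : V) :
    N (tot r T Λ F i - tot r T Λ F j) ≤
      c * dist i j * (1 + 56 * log (Fintype.card V) / T) := by
  have hT0 : (0 : ℝ) < T := by exact_mod_cast hT
  have hcd : 0 ≤ c * dist i j := by positivity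
  have h1 : tot r T Λ F i - tot r T Λ F j = (T : ℝ)⁻¹ • ∑ m ∈ range Λ,
      (dbl (r * 2 ^ (m + T)) (r * 2 ^ m) F i - dbl (r * 2 ^ (m + T)) (r * 2 ^ m) F j) := by
    rw [tot, tot, ← smul_sub, Finset.sum_sub_distrib]
  rw [h1, seminorm_smul_le, abs_of_pos (inv_pos.2 hT0)]
  have h2 : N (∑ m ∈ range Λ,
      (dbl (r * 2 ^ (m + T)) (r * 2 ^ m) F i - dbl (r * 2 ^ (m + T)) (r * 2 ^ m) F j)) ≤
      ∑ m ∈ range Λ, c * dist i j *
      ((if r * 2 ^ m < dist i j ∧ dist i j ≤ r * 2 ^ (m + T) then 1 else 0) +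
        7 * (ek (r * 2 ^ (m + T)) i + ek (r * 2 ^ (m + T)) j + ek (r * 2 ^ m) i +
          ek (r * 2 ^ m) j)) := by
    refine (seminorm_sum_le N _ _).trans ?_
    apply Finset.sum_le_sum
    intro m _
    apply dbl_diff N (by positivity) _ F hc hF0 hF i j
    apply mul_le_mul_of_nonneg_left _ hr.le
    exact pow_le_pow_right₀ (by norm_num) (by omega)
  have h3 : ∀ i' : V, ∑ m ∈ range Λ, ek (r * 2 ^ (m + T)) i' ≤ 2 * log (Fintype.card V) := by
    intro i'
    have h := sum_ek_le (by positivity : 0 < r * 2 ^ T) i' Λ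
    have e : ∀ m, r * 2 ^ T * 2 ^ m = r * 2 ^ (m + T) := by intro m; rw [pow_add]; ring
    simpa only [e] using h
  have h4 : ∀ i' : V, ∑ m ∈ range Λ, ek (r * 2 ^ m) i' ≤ 2 * log (Fintype.card V) :=
    fun i' => sum_ek_le hr i' Λ
  have h5 := card_scales (d := dist i j) hr T Λ
  have h6 : ∑ m ∈ range Λ, c * dist i j *
      ((if r * 2 ^ m < dist i j ∧ dist i j ≤ r * 2 ^ (m + T) then 1 else 0) +
        7 * (ek (r * 2 ^ (m + T)) i + ek (r * 2 ^ (m + T)) j + ek (r * 2 ^ m) i +
          ek (r * 2 ^ m) j)) ≤ c * dist i j * (T + 56 * log (Fintype.card V)) := by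
    rw [← Finset.mul_sum]
    apply mul_le_mul_of_nonneg_left _ hcd
    rw [Finset.sum_add_distrib, ← Finset.mul_sum, Finset.sum_add_distrib, Finset.sum_add_distrib,
      Finset.sum_add_distrib]
    have := h3 i
    have := h3 j
    have := h4 i
    have := h4 j
    linarith
  calc (T : ℝ)⁻¹ * N _ ≤ (T : ℝ)⁻¹ * (c * dist i j * (T + 56 * log (Fintype.card V))) :=
        mul_le_mul_of_nonneg_left (h2.trans h6) (inv_pos.2 hT0).le
    _ = c * dist i j * (1 + 56 * log (Fintype.card V) / T) := by
        field_simp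

end average

end Vale.Agent.H22
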