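import Mathlib

set_option linter.unusedSectionVars false

namespace Vale.Agent.H22

open Finset Real
open scoped ENNReal

section lpnorm

variable {S : Type*} [Fintype S] (p : ℝ≥0∞) [Fact (1 ≤ p)]

/-- the `ℓ_p` norm on `S → ℝ` as a seminorm -/
noncomputable def lpN : Seminorm ℝ (S → ℝ) :=
  (normSeminorm ℝ (PiLp p (fun _ : S => ℝ))).comp
    (WithLp.linearEquiv p ℝ (S → ℝ)).symm.toLinearMap

theorem lpN_apply (w : S → ℝ) : lpN p w = ‖(WithLp.toLp p w : PiLp p (fun _ : S => ℝ))‖ := rfl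

theorem one_le_toReal {p : ℝ≥0∞} [Fact (1 ≤ p)] (hp : p ≠ ∞) : 1 ≤ p.toReal := by
  have hp1 : 1 ≤ p := Fact.out
  rw [← ENNReal.toReal_one]
  exact (ENNReal.toReal_le_toReal ENNReal.one_ne_top hp).2 hp1

variable {p}

theorem lpN_rpow (hp : p ≠ ∞) (w : S → ℝ) :
    lpN p w ^ p.toReal = ∑ s, |w s| ^ p.toReal := by
  have hP := one_le_toReal (p := p) hp
  have hP0 : 0 < p.toReal := by linarith
  rw [lpN_apply, PiLp.norm_eq_sum hP0, ← rpow_mul (Finset.sum_nonneg
    (fun l _ => rpow_nonneg (norm_nonneg _) _)), one_div_mul_cancel hP0.ne', rpow_one]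
  simp only [Real.norm_eq_abs]

theorem lpN_nonneg (w : S → ℝ) : 0 ≤ lpN p w := apply_nonneg _ _

theorem lpN_le_of_rpow_le (hp : p ≠ ∞) {w : S → ℝ} {c : ℝ} (hc : 0 ≤ c)
    (h : ∑ s, |w s| ^ p.toReal ≤ c ^ p.toReal) : lpN p w ≤ c := by
  have hP := one_le_toReal (p := p) hp
  have hP0 : 0 < p.toReal := by linarith
  rw [← lpN_rpow hp] at h
  exact (rpow_le_rpow_iff (lpN_nonneg w) hc hP0).1 h

theorem abs_le_lpN (hp : p ≠ ∞) (w : S → ℝ) (s : S) : |w s| ≤ lpN p w := by
  have hP := one_le_toReal (p := p) hp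
  have hP0 : 0 < p.toReal := by linarith
  rw [← rpow_le_rpow_iff (abs_nonneg _) (lpN_nonneg w) hP0, lpN_rpow hp]
  exact Finset.single_le_sum (f := fun s => |w s| ^ p.toReal)
    (fun s _ => rpow_nonneg (abs_nonneg _) _) (mem_univ s)

theorem lpN_le_mul (hp : p ≠ ∞) {w w' : S → ℝ} {c : ℝ} (hc : 0 ≤ c)
    (h : ∀ s, |w s| ≤ c * |w' s|) : lpN p w ≤ c * lpN p w' := by
  have hP := one_le_toReal (p := p) hp
  have hP0 : 0 < p.toReal := by linarith
  apply lpN_le_of_rpow_le hp (mul_nonneg hc (lpN_nonneg _))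
  rw [mul_rpow hc (lpN_nonneg _), lpN_rpow hp, Finset.mul_sum]
  apply Finset.sum_le_sum
  intro s _
  rw [← mul_rpow hc (abs_nonneg _)]
  exact rpow_le_rpow (abs_nonneg _) (h s) hP0.le

theorem lpN_mono (hp : p ≠ ∞) {w w' : S → ℝ} (h : ∀ s, |w s| ≤ |w' s|) : lpN p w ≤ lpN p w' := by
  have := lpN_le_mul hp (w := w) (w' := w') zero_le_one (fun s => by rw [one_mul]; exact h s)
  rwa [one_mul] at this

theorem lpN_le_card (hp : p ≠ ∞) {w : S → ℝ} {c : ℝ} (hc : 0 ≤ c)
    (h : ∀ s, |w s| ≤ c) : lpN p w ≤ (Fintype.card S : ℝ) ^ (1 / p.toReal) * c := by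
  have hP := one_le_toReal (p := p) hp
  have hP0 : 0 < p.toReal := by linarith
  apply lpN_le_of_rpow_le hp (by positivity)
  rw [mul_rpow (by positivity) hc, ← rpow_mul (by positivity), one_div_mul_cancel hP0.ne', rpow_one]
  calc ∑ s, |w s| ^ p.toReal ≤ ∑ _s : S, c ^ p.toReal :=
        Finset.sum_le_sum (fun s _ => rpow_le_rpow (abs_nonneg _) (h s) hP0.le)
    _ = _ := by rw [Finset.sum_const, nsmul_eq_mul, Finset.card_univ]

theorem lpN_one (w : S → ℝ) : lpN 1 w = ∑ s, |w s| := by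
  have h := lpN_rpow (p := 1) ENNReal.one_ne_top w
  simpa using h

/-- few large coordinates -/
theorem card_large (hp : p ≠ ∞) (w : S → ℝ) {L : ℝ} (hL : 0 < L) :
    (((univ : Finset S).filter (fun s => L * lpN p w < |w s|)).card : ℝ) ≤ L ^ (-p.toReal) := by
  have hP := one_le_toReal (p := p) hp
  have hP0 : 0 < p.toReal := by linarith
  rcases (lpN_nonneg (p := p) w).eq_or_lt with h0 | h0
  · have : (univ : Finset S).filter (fun s => L * lpN p w < |w s|) = ∅ := by
      apply Finset.filter_eq_empty_iff.2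
      intro s _
      have := abs_le_lpN hp w s
      rw [← h0] at this ⊢
      linarith [abs_nonneg (w s)]
    rw [this]
    simp only [card_empty, Nat.cast_zero]
    exact rpow_nonneg hL.le _
  · set A := (univ : Finset S).filter (fun s => L * lpN p w < |w s|) with hA
    have h1 : (A.card : ℝ) * (L * lpN p w) ^ p.toReal ≤ lpN p w ^ p.toReal := by
      rw [lpN_rpow hp]
      calc (A.card : ℝ) * (L * lpN p w) ^ p.toReal = ∑ _s ∈ A, (L * lpN p w) ^ p.toReal := by
            rw [Finset.sum_const, nsmul_eq_mul]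
        _ ≤ ∑ s ∈ A, |w s| ^ p.toReal := by
            apply Finset.sum_le_sum
            intro s hs
            exact rpow_le_rpow (by positivity) (Finset.mem_filter.1 hs).2.le hP0.le
        _ ≤ ∑ s, |w s| ^ p.toReal := by
            apply Finset.sum_le_sum_of_subset_of_nonneg (Finset.subset_univ _)
            intro s _ _
            exact rpow_nonneg (abs_nonneg _) _
    rw [mul_rpow hL.le h0.le] at h1
    have h2 : 0 < lpN p w ^ p.toReal := rpow_pos_of_pos h0 _
    have h3 : 0 < L ^ p.toReal := rpow_pos_of_pos hL _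
    have h4 : (A.card : ℝ) * L ^ p.toReal ≤ 1 := by
      by_contra hcon
      push Not at hcon
      have : lpN p w ^ p.toReal < (A.card : ℝ) * L ^ p.toReal * lpN p w ^ p.toReal := by
        nlinarith
      nlinarith
    rw [rpow_neg hL.le, ← one_div, le_div_iff₀ h3]
    exact h4

end lpnorm

section clip

/-- clipping to `[-a, a]` -/
noncomputable def cl (t a : ℝ) : ℝ := max (-a) (min t a)

theorem abs_cl_le {t a : ℝ} (ha : 0 ≤ a) : |cl t a| ≤ a := by
  rw [cl, abs_le]
  constructor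
  · exact le_max_left _ _
  · exact max_le (by linarith) (min_le_right _ _)

theorem cl_of_abs_le {t a : ℝ} (h : |t| ≤ a) : cl t a = t := by
  rw [abs_le] at h
  rw [cl, min_eq_left h.2, max_eq_right h.1]

theorem abs_cl_sub_le (t t' a a' : ℝ) : |cl t a - cl t' a'| ≤ max |t - t'| |a - a'| := by
  rw [cl, cl]
  refine (abs_max_sub_max_le_max _ _ _ _).trans ?_
  apply max_le
  · have : -a - -a' = -(a - a') := by ring
    rw [this, abs_neg]
    exact le_max_right _ _
  · exact abs_min_sub_min_le_max _ _ _ _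

theorem abs_cl_sub_left (t t' a : ℝ) : |cl t a - cl t' a| ≤ |t - t'| := by
  have h := abs_cl_sub_le t t' a a
  rwa [sub_self, abs_zero, max_eq_left (abs_nonneg _)] at h

theorem abs_cl_sub_right (t a a' : ℝ) : |cl t a - cl t a'| ≤ |a - a'| := by
  have h := abs_cl_sub_le t t a a'
  rwa [sub_self, abs_zero, max_eq_right (abs_nonneg _)] at h

/-- soft threshold is 1-Lipschitz -/
theorem abs_sh_sub_left (t t' a : ℝ) (ha : 0 ≤ a) : |(t - cl t a) - (t' - cl t' a)| ≤ |t - t'| := by
  have key : ∀ u v : ℝ, u ≤ v → 0 ≤ cl v a - cl u a ∧ cl v a - cl u a ≤ v - u := by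
    intro u v huv
    constructor
    · rw [cl, cl, sub_nonneg]
      exact max_le_max le_rfl (min_le_min huv le_rfl)
    · have := abs_cl_sub_left v u a
      rw [abs_of_nonneg (by linarith : 0 ≤ v - u)] at this
      exact (le_abs_self _).trans this
  rcases le_total t t' with h | h
  · obtain ⟨h1, h2⟩ := key t t' h
    rw [abs_of_nonpos (by linarith), abs_of_nonpos (by linarith)]
    linarith
  · obtain ⟨h1, h2⟩ := key t' t h
    rw [abs_of_nonneg (by linarith), abs_of_nonneg (by linarith)]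
    linarith

variable {S : Type*} [Fintype S] (p : ℝ≥0∞) [Fact (1 ≤ p)]

/-- relative clipping -/
noncomputable def Phi (L : ℝ) (w : S → ℝ) : S → ℝ := fun s => cl (w s) (L * lpN p w)

variable {p}

theorem Phi_one (hp : p ≠ ∞) (w : S → ℝ) : Phi p 1 w = w := by
  funext s
  rw [Phi, one_mul]
  exact cl_of_abs_le (abs_le_lpN hp w s)

theorem abs_Phi_le {L : ℝ} (hL : 0 ≤ L) (w : S → ℝ) (s : S) : |Phi p L w s| ≤ L * lpN p w :=
  abs_cl_le (mul_nonneg hL (lpN_nonneg w))

theorem lpN_sub_abs (w w' : S → ℝ) : |lpN p w - lpN p w'| ≤ lpN p (w - w') := by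
  have h := abs_sub_map_le_sub (lpN p) w w'
  exact h

theorem abs_Phi_sub_le (hp : p ≠ ∞) {L : ℝ} (hL : 0 ≤ L) (hL1 : L ≤ 1) (w w' : S → ℝ) (s : S) :
    |Phi p L w s - Phi p L w' s| ≤ lpN p (w - w') := by
  refine (abs_cl_sub_le _ _ _ _).trans ?_
  apply max_le
  · have := abs_le_lpN hp (w - w') s
    rwa [Pi.sub_apply] at this
  · rw [← mul_sub, abs_mul, abs_of_nonneg hL]
    calc L * |lpN p w - lpN p w'| ≤ 1 * lpN p (w - w') :=
          mul_le_mul hL1 (lpN_sub_abs w w') (abs_nonneg _) zero_le_one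
      _ = _ := one_mul _

theorem lpN_Phi_sub_aux (hp : p ≠ ∞) {L : ℝ} (hL : 0 ≤ L) (w w' : S → ℝ)
    (h : lpN p w' ≤ lpN p w) :
    lpN p (Phi p L w - Phi p L w') ≤ 2 * lpN p (w - w') := by
  set a := L * lpN p w with ha
  set a' := L * lpN p w' with ha'
  have e : Phi p L w - Phi p L w' = (fun s => cl (w s) a - cl (w' s) a) +
      (fun s => cl (w' s) a - cl (w' s) a') := by
    funext s
    simp only [Phi, Pi.sub_apply, Pi.add_apply]
    ring
  rw [e]
  refine (map_add_le_add (lpN p) _ _).trans ?_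
  have h1 : lpN p (fun s => cl (w s) a - cl (w' s) a) ≤ lpN p (w - w') := by
    apply lpN_mono hp
    intro s
    exact abs_cl_sub_left _ _ _
  have hdiff : lpN p w - lpN p w' ≤ lpN p (w - w') := (le_abs_self _).trans (lpN_sub_abs w w')
  have h2 : lpN p (fun s => cl (w' s) a - cl (w' s) a') ≤ lpN p w - lpN p w' := by
    rcases (lpN_nonneg (p := p) w').eq_or_lt with h0 | h0
    · have hz : ∀ s, w' s = 0 := by
        intro s
        have := abs_le_lpN hp w' s
        rw [← h0] at this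
        exact abs_nonpos_iff.1 this
      have : (fun s => cl (w' s) a - cl (w' s) a') = 0 := by
        funext s
        rw [hz s]
        have ha0 : 0 ≤ a := mul_nonneg hL (lpN_nonneg w)
        have ha0' : 0 ≤ a' := mul_nonneg hL (lpN_nonneg w')
        rw [cl_of_abs_le (by rwa [abs_zero]), cl_of_abs_le (by rwa [abs_zero])]
        simp
      rw [this, map_zero, ← h0]
      linarith [lpN_nonneg (p := p) w]
    · have h3 : lpN p (fun s => cl (w' s) a - cl (w' s) a') ≤
          ((lpN p w - lpN p w') / lpN p w') * lpN p w' := by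
        apply lpN_le_mul hp (div_nonneg (by linarith) h0.le)
        intro s
        rcases le_or_gt |w' s| a' with hs | hs
        · have haa : a' ≤ a := mul_le_mul_of_nonneg_left h hL
          rw [cl_of_abs_le hs, cl_of_abs_le (hs.trans haa), sub_self, abs_zero]
          have : 0 ≤ (lpN p w - lpN p w') / lpN p w' := div_nonneg (by linarith) h0.le
          positivity
        · refine (abs_cl_sub_right _ _ _).trans ?_
          rw [ha, ha', ← mul_sub, abs_mul, abs_of_nonneg hL,
            abs_of_nonneg (by linarith : 0 ≤ lpN p w - lpN p w')]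
          rw [div_mul_eq_mul_div, le_div_iff₀ h0]
          have : L * lpN p w' ≤ |w' s| := hs.le
          nlinarith [mul_le_mul_of_nonneg_left this (by linarith : 0 ≤ lpN p w - lpN p w')]
      rwa [div_mul_cancel₀ _ h0.ne'] at h3
  linarith

theorem lpN_Phi_sub (hp : p ≠ ∞) {L : ℝ} (hL : 0 ≤ L) (w w' : S → ℝ) :
    lpN p (Phi p L w - Phi p L w') ≤ 2 * lpN p (w - w') := by
  rcases le_total (lpN p w') (lpN p w) with h | h
  · exact lpN_Phi_sub_aux hp hL w w' h
  · have := lpN_Phi_sub_aux hp hL w' w h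
    rwa [map_sub_rev (lpN p), map_sub_rev (lpN p) w' w] at this

/-- sums over few coordinates -/
theorem sum_abs_le_card (hp : p ≠ ∞) (A : Finset S) (u : S → ℝ) {K : ℝ} (hK : (A.card : ℝ) ≤ K) :
    ∑ s ∈ A, |u s| ≤ K ^ (1 - 1 / p.toReal) * lpN p u := by
  have hP := one_le_toReal (p := p) hp
  have hP0 : 0 < p.toReal := by linarith
  have hK0 : 0 ≤ K := le_trans (Nat.cast_nonneg _) hK
  have h1 := Real.rpow_sum_le_const_mul_sum_rpow A u hP
  have h2 : ∑ s ∈ A, |u s| ^ p.toReal ≤ lpN p u ^ p.toReal := by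
    rw [lpN_rpow hp]
    apply Finset.sum_le_sum_of_subset_of_nonneg (Finset.subset_univ _)
    intro s _ _
    exact rpow_nonneg (abs_nonneg _) _
  rw [← rpow_le_rpow_iff (Finset.sum_nonneg (fun s _ => abs_nonneg _))
    (mul_nonneg (rpow_nonneg hK0 _) (lpN_nonneg u)) hP0]
  refine h1.trans ?_
  rw [mul_rpow (rpow_nonneg hK0 _) (lpN_nonneg u), ← rpow_mul hK0]
  have e : (1 - 1 / p.toReal) * p.toReal = p.toReal - 1 := by field_simp
  rw [e]
  apply mul_le_mul _ h2 (Finset.sum_nonneg (fun s _ => rpow_nonneg (abs_nonneg _) _))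
    (rpow_nonneg hK0 _)
  exact rpow_le_rpow (Nat.cast_nonneg _) hK (by linarith)

theorem l1_Psi_sub_aux (hp : p ≠ ∞) {L : ℝ} (hL : 0 < L) (w w' : S → ℝ)
    (h : lpN p w' ≤ lpN p w) :
    ∑ s, |(w s - Phi p L w s) - (w' s - Phi p L w' s)| ≤
      3 * L ^ (1 - p.toReal) * lpN p (w - w') := by
  classical
  have hP := one_le_toReal (p := p) hp
  have hP0 : 0 < p.toReal := by linarith
  set P := p.toReal with hPdef
  set a := L * lpN p w with ha
  set a' := L * lpN p w' with ha'
  have haa : a' ≤ a := mul_le_mul_of_nonneg_left h hL.le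
  have ha0 : 0 ≤ a := mul_nonneg hL.le (lpN_nonneg w)
  have hdiff : lpN p w - lpN p w' ≤ lpN p (w - w') := (le_abs_self _).trans (lpN_sub_abs w w')
  set A := (univ : Finset S).filter (fun s => L * lpN p w < |w s|) with hA
  set B := (univ : Finset S).filter (fun s => L * lpN p w' < |w' s|) with hB
  have hAc : (A.card : ℝ) ≤ L ^ (-P) := card_large hp w hL
  have hBc : (B.card : ℝ) ≤ L ^ (-P) := card_large hp w' hL
  have hpt : ∀ s, |(w s - Phi p L w s) - (w' s - Phi p L w' s)| ≤
      (if s ∈ A ∪ B then |(w - w') s| else 0) + (if s ∈ B then L * (lpN p w - lpN p w') else 0) := by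
    intro s
    have e : (w s - Phi p L w s) - (w' s - Phi p L w' s) =
        ((w s - cl (w s) a) - (w' s - cl (w' s) a)) - (cl (w' s) a - cl (w' s) a') := by
      simp only [Phi]; ring
    rw [e]
    refine (abs_sub _ _).trans ?_
    apply add_le_add
    · by_cases hs : s ∈ A ∪ B
      · rw [if_pos hs]
        exact abs_sh_sub_left _ _ _ ha0
      · rw [if_neg hs]
        rw [Finset.mem_union, not_or] at hs
        have h1 : |w s| ≤ a := by
          by_contra hc
          exact hs.1 (Finset.mem_filter.2 ⟨mem_univ _, not_le.1 hc⟩)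
        have h2 : |w' s| ≤ a := by
          by_contra hc
          exact hs.2 (Finset.mem_filter.2 ⟨mem_univ _, lt_of_le_of_lt haa (not_le.1 hc)⟩)
        rw [cl_of_abs_le h1, cl_of_abs_le h2]
        simp
    · by_cases hs : s ∈ B
      · rw [if_pos hs]
        refine (abs_cl_sub_right _ _ _).trans ?_
        rw [ha, ha', ← mul_sub, abs_mul, abs_of_pos hL, abs_of_nonneg (by linarith)]
      · rw [if_neg hs]
        have h2 : |w' s| ≤ a' := by
          by_contra hc
          exact hs (Finset.mem_filter.2 ⟨mem_univ _, not_le.1 hc⟩)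
        rw [cl_of_abs_le h2, cl_of_abs_le (h2.trans haa)]
        simp
  refine (Finset.sum_le_sum (fun s _ => hpt s)).trans ?_
  rw [Finset.sum_add_distrib, ← Finset.sum_filter, ← Finset.sum_filter]
  have eA : (univ : Finset S).filter (fun s => s ∈ A ∪ B) = A ∪ B := by
    ext s; simp
  have eB : (univ : Finset S).filter (fun s => s ∈ B) = B := by
    ext s; simp
  rw [eA, eB, Finset.sum_const, nsmul_eq_mul]
  have hLP : 0 < L ^ (-P) := rpow_pos_of_pos hL _
  have hABc : (((A ∪ B).card : ℕ) : ℝ) ≤ 2 * L ^ (-P) := by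
    have : ((A ∪ B).card : ℝ) ≤ A.card + B.card := by exact_mod_cast Finset.card_union_le A B
    linarith
  have h1 := sum_abs_le_card hp (A ∪ B) (w - w') hABc
  have h2 : (2 * L ^ (-P)) ^ (1 - 1 / P) ≤ 2 * L ^ (1 - P) := by
    rw [mul_rpow (by norm_num) hLP.le, ← rpow_mul hL.le]
    have e : -P * (1 - 1 / P) = 1 - P := by field_simp; ring
    rw [e]
    apply mul_le_mul_of_nonneg_right _ (rpow_nonneg hL.le _)
    calc (2 : ℝ) ^ (1 - 1 / P) ≤ 2 ^ (1 : ℝ) := by
          apply rpow_le_rpow_of_exponent_le (by norm_num)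
          have : 0 ≤ 1 / P := by positivity
          linarith
      _ = 2 := rpow_one 2
  have h3 : (B.card : ℝ) * (L * (lpN p w - lpN p w')) ≤ L ^ (1 - P) * lpN p (w - w') := by
    have e : L ^ (1 - P) = L ^ (-P) * L := by
      rw [show (1 - P) = -P + 1 by ring, rpow_add hL, rpow_one]
    rw [e, mul_assoc]
    apply mul_le_mul hBc _ (mul_nonneg hL.le (by linarith)) hLP.le
    exact mul_le_mul_of_nonneg_left hdiff hL.le
  have h4 := mul_le_mul_of_nonneg_right h2 (lpN_nonneg (p := p) (w - w'))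
  linarith

theorem l1_Psi_sub (hp : p ≠ ∞) {L : ℝ} (hL : 0 < L) (w w' : S → ℝ) :
    lpN 1 ((w - Phi p L w) - (w' - Phi p L w')) ≤ 3 * L ^ (1 - p.toReal) * lpN p (w - w') := by
  rw [lpN_one]
  rcases le_total (lpN p w') (lpN p w) with h | h
  · exact l1_Psi_sub_aux hp hL w w' h
  · have h1 := l1_Psi_sub_aux hp hL w' w h
    rw [map_sub_rev (lpN p) w' w] at h1
    refine le_trans (le_of_eq ?_) h1
    apply Finset.sum_congr rfl
    intro s _
    simp only [Pi.sub_apply]
    exact abs_sub_comm _ _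

end clip

end Vale.Agent.H22
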