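import Vale.Agent.H22.Clip

set_option linter.unusedSectionVars false

namespace Vale.Agent.H22

open Finset Real
open scoped ENNReal

section realineq

/-- tangent line inequality for powers -/
theorem rpow_sub_le {x y e : ℝ} (hx : 0 < x) (hy : 0 ≤ y) (hyx : y ≤ x) (he : 1 ≤ e) :
    x ^ e - y ^ e ≤ e * x ^ (e - 1) * (x - y) := by
  have h1 : 1 + e * ((y - x) / x) ≤ (1 + (y - x) / x) ^ e := by
    apply one_add_mul_self_le_rpow_one_add _ he
    rw [le_div_iff₀ hx]; linarith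
  have e1 : 1 + (y - x) / x = y / x := by field_simp; ring
  rw [e1, div_rpow hy hx.le] at h1
  have hxe : 0 < x ^ e := rpow_pos_of_pos hx _
  rw [le_div_iff₀ hxe] at h1
  have e2 : x ^ (e - 1) = x ^ e / x := by rw [rpow_sub_one hx.ne']
  rw [e2]
  have e3 : (1 + e * ((y - x) / x)) * x ^ e = x ^ e - e * (x ^ e / x) * (x - y) := by
    field_simp; ring
  rw [e3] at h1
  linarith

theorem pow_diff {w u K e θ : ℝ} (hw : 0 ≤ w) (hu : 0 ≤ u) (hK : w + u ≤ K) (hθ0 : 0 < θ)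
    (hθ1 : θ ≤ 1) (hθe : θ ≤ e) :
    (w + u) ^ e - w ^ e ≤ (e + 1) * (K ^ (e - θ) * u ^ θ) := by
  have he0 : 0 < e := by linarith
  rcases hu.eq_or_lt with h0 | h0
  · rw [← h0, add_zero, zero_rpow hθ0.ne']; simp
  have hK0 : 0 < K := by linarith
  have huK : u ≤ K := by linarith
  have hKu : 0 ≤ K ^ (e - θ) * u ^ θ := mul_nonneg (rpow_nonneg hK0.le _) (rpow_nonneg hu _)
  rcases le_total e 1 with he | he
  · have h1 : (w + u) ^ e ≤ w ^ e + u ^ e := Real.rpow_add_le_add_rpow hw hu he0.le he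
    have h2 : u ^ e = u ^ (e - θ) * u ^ θ := by rw [← rpow_add h0]; ring_nf
    have h3 : u ^ (e - θ) ≤ K ^ (e - θ) := rpow_le_rpow hu huK (by linarith)
    have h4 : u ^ e ≤ K ^ (e - θ) * u ^ θ := by
      rw [h2]; exact mul_le_mul_of_nonneg_right h3 (rpow_nonneg hu _)
    nlinarith
  · have hwu : 0 < w + u := by linarith
    have h1 := rpow_sub_le hwu hw (by linarith : w ≤ w + u) he
    have e0 : w + u - w = u := by ring
    rw [e0] at h1
    have h2 : (w + u) ^ (e - 1) ≤ K ^ (e - 1) := rpow_le_rpow hwu.le hK (by linarith)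
    have h3 : u = u ^ (1 - θ) * u ^ θ := by rw [← rpow_add h0]; ring_nf; rw [rpow_one]
    have h4 : u ^ (1 - θ) ≤ K ^ (1 - θ) := rpow_le_rpow hu huK (by linarith)
    have h5 : K ^ (e - θ) = K ^ (e - 1) * K ^ (1 - θ) := by rw [← rpow_add hK0]; ring_nf
    have h6 : (w + u) ^ (e - 1) * u ≤ K ^ (e - θ) * u ^ θ := by
      calc (w + u) ^ (e - 1) * u ≤ K ^ (e - 1) * u := mul_le_mul_of_nonneg_right h2 hu
        _ = K ^ (e - 1) * (u ^ (1 - θ) * u ^ θ) := by rw [← h3]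
        _ ≤ K ^ (e - 1) * (K ^ (1 - θ) * u ^ θ) := by
            apply mul_le_mul_of_nonneg_left _ (rpow_nonneg hK0.le _)
            exact mul_le_mul_of_nonneg_right h4 (rpow_nonneg hu _)
        _ = _ := by rw [h5]; ring
    have h7 := mul_le_mul_of_nonneg_left h6 he0.le
    nlinarith

variable {ι : Type*} [DecidableEq ι]

theorem bucket_upper (A : Finset ι) (v : ι → ℝ) {K P θ : ℝ} (hK : ∑ t ∈ A, |v t| ≤ K)
    (hθ0 : 0 < θ) (hθ1 : θ ≤ 1) (hθP : θ ≤ P - 1) :
    |∑ t ∈ A, v t| ^ P - ∑ t ∈ A, |v t| ^ P ≤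
      (P + 1) * (K ^ (P - 1 - θ) * ∑ t ∈ A, |v t| * (∑ t' ∈ A.erase t, |v t'|) ^ θ) := by
  have hP1 : 1 < P := by linarith
  set Sm := ∑ t ∈ A, |v t| with hSm
  have hS0 : 0 ≤ Sm := Finset.sum_nonneg (fun t _ => abs_nonneg _)
  have hK0 : 0 ≤ K := hS0.trans hK
  have h1 : |∑ t ∈ A, v t| ^ P ≤ Sm ^ P :=
    rpow_le_rpow (abs_nonneg _) (Finset.abs_sum_le_sum_abs _ _) (by linarith)
  have e1 : ∀ x : ℝ, 0 ≤ x → x ^ P = x * x ^ (P - 1) := by
    intro x hx
    rcases hx.eq_or_lt with h0 | h0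
    · rw [← h0, zero_rpow (by linarith)]; simp
    · rw [mul_comm, ← rpow_add_one h0.ne']; ring_nf
  have h2 : Sm ^ P - ∑ t ∈ A, |v t| ^ P =
      ∑ t ∈ A, |v t| * (Sm ^ (P - 1) - |v t| ^ (P - 1)) := by
    rw [e1 Sm hS0]
    simp_rw [mul_sub]
    rw [Finset.sum_sub_distrib, ← Finset.sum_mul]
    congr 1
    apply Finset.sum_congr rfl
    intro t _
    exact e1 _ (abs_nonneg _)
  have h3 : ∀ t ∈ A, |v t| * (Sm ^ (P - 1) - |v t| ^ (P - 1)) ≤
      |v t| * ((P + 1) * (K ^ (P - 1 - θ) * (∑ t' ∈ A.erase t, |v t'|) ^ θ)) := by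
    intro t ht
    apply mul_le_mul_of_nonneg_left _ (abs_nonneg _)
    have e2 : Sm = |v t| + ∑ t' ∈ A.erase t, |v t'| := (Finset.add_sum_erase A _ ht).symm
    have hE : 0 ≤ ∑ t' ∈ A.erase t, |v t'| := Finset.sum_nonneg (fun t _ => abs_nonneg _)
    rw [e2]
    have h := pow_diff (K := K) (e := P - 1) (abs_nonneg (v t)) hE (by rw [← e2]; exact hK)
      hθ0 hθ1 hθP
    refine h.trans ?_
    apply mul_le_mul_of_nonneg_right (by linarith)
    exact mul_nonneg (rpow_nonneg hK0 _) (rpow_nonneg hE _)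
  calc |∑ t ∈ A, v t| ^ P - ∑ t ∈ A, |v t| ^ P ≤ Sm ^ P - ∑ t ∈ A, |v t| ^ P := by linarith
    _ = _ := h2
    _ ≤ _ := Finset.sum_le_sum h3
    _ = _ := by
      rw [Finset.mul_sum, Finset.mul_sum]
      apply Finset.sum_congr rfl
      intro t _; ring

theorem bucket_lower (A : Finset ι) (v : ι → ℝ) {K P θ : ℝ} (hK : ∑ t ∈ A, |v t| ≤ K)
    (hθ0 : 0 < θ) (hθP : θ ≤ P - 1) :
    ∑ t ∈ A, |v t| ^ P - |∑ t ∈ A, v t| ^ P ≤
      (P + 1) * (K ^ (P - 1 - θ) * ∑ t ∈ A, |v t| * (∑ t' ∈ A.erase t, |v t'|) ^ θ) := by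
  have hP1 : 1 < P := by linarith
  have hE : ∀ t, 0 ≤ ∑ t' ∈ A.erase t, |v t'| := fun t =>
    Finset.sum_nonneg (fun t _ => abs_nonneg _)
  have hSm0 : 0 ≤ ∑ t ∈ A, |v t| := Finset.sum_nonneg (fun t _ => abs_nonneg _)
  have hK0 : 0 ≤ K := hSm0.trans hK
  -- convert powers
  have hconv : ∀ t ∈ A, |v t| * (∑ t' ∈ A.erase t, |v t'|) ^ (P - 1) ≤
      K ^ (P - 1 - θ) * (|v t| * (∑ t' ∈ A.erase t, |v t'|) ^ θ) := by
    intro t ht
    have hle : ∑ t' ∈ A.erase t, |v t'| ≤ K := by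
      refine le_trans ?_ hK
      rw [← Finset.add_sum_erase A _ ht]
      linarith [abs_nonneg (v t)]
    rcases (hE t).eq_or_lt with h0 | h0
    · rw [← h0, zero_rpow (by linarith), zero_rpow hθ0.ne']; simp
    · have e1 : (∑ t' ∈ A.erase t, |v t'|) ^ (P - 1) =
          (∑ t' ∈ A.erase t, |v t'|) ^ (P - 1 - θ) * (∑ t' ∈ A.erase t, |v t'|) ^ θ := by
        rw [← rpow_add h0]; ring_nf
      rw [e1]
      have h1 : (∑ t' ∈ A.erase t, |v t'|) ^ (P - 1 - θ) ≤ K ^ (P - 1 - θ) :=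
        rpow_le_rpow h0.le hle (by linarith)
      have h2 : 0 ≤ |v t| * (∑ t' ∈ A.erase t, |v t'|) ^ θ :=
        mul_nonneg (abs_nonneg _) (rpow_nonneg h0.le _)
      nlinarith [mul_le_mul_of_nonneg_right h1 h2]
  suffices h : ∑ t ∈ A, |v t| ^ P - |∑ t ∈ A, v t| ^ P ≤
      (P + 1) * ∑ t ∈ A, |v t| * (∑ t' ∈ A.erase t, |v t'|) ^ (P - 1) by
    refine h.trans ?_
    apply mul_le_mul_of_nonneg_left _ (by linarith)
    rw [Finset.mul_sum]
    exact Finset.sum_le_sum hconv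
  rcases A.eq_empty_or_nonempty with hA | hA
  · subst hA
    simp [zero_rpow (by linarith : P ≠ 0)]
  obtain ⟨t0, ht0, hmax⟩ := A.exists_max_image (fun t => |v t|) hA
  set w0 := |v t0| with hw0
  have hw00 : 0 ≤ w0 := abs_nonneg _
  -- for other indices, the rest dominates
  have hdom : ∀ t ∈ A.erase t0, |v t| ≤ w0 ∧ w0 ≤ ∑ t' ∈ A.erase t, |v t'| := by
    intro t ht
    obtain ⟨hne, htA⟩ := Finset.mem_erase.1 ht
    refine ⟨hmax t htA, ?_⟩
    exact Finset.single_le_sum (f := fun t' => |v t'|) (fun t _ => abs_nonneg _)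
      (Finset.mem_erase.2 ⟨hne.symm, ht0⟩)
  have hother : ∑ t ∈ A.erase t0, |v t| ^ P ≤
      ∑ t ∈ A.erase t0, |v t| * (∑ t' ∈ A.erase t, |v t'|) ^ (P - 1) := by
    apply Finset.sum_le_sum
    intro t ht
    obtain ⟨h1, h2⟩ := hdom t ht
    rcases (abs_nonneg (v t)).eq_or_lt with h0 | h0
    · rw [← h0, zero_rpow (by linarith)]; simp
    · have e1 : |v t| ^ P = |v t| * |v t| ^ (P - 1) := by
        rw [mul_comm, ← rpow_add_one h0.ne']; ring_nf
      rw [e1]
      exact mul_le_mul_of_nonneg_left (rpow_le_rpow h0.le (h1.trans h2) (by linarith)) h0.le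
  have hmain : w0 ^ P - |∑ t ∈ A, v t| ^ P ≤
      P * ∑ t ∈ A.erase t0, |v t| * (∑ t' ∈ A.erase t, |v t'|) ^ (P - 1) := by
    have hnn : 0 ≤ ∑ t ∈ A.erase t0, |v t| * (∑ t' ∈ A.erase t, |v t'|) ^ (P - 1) :=
      Finset.sum_nonneg (fun t _ => mul_nonneg (abs_nonneg _) (rpow_nonneg (hE t) _))
    rcases le_or_gt w0 |∑ t ∈ A, v t| with h | h
    · have := rpow_le_rpow hw00 h (by linarith : 0 ≤ P)
      have : 0 ≤ P * ∑ t ∈ A.erase t0, |v t| * (∑ t' ∈ A.erase t, |v t'|) ^ (P - 1) :=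
        mul_nonneg (by linarith) hnn
      linarith
    · have hw0pos : 0 < w0 := lt_of_le_of_lt (abs_nonneg _) h
      have h1 := rpow_sub_le hw0pos (abs_nonneg _) h.le hP1.le
      have h2 : w0 - |∑ t ∈ A, v t| ≤ ∑ t ∈ A.erase t0, |v t| := by
        have e1 : v t0 = ∑ t ∈ A, v t - ∑ t ∈ A.erase t0, v t := by
          rw [← Finset.add_sum_erase A _ ht0]; ring
        have h3 : w0 ≤ |∑ t ∈ A, v t| + |∑ t ∈ A.erase t0, v t| := by
          rw [hw0, e1]; exact abs_sub _ _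
        have h4 := Finset.abs_sum_le_sum_abs v (A.erase t0)
        linarith
      have h3 : w0 ^ (P - 1) * ∑ t ∈ A.erase t0, |v t| ≤
          ∑ t ∈ A.erase t0, |v t| * (∑ t' ∈ A.erase t, |v t'|) ^ (P - 1) := by
        rw [Finset.mul_sum]
        apply Finset.sum_le_sum
        intro t ht
        rw [mul_comm]
        apply mul_le_mul_of_nonneg_left _ (abs_nonneg _)
        exact rpow_le_rpow hw00 (hdom t ht).2 (by linarith)
      have h4 : 0 ≤ P * w0 ^ (P - 1) := mul_nonneg (by linarith) (rpow_nonneg hw00 _)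
      calc w0 ^ P - |∑ t ∈ A, v t| ^ P ≤ P * w0 ^ (P - 1) * (w0 - |∑ t ∈ A, v t|) := h1
        _ ≤ P * w0 ^ (P - 1) * ∑ t ∈ A.erase t0, |v t| := mul_le_mul_of_nonneg_left h2 h4
        _ = P * (w0 ^ (P - 1) * ∑ t ∈ A.erase t0, |v t|) := by ring
        _ ≤ _ := mul_le_mul_of_nonneg_left h3 (by linarith)
  rw [← Finset.add_sum_erase A _ ht0]
  have hlast : ∑ t ∈ A.erase t0, |v t| * (∑ t' ∈ A.erase t, |v t'|) ^ (P - 1) ≤
      ∑ t ∈ A, |v t| * (∑ t' ∈ A.erase t, |v t'|) ^ (P - 1) := by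
    apply Finset.sum_le_sum_of_subset_of_nonneg (Finset.erase_subset _ _)
    intro t _ _
    exact mul_nonneg (abs_nonneg _) (rpow_nonneg (hE t) _)
  have h5 := mul_le_mul_of_nonneg_left hlast (by linarith : 0 ≤ P + 1)
  linarith

end realineq

section code

variable {q : ℕ} [Fact q.Prime] {g : ℕ}

/-- evaluation hash -/
def ev (c : Fin g → ZMod q) (a : ZMod q) : ZMod q := ∑ i, c i * a ^ (i : ℕ)

theorem collisions {c c' : Fin g → ZMod q} (h : c ≠ c') :
    ((univ : Finset (ZMod q)).filter (fun a => ev c a = ev c' a)).card ≤ g := by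
  classical
  obtain ⟨i0, hi0⟩ := Function.ne_iff.1 h
  set Q : Polynomial (ZMod q) := ∑ i : Fin g, Polynomial.C (c i - c' i) * Polynomial.X ^ (i : ℕ)
    with hQ
  have hcoeff : Q.coeff i0 = c i0 - c' i0 := by
    rw [hQ, Polynomial.finsetSum_coeff]
    rw [Finset.sum_eq_single i0]
    · rw [Polynomial.coeff_C_mul_X_pow, if_pos rfl]
    · intro b _ hb
      rw [Polynomial.coeff_C_mul_X_pow, if_neg]
      intro hcon
      exact hb (Fin.ext hcon.symm)
    · intro hh; exact absurd (mem_univ _) hh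
  have hQ0 : Q ≠ 0 := by
    intro hz
    rw [hz, Polynomial.coeff_zero] at hcoeff
    exact hi0 (sub_eq_zero.1 hcoeff.symm)
  have hdeg : Q.natDegree ≤ g := by
    apply Polynomial.natDegree_sum_le_of_forall_le
    intro i _
    exact (Polynomial.natDegree_C_mul_X_pow_le _ _).trans i.2.le
  refine le_trans ?_ hdeg
  apply Polynomial.card_le_degree_of_subset_roots
  intro a ha
  have ha' : a ∈ (univ : Finset (ZMod q)).filter (fun a => ev c a = ev c' a) := ha
  rw [Finset.mem_filter] at ha'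
  rw [Polynomial.mem_roots hQ0, Polynomial.IsRoot.def, hQ, Polynomial.eval_finsetSum]
  simp only [Polynomial.eval_mul, Polynomial.eval_C, Polynomial.eval_pow, Polynomial.eval_X,
    sub_mul, Finset.sum_sub_distrib]
  exact sub_eq_zero.2 ha'.2

end code

section hash

variable {ι : Type*} [Fintype ι] [DecidableEq ι] {q : ℕ} [Fact q.Prime] {g : ℕ}

/-- the other mass in the bucket of `t` under the hash with parameter `a` -/
noncomputable def rest (c : ι → Fin g → ZMod q) (v : ι → ℝ) (a : ZMod q) (t : ι) : ℝ :=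
  ∑ t' ∈ (univ.filter (fun t' => ev (c t') a = ev (c t) a)).erase t, |v t'|

theorem rest_nonneg (c : ι → Fin g → ZMod q) (v : ι → ℝ) (a : ZMod q) (t : ι) :
    0 ≤ rest c v a t := Finset.sum_nonneg (fun _ _ => abs_nonneg _)

theorem sum_rest_le (c : ι → Fin g → ZMod q) (hc : Function.Injective c) (v : ι → ℝ) (t : ι) :
    ∑ a, rest c v a t ≤ g * ∑ t', |v t'| := by
  classical
  have h1 : ∀ a, rest c v a t = ∑ t', if (t' ≠ t ∧ ev (c t') a = ev (c t) a) then |v t'| else 0 := by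
    intro a
    rw [rest, ← Finset.sum_filter]
    apply Finset.sum_congr _ (fun _ _ => rfl)
    ext t'
    simp [Finset.mem_erase]
  simp_rw [h1]
  rw [Finset.sum_comm, Finset.mul_sum]
  apply Finset.sum_le_sum
  intro t' _
  by_cases htt : t' = t
  · subst htt
    simp
    positivity
  · have h2 : ∀ a, (if (t' ≠ t ∧ ev (c t') a = ev (c t) a) then |v t'| else 0) =
        if ev (c t') a = ev (c t) a then |v t'| else 0 := by
      intro a; simp [htt]
    simp_rw [h2]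
    rw [← Finset.sum_filter, Finset.sum_const, nsmul_eq_mul]
    apply mul_le_mul_of_nonneg_right _ (abs_nonneg _)
    exact_mod_cast collisions (fun h => htt (hc h))

theorem hash_avg (c : ι → Fin g → ZMod q) (hc : Function.Injective c) (v : ι → ℝ) {P θ : ℝ}
    (hθ0 : 0 < θ) (hθ1 : θ ≤ 1) (hθP : θ ≤ P - 1) :
    |(∑ a : ZMod q, ∑ b : ZMod q, |∑ t ∈ univ.filter (fun t => ev (c t) a = b), v t| ^ P) / q -
      ∑ t, |v t| ^ P| ≤ (P + 1) * ((∑ t, |v t|) ^ P * ((g : ℝ) / q) ^ θ) := by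
  have hP1 : 1 < P := by linarith
  have hq0 : (0 : ℝ) < q := by exact_mod_cast (Fact.out : q.Prime).pos
  set K := ∑ t, |v t| with hK
  have hK0 : 0 ≤ K := Finset.sum_nonneg (fun _ _ => abs_nonneg _)
  -- fixed a
  have hfix : ∀ a : ZMod q,
      |∑ b : ZMod q, |∑ t ∈ univ.filter (fun t => ev (c t) a = b), v t| ^ P - ∑ t, |v t| ^ P| ≤
      (P + 1) * (K ^ (P - 1 - θ) * ∑ t, |v t| * rest c v a t ^ θ) := by
    intro a
    have e1 : ∑ t, |v t| ^ P = ∑ b : ZMod q, ∑ t ∈ univ.filter (fun t => ev (c t) a = b),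
        |v t| ^ P := (Finset.sum_fiberwise univ (fun t => ev (c t) a) (fun t => |v t| ^ P)).symm
    have e2 : ∑ t, |v t| * rest c v a t ^ θ =
        ∑ b : ZMod q, ∑ t ∈ univ.filter (fun t => ev (c t) a = b), |v t| *
          (∑ t' ∈ (univ.filter (fun t => ev (c t) a = b)).erase t, |v t'|) ^ θ := by
      rw [← Finset.sum_fiberwise univ (fun t => ev (c t) a) (fun t => |v t| * rest c v a t ^ θ)]
      apply Finset.sum_congr rfl
      intro b _
      apply Finset.sum_congr rfl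
      intro t ht
      rw [Finset.mem_filter] at ht
      rw [rest, ht.2]
    rw [e1, e2, ← Finset.sum_sub_distrib, Finset.mul_sum, Finset.mul_sum]
    refine (Finset.abs_sum_le_sum_abs _ _).trans ?_
    apply Finset.sum_le_sum
    intro b _
    have hKb : ∑ t ∈ univ.filter (fun t => ev (c t) a = b), |v t| ≤ K :=
      Finset.sum_le_sum_of_subset_of_nonneg (Finset.filter_subset _ _)
        (fun _ _ _ => abs_nonneg _)
    rw [abs_le]
    constructor
    · have := bucket_lower (univ.filter (fun t => ev (c t) a = b)) v hKb hθ0 hθP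
      linarith
    · exact bucket_upper (univ.filter (fun t => ev (c t) a = b)) v hKb hθ0 hθ1 hθP
  have e3 : (∑ a : ZMod q, ∑ b : ZMod q,
      |∑ t ∈ univ.filter (fun t => ev (c t) a = b), v t| ^ P) / q - ∑ t, |v t| ^ P =
      (∑ a : ZMod q, (∑ b : ZMod q,
      |∑ t ∈ univ.filter (fun t => ev (c t) a = b), v t| ^ P - ∑ t, |v t| ^ P)) / q := by
    rw [Finset.sum_sub_distrib, Finset.sum_const, Finset.card_univ, ZMod.card, nsmul_eq_mul]
    field_simp
  rw [e3, abs_div, abs_of_pos hq0, div_le_iff₀ hq0]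
  refine (Finset.abs_sum_le_sum_abs _ _).trans ?_
  refine (Finset.sum_le_sum (fun a _ => hfix a)).trans ?_
  rw [← Finset.mul_sum, ← Finset.mul_sum, Finset.sum_comm]
  -- concavity
  have hconc : ∀ t, ∑ a : ZMod q, |v t| * rest c v a t ^ θ ≤ |v t| * (q * (g * K / q) ^ θ) := by
    intro t
    rw [← Finset.mul_sum]
    apply mul_le_mul_of_nonneg_left _ (abs_nonneg _)
    have hm := Real.arith_mean_le_rpow_mean (univ : Finset (ZMod q)) (fun _ => (q : ℝ)⁻¹)
      (fun a => rest c v a t ^ θ) (fun _ _ => by positivity) (by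
        rw [Finset.sum_const, Finset.card_univ, ZMod.card, nsmul_eq_mul]
        exact mul_inv_cancel₀ hq0.ne') (fun a _ => rpow_nonneg (rest_nonneg _ _ _ _) _)
      (p := 1 / θ) (by rw [le_div_iff₀ hθ0]; linarith)
    rw [← Finset.mul_sum] at hm
    have e4 : ∀ a : ZMod q, (q : ℝ)⁻¹ * (rest c v a t ^ θ) ^ (1 / θ) = (q : ℝ)⁻¹ * rest c v a t := by
      intro a
      rw [← rpow_mul (rest_nonneg _ _ _ _), mul_one_div_cancel hθ0.ne', rpow_one]
    simp_rw [e4] at hm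
    rw [← Finset.mul_sum, one_div_one_div] at hm
    have h5 : ((q : ℝ)⁻¹ * ∑ a, rest c v a t) ^ θ ≤ (g * K / q) ^ θ := by
      apply rpow_le_rpow
      · exact mul_nonneg (inv_nonneg.2 hq0.le) (Finset.sum_nonneg (fun _ _ => rest_nonneg _ _ _ _))
      · rw [inv_mul_eq_div]
        exact div_le_div_of_nonneg_right (sum_rest_le c hc v t) hq0.le
      · exact hθ0.le
    have h6 := hm.trans h5
    rw [inv_mul_le_iff₀ hq0] at h6
    exact h6
  have hsum : ∑ t, ∑ a : ZMod q, |v t| * rest c v a t ^ θ ≤ K * (q * (g * K / q) ^ θ) := by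
    refine (Finset.sum_le_sum (fun t _ => hconc t)).trans ?_
    rw [← Finset.sum_mul]
  have hfin : K ^ (P - 1 - θ) * (K * (q * (g * K / q) ^ θ)) ≤ K ^ P * ((g : ℝ) / q) ^ θ * q := by
    rcases hK0.eq_or_lt with h0 | h0
    · rw [← h0, zero_rpow (by linarith : P ≠ 0)]; simp
    · have e5 : ((g : ℝ) * K / q) ^ θ = K ^ θ * (g / q) ^ θ := by
        rw [← mul_rpow hK0 (by positivity)]
        congr 1; ring
      have e6 : K ^ P = K ^ (P - 1 - θ) * K * K ^ θ := by
        rw [← rpow_add_one h0.ne', ← rpow_add h0]; ring_nf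
      rw [e5, e6]
      apply le_of_eq; ring
  calc (P + 1) * (K ^ (P - 1 - θ) * ∑ t, ∑ a : ZMod q, |v t| * rest c v a t ^ θ)
      ≤ (P + 1) * (K ^ (P - 1 - θ) * (K * (q * (g * K / q) ^ θ))) := by
        apply mul_le_mul_of_nonneg_left _ (by linarith)
        exact mul_le_mul_of_nonneg_left hsum (rpow_nonneg hK0 _)
    _ ≤ (P + 1) * (K ^ P * ((g : ℝ) / q) ^ θ * q) :=
        mul_le_mul_of_nonneg_left hfin (by linarith)
    _ = _ := by ring

end hash

end Vale.Agent.H22
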