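import Vale.Agent.H22.SampleStep
import Vale.Agent.H22.Hash

set_option linter.unusedSectionVars false

namespace Vale.Agent.H22

open Finset Real
open scoped ENNReal

section compress

variable {V : Type*} [Fintype V] {p : ℝ≥0∞} [Fact (1 ≤ p)]

theorem hash_step (hp : p ≠ ∞) (d : V → V → ℝ) (hd0 : ∀ i j, 0 ≤ d i j) {N : ℕ}
    (u : V → Fin N → ℝ) {K : ℝ} (hK0 : 0 ≤ K) (hK : ∀ i j, lpN 1 (u i - u j) ≤ K * d i j)
    {q : ℕ} [Fact q.Prime] {g : ℕ} (hg : N ≤ q ^ g) {θ : ℝ} (hθ0 : 0 < θ) (hθ1 : θ ≤ 1)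
    (hθP : θ ≤ p.toReal - 1) :
    ∃ z : V → ZMod q × ZMod q → ℝ, ∀ i j,
      |lpN p (z i - z j) ^ p.toReal - lpN p (u i - u j) ^ p.toReal| ≤
        (p.toReal + 1) * (K ^ p.toReal * ((g : ℝ) / q) ^ θ) * d i j ^ p.toReal := by
  classical
  have hP1 : 1 < p.toReal := by linarith
  set P := p.toReal with hPdef
  have hP0 : 0 < P := by linarith
  have hq0 : (0 : ℝ) < q := by exact_mod_cast (Fact.out : q.Prime).pos
  have hcard : Fintype.card (Fin N) ≤ Fintype.card (Fin g → ZMod q) := by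
    rw [Fintype.card_fin, Fintype.card_fun, ZMod.card, Fintype.card_fin]
    exact hg
  obtain ⟨c⟩ := Function.Embedding.nonempty_of_card_le hcard
  refine ⟨fun i ab => ((q : ℝ)⁻¹) ^ (1 / P) *
    ∑ t ∈ univ.filter (fun t => ev (c t) ab.1 = ab.2), u i t, ?_⟩
  intro i j
  have hqi : 0 ≤ (q : ℝ)⁻¹ := by positivity
  have hk : lpN p ((fun ab : ZMod q × ZMod q => ((q : ℝ)⁻¹) ^ (1 / P) *
      ∑ t ∈ univ.filter (fun t => ev (c t) ab.1 = ab.2), u i t) -
      (fun ab : ZMod q × ZMod q => ((q : ℝ)⁻¹) ^ (1 / P) *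
      ∑ t ∈ univ.filter (fun t => ev (c t) ab.1 = ab.2), u j t)) ^ P =
      (∑ a : ZMod q, ∑ b : ZMod q,
        |∑ t ∈ univ.filter (fun t => ev (c t) a = b), (u i - u j) t| ^ P) / q := by
    rw [lpN_rpow hp, Fintype.sum_prod_type, Finset.sum_div]
    apply Finset.sum_congr rfl
    intro a _
    rw [Finset.sum_div]
    apply Finset.sum_congr rfl
    intro b _
    simp only [Pi.sub_apply]
    rw [← mul_sub, ← Finset.sum_sub_distrib, ← hPdef, abs_mul,
      abs_of_nonneg (rpow_nonneg hqi _), mul_rpow (rpow_nonneg hqi _) (abs_nonneg _),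
      ← rpow_mul hqi, one_div_mul_cancel hP0.ne', rpow_one, div_eq_inv_mul]
  rw [hk, lpN_rpow hp, ← hPdef]
  have h := hash_avg c c.injective (u i - u j) hθ0 hθ1 hθP
  refine h.trans ?_
  rw [mul_assoc]
  apply mul_le_mul_of_nonneg_left _ (by linarith)
  have h1 : ∑ t, |(u i - u j) t| ≤ K * d i j := by
    have := hK i j
    rwa [lpN_one] at this
  have h2 : (∑ t, |(u i - u j) t|) ^ P ≤ K ^ P * d i j ^ P := by
    rw [← mul_rpow hK0 (hd0 i j)]
    exact rpow_le_rpow (Finset.sum_nonneg (fun _ _ => abs_nonneg _)) h1 hP0.le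
  have h3 : 0 ≤ ((g : ℝ) / q) ^ θ := by positivity
  nlinarith [mul_le_mul_of_nonneg_right h2 h3]

/-- the constant in the sampling step -/
noncomputable def K1 (δ A P n : ℝ) : ℝ := 32 * A ^ (2 * P) / δ ^ 2 * log (4 * n ^ 2) + 1

theorem compress (hp : p ≠ ∞) (hV : 2 ≤ Fintype.card V) (d : V → V → ℝ)
    (hd0 : ∀ i j, 0 ≤ d i j) {S : Type*} [Fintype S] [Nonempty S] (f : V → S → ℝ)
    {A lam Γ Q δ : ℝ} (hA : 1 ≤ A) (ha : ∀ i j, lpN p (f i - f j) ≤ A * d i j)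
    (hb : ∀ i j s, |f i s - f j s| ≤ lam * d i j) (hc : ∀ i j, lpN 1 (f i - f j) ≤ Γ * d i j)
    (hl0 : 0 < lam) (hΓ0 : 0 < Γ) (hl : 1 ≤ Fintype.card S * lam ^ p.toReal)
    (hlΓ : 1 ≤ lam ^ (p.toReal - 1) * Γ) (hQ : lam ^ (p.toReal - 1) * Γ ≤ Q)
    (hδ0 : 0 < δ) (hδ1 : δ ≤ 1) {θ : ℝ} (hθ0 : 0 < θ) (hθ1 : θ ≤ 1) (hθP : θ ≤ p.toReal - 1)
    {g : ℕ} (hg : Fintype.card S * lam ^ p.toReal *
      K1 δ A p.toReal (Fintype.card V) ≤ 2 ^ g)
    {q : ℕ} [Fact q.Prime]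
    (hq : g * (2 * (p.toReal + 1) *
      (2 * K1 δ A p.toReal (Fintype.card V) * Q) ^ p.toReal / δ) ^ (1 / θ) ≤ q) :
    ∃ z : V → ZMod q × ZMod q → ℝ, ∀ i j,
      |lpN p (z i - z j) ^ p.toReal - lpN p (f i - f j) ^ p.toReal| ≤
        δ * d i j ^ p.toReal := by
  have hP1 : 1 < p.toReal := by linarith
  set P := p.toReal with hPdef
  have hP0 : 0 < P := by linarith
  set n : ℝ := (Fintype.card V : ℝ) with hn
  have hn2 : 2 ≤ n := by rw [hn]; exact_mod_cast hV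
  set M : ℝ := (Fintype.card S : ℝ) with hM
  have hM0 : 0 < M := by
    rw [hM]; exact_mod_cast Fintype.card_pos (α := S)
  have hAP : 1 ≤ A ^ P := one_le_rpow hA hP0.le
  have hAP0 : 0 < A ^ P := by linarith
  set ε := δ / (2 * A ^ P) with hε
  have hε0 : 0 < ε := by positivity
  have hε1 : ε ≤ 1 := by
    rw [hε, div_le_one (by positivity)]
    linarith
  have hlog : 0 < log (4 * n ^ 2) := log_pos (by nlinarith)
  have hA2 : A ^ (2 * P) = A ^ P * A ^ P := by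
    rw [← rpow_add (by linarith : 0 < A)]; ring_nf
  have hK1 : K1 δ A P n = 8 / ε ^ 2 * log (4 * n ^ 2) + 1 := by
    rw [K1, hA2, hε]
    field_simp
    ring
  have hK1pos : 1 ≤ K1 δ A P n := by
    rw [hK1]
    have : 0 ≤ 8 / ε ^ 2 * log (4 * n ^ 2) := by positivity
    linarith
  set B := M * lam ^ P with hB
  have hB0 : 0 < B := by positivity
  set N : ℕ := ⌊B * (8 / ε ^ 2) * log (4 * n ^ 2)⌋₊ + 1 with hN
  have hNr : (0 : ℝ) < N := by rw [hN]; positivity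
  have hNlow : B * (8 / ε ^ 2) * log (4 * n ^ 2) < N := by
    rw [hN]; push_cast; exact Nat.lt_floor_add_one _
  have hNup : (N : ℝ) ≤ B * K1 δ A P n := by
    rw [hN, hK1]; push_cast
    have h1 := Nat.floor_le (by positivity : 0 ≤ B * (8 / ε ^ 2) * log (4 * n ^ 2))
    nlinarith
  have hNexp : 4 * n ^ 2 * exp (-(ε ^ 2 / (8 * B))) ^ N < 1 := by
    rw [← exp_nat_mul]
    have h2 : log (4 * n ^ 2) < N * (ε ^ 2 / (8 * B)) := by
      have : B * (8 / ε ^ 2) * log (4 * n ^ 2) * (ε ^ 2 / (8 * B)) < N * (ε ^ 2 / (8 * B)) :=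
        mul_lt_mul_of_pos_right hNlow (by positivity)
      have e : B * (8 / ε ^ 2) * log (4 * n ^ 2) * (ε ^ 2 / (8 * B)) = log (4 * n ^ 2) := by
        field_simp
      rwa [e] at this
    have h3 : (4 * n ^ 2) = exp (log (4 * n ^ 2)) := (exp_log (by positivity)).symm
    rw [h3, ← exp_add, exp_lt_one_iff]
    have : (N : ℝ) * -(ε ^ 2 / (8 * B)) = -(N * (ε ^ 2 / (8 * B))) := by ring
    rw [this]; linarith
  obtain ⟨u, hu⟩ := sample_step hp d hd0 f hA ha hb hc hl0 hΓ0 hl hlΓ hε0 hε1 N (by omega) hNexp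
  set Γ1 := ((N : ℝ) / M) ^ (1 - 1 / P) * (2 * Γ) with hΓ1
  have hPinv : 0 ≤ 1 - 1 / P := by
    have : 1 / P ≤ 1 := by rw [div_le_one hP0]; linarith
    linarith
  have hΓ1le : Γ1 ≤ 2 * K1 δ A P n * Q := by
    have h1 : (N : ℝ) / M ≤ lam ^ P * K1 δ A P n := by
      rw [div_le_iff₀ hM0]
      calc (N : ℝ) ≤ B * K1 δ A P n := hNup
        _ = _ := by rw [hB]; ring
    have h2 : ((N : ℝ) / M) ^ (1 - 1 / P) ≤ lam ^ (P - 1) * K1 δ A P n := by
      refine (rpow_le_rpow (by positivity) h1 hPinv).trans ?_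
      rw [mul_rpow (by positivity) (by linarith), ← rpow_mul hl0.le]
      have e : P * (1 - 1 / P) = P - 1 := by field_simp
      rw [e]
      apply mul_le_mul_of_nonneg_left _ (by positivity)
      calc K1 δ A P n ^ (1 - 1 / P) ≤ K1 δ A P n ^ (1 : ℝ) := by
            apply rpow_le_rpow_of_exponent_le hK1pos
            have : 0 ≤ 1 / P := by positivity
            linarith
        _ = _ := rpow_one _
    calc Γ1 ≤ lam ^ (P - 1) * K1 δ A P n * (2 * Γ) :=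
          mul_le_mul_of_nonneg_right h2 (by linarith)
      _ = 2 * K1 δ A P n * (lam ^ (P - 1) * Γ) := by ring
      _ ≤ 2 * K1 δ A P n * Q := mul_le_mul_of_nonneg_left hQ (by linarith)
  have hΓ10 : 0 ≤ Γ1 := by positivity
  have hNg : N ≤ q ^ g := by
    have h1 : (N : ℝ) ≤ 2 ^ g := hNup.trans hg
    have h2 : N ≤ 2 ^ g := by exact_mod_cast h1
    exact h2.trans (Nat.pow_le_pow_left (Fact.out : q.Prime).two_le g)
  obtain ⟨z, hz⟩ := hash_step hp d hd0 u hΓ10 (fun i j => (hu i j).2) hNg hθ0 hθ1 hθP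
  refine ⟨z, fun i j => ?_⟩
  have hdP : 0 ≤ d i j ^ P := rpow_nonneg (hd0 i j) _
  have h1 := (hu i j).1
  have h2 := hz i j
  have h3 : ε * A ^ P = δ / 2 := by rw [hε]; field_simp
  have hq0 : (0 : ℝ) < q := by exact_mod_cast (Fact.out : q.Prime).pos
  have h4 : (P + 1) * (Γ1 ^ P * ((g : ℝ) / q) ^ θ) ≤ δ / 2 := by
    have hQ0 : 0 ≤ Q := by linarith
    set E := 2 * K1 δ A P n * Q with hE
    have hE0 : 0 ≤ E := by positivity
    have h5 : Γ1 ^ P ≤ E ^ P := rpow_le_rpow hΓ10 hΓ1le hP0.le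
    set Y := 2 * (P + 1) * E ^ P / δ with hY
    have hY0 : 0 ≤ Y := by positivity
    have h6 : ((g : ℝ) / q) ^ θ * Y ≤ 1 := by
      have h7 : (g : ℝ) * Y ^ (1 / θ) / q ≤ 1 := by
        rw [div_le_one hq0]; exact hq
      have h8 : ((g : ℝ) * Y ^ (1 / θ) / q) ^ θ ≤ 1 := rpow_le_one (by positivity) h7 hθ0.le
      have e : ((g : ℝ) * Y ^ (1 / θ) / q) = (g / q) * Y ^ (1 / θ) := by ring
      rw [e, mul_rpow (by positivity) (by positivity), ← rpow_mul hY0,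
        one_div_mul_cancel hθ0.ne', rpow_one] at h8
      exact h8
    have h9 : 0 ≤ ((g : ℝ) / q) ^ θ := by positivity
    calc (P + 1) * (Γ1 ^ P * ((g : ℝ) / q) ^ θ) ≤ (P + 1) * (E ^ P * ((g : ℝ) / q) ^ θ) := by
          apply mul_le_mul_of_nonneg_left _ (by linarith)
          exact mul_le_mul_of_nonneg_right h5 h9
      _ = δ / 2 * (((g : ℝ) / q) ^ θ * Y) := by
          rw [hY]; field_simp
      _ ≤ δ / 2 * 1 := mul_le_mul_of_nonneg_left h6 (by linarith)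
      _ = δ / 2 := mul_one _
  have h5 := mul_le_mul_of_nonneg_right h4 hdP
  rw [h3] at h1
  have h6 : lpN p (z i - z j) ^ P - lpN p (f i - f j) ^ P =
      (lpN p (z i - z j) ^ P - lpN p (u i - u j) ^ P) +
      (lpN p (u i - u j) ^ P - lpN p (f i - f j) ^ P) := by ring
  rw [h6]
  refine (abs_add_le _ _).trans ?_
  linarith

end compress

end Vale.Agent.H22
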