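import Vale.Agent.H22.Slopes
import Vale.Agent.H22.Clip

set_option linter.unusedSectionVars false

namespace Vale.Agent.H22

open Finset Real
open scoped ENNReal

section linear

variable {V : Type*} [Fintype V] [PseudoMetricSpace V]
variable {W : Type*} [AddCommGroup W] [Module ℝ W]

theorem dbl_sub_pt (R r : ℝ) (x : V → W) (i : V) :
    dbl R r (fun k k' => x k - x k') i = avg R i x - avg r i x := by
  have h : ∀ k, avg r i (fun k' => x k - x k') = x k - avg r i x := by
    intro k
    rw [avg_sub, avg_const]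
  simp only [dbl, h]
  rw [avg_sub, avg_const]

theorem avg_sum {ι : Type*} (s : Finset ι) (r : ℝ) (i : V) (G : ι → V → W) :
    avg r i (fun k => ∑ l ∈ s, G l k) = ∑ l ∈ s, avg r i (G l) := by
  simp only [avg, Finset.smul_sum]
  rw [Finset.sum_comm]

theorem tot_sum {ι : Type*} (s : Finset ι) (r : ℝ) (T Λ : ℕ) (F : ι → V → V → W) (i : V) :
    tot r T Λ (fun k k' => ∑ l ∈ s, F l k k') i = ∑ l ∈ s, tot r T Λ (F l) i := by
  simp only [tot, dbl, avg_sum]
  rw [Finset.sum_comm, Finset.smul_sum]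

theorem tot_sub (r : ℝ) (T Λ : ℕ) (F G : V → V → W) (i : V) :
    tot r T Λ (fun k k' => F k k' - G k k') i = tot r T Λ F i - tot r T Λ G i := by
  simp only [tot, dbl, avg_sub, Finset.sum_sub_distrib, smul_sub]

theorem tot_apply {S : Type*} (r : ℝ) (T Λ : ℕ) (F : V → V → S → ℝ) (i : V) (s : S) :
    tot r T Λ F i s = tot r T Λ (fun k k' => F k k' s) i := by
  simp only [tot, dbl, avg, Pi.smul_apply, Finset.sum_apply]

theorem shift_sum (D : ℕ → W) (T Λ : ℕ) :
    ∑ m ∈ range Λ, (D (m + T) - D m) = ∑ m ∈ range T, (D (Λ + m) - D m) := by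
  have h1 : ∑ m ∈ range (T + Λ), D m = ∑ m ∈ range T, D m + ∑ m ∈ range Λ, D (T + m) :=
    Finset.sum_range_add D T Λ
  have h2 : ∑ m ∈ range (Λ + T), D m = ∑ m ∈ range Λ, D m + ∑ m ∈ range T, D (Λ + m) :=
    Finset.sum_range_add D Λ T
  rw [add_comm Λ T, h1] at h2
  rw [Finset.sum_sub_distrib, Finset.sum_sub_distrib]
  have h3 : ∑ m ∈ range Λ, D (m + T) = ∑ m ∈ range Λ, D (T + m) := by
    apply Finset.sum_congr rfl
    intro m _; rw [add_comm]
  rw [h3, sub_eq_sub_iff_add_eq_add, add_comm, h2, add_comm]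

theorem tot_approx (N : Seminorm ℝ W) (x : V → W) (hx : ∀ i j, N (x i - x j) = dist i j)
    {r : ℝ} (hr : 0 < r) {T : ℕ} (hT : 1 ≤ T) (Λ : ℕ) {δ : ℝ} (hδ0 : 0 < δ) (hδ1 : δ ≤ 1)
    {i j : V} (hsmall : 8 * (r * 2 ^ T * log (Fintype.card V)) ≤ δ * dist i j)
    (hlarge : ∀ k l : V, 14 * dist k l ≤ δ * (r * 2 ^ Λ)) :
    N ((tot r T Λ (fun k k' => x k - x k') i - tot r T Λ (fun k k' => x k - x k') j) +
      (x i - x j)) ≤ δ * dist i j := by
  have hT0 : (0 : ℝ) < T := by exact_mod_cast hT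
  have hd : 0 ≤ dist i j := dist_nonneg
  set D : ℕ → W := fun m => avg (r * 2 ^ m) i x - avg (r * 2 ^ m) j x with hD
  have h1 : tot r T Λ (fun k k' => x k - x k') i - tot r T Λ (fun k k' => x k - x k') j =
      (T : ℝ)⁻¹ • ∑ m ∈ range Λ, (D (m + T) - D m) := by
    rw [tot, tot, ← smul_sub, ← Finset.sum_sub_distrib]
    congr 1
    apply Finset.sum_congr rfl
    intro m _
    rw [dbl_sub_pt, dbl_sub_pt]
    simp only [hD]
    abel
  have h2 : x i - x j = (T : ℝ)⁻¹ • ∑ _m ∈ range T, (x i - x j) := by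
    rw [Finset.sum_const, card_range, ← Nat.cast_smul_eq_nsmul ℝ, smul_smul,
      inv_mul_cancel₀ hT0.ne', one_smul]
  rw [h1, shift_sum, h2, ← smul_add, ← Finset.sum_add_distrib, seminorm_smul_le,
    abs_of_pos (inv_pos.2 hT0)]
  have h3 : ∀ m ∈ range T, N (D (Λ + m) - D m + (x i - x j)) ≤ δ * dist i j := by
    intro m hm
    have hmT : m < T := Finset.mem_range.1 hm
    have e : D (Λ + m) - D m + (x i - x j) = D (Λ + m) + ((avg (r * 2 ^ m) j x - x j) -
        (avg (r * 2 ^ m) i x - x i)) := by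
      simp only [hD]; abel
    rw [e]
    refine (map_add_le_add N _ _).trans ?_
    have hbig : N (D (Λ + m)) ≤ δ / 2 * dist i j := by
      have hR : 0 < r * 2 ^ (Λ + m) := by positivity
      have hle : r * 2 ^ Λ ≤ r * 2 ^ (Λ + m) := by
        apply mul_le_mul_of_nonneg_left _ hr.le
        exact pow_le_pow_right₀ (by norm_num) (by omega)
      have hr2 : 0 < r * 2 ^ Λ := by positivity
      have hij : dist i j ≤ r * 2 ^ (Λ + m) := by
        have := hlarge i j
        nlinarith
      have h := N_avg_diff_le N hR hij x (x i) (fun _ => δ * (r * 2 ^ Λ) / 14) (fun k => by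
        rw [hx]
        have := hlarge k i
        linarith)
      rw [← Finset.sum_mul, Pk_sum, one_mul] at h
      refine h.trans ?_
      have h5 : dist i j / (r * 2 ^ (Λ + m)) * (r * 2 ^ Λ) ≤ dist i j := by
        rw [div_mul_eq_mul_div, div_le_iff₀ hR]
        exact mul_le_mul_of_nonneg_left hle hd
      calc 7 * (dist i j / (r * 2 ^ (Λ + m))) * (δ * (r * 2 ^ Λ) / 14)
          = δ / 2 * (dist i j / (r * 2 ^ (Λ + m)) * (r * 2 ^ Λ)) := by ring
        _ ≤ δ / 2 * dist i j := mul_le_mul_of_nonneg_left h5 (by linarith)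
    have hr2m : 0 < r * 2 ^ m := by positivity
    have hsm : ∀ i' : V, N (avg (r * 2 ^ m) i' x - x i') ≤ 2 * (r * 2 ^ T * log (Fintype.card V)) := by
      intro i'
      have h := N_avg_sub_le N hr2m i' x (c := 1) (fun k => by rw [hx, dist_comm, one_mul])
      rw [one_mul] at h
      refine h.trans ?_
      have h5 := ek_le_log hr2m i'
      have h6 : r * 2 ^ m ≤ r * 2 ^ T := by
        apply mul_le_mul_of_nonneg_left _ hr.le
        exact pow_le_pow_right₀ (by norm_num) hmT.le
      have h7 : 0 ≤ log (Fintype.card V : ℝ) := by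
        have := ek_nonneg hr2m i'
        linarith
      calc r * 2 ^ m * ek (r * 2 ^ m) i' ≤ r * 2 ^ m * (2 * log (Fintype.card V)) :=
            mul_le_mul_of_nonneg_left h5 hr2m.le
        _ ≤ r * 2 ^ T * (2 * log (Fintype.card V)) :=
            mul_le_mul_of_nonneg_right h6 (by linarith)
        _ = _ := by ring
    have h8 : N ((avg (r * 2 ^ m) j x - x j) - (avg (r * 2 ^ m) i x - x i)) ≤
        N (avg (r * 2 ^ m) j x - x j) + N (avg (r * 2 ^ m) i x - x i) := map_sub_le_add N _ _
    have h9 := hsm i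
    have h10 := hsm j
    linarith
  calc (T : ℝ)⁻¹ * N (∑ m ∈ range T, (D (Λ + m) - D m + (x i - x j)))
      ≤ (T : ℝ)⁻¹ * ∑ m ∈ range T, δ * dist i j := by
        apply mul_le_mul_of_nonneg_left _ (inv_pos.2 hT0).le
        exact (seminorm_sum_le N _ _).trans (Finset.sum_le_sum h3)
    _ = δ * dist i j := by
        rw [Finset.sum_const, card_range, nsmul_eq_mul, ← mul_assoc, inv_mul_cancel₀ hT0.ne', one_mul]

end linear

section classes

variable {V : Type*} [Fintype V] [PseudoMetricSpace V]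
variable {S : Type*} [Fintype S] (p : ℝ≥0∞) [Fact (1 ≤ p)]

/-- the part of `w` between relative levels `L'` and `L` -/
noncomputable def Mid (L L' : ℝ) (w : S → ℝ) : S → ℝ := Phi p L w - Phi p L' w

variable {p}

theorem Phi_zero {L : ℝ} (hL : 0 ≤ L) : Phi p L (0 : S → ℝ) = 0 := by
  funext s
  simp only [Phi, map_zero, mul_zero, Pi.zero_apply]
  exact cl_of_abs_le (by simp)

theorem Mid_zero {L L' : ℝ} (hL : 0 ≤ L) (hL' : 0 ≤ L') : Mid p L L' (0 : S → ℝ) = 0 := by
  rw [Mid, Phi_zero hL, Phi_zero hL', sub_zero]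

theorem lpN_Mid_sub (hp : p ≠ ∞) {L L' : ℝ} (hL : 0 ≤ L) (hL' : 0 ≤ L') (w w' : S → ℝ) :
    lpN p (Mid p L L' w - Mid p L L' w') ≤ 4 * lpN p (w - w') := by
  have e : Mid p L L' w - Mid p L L' w' =
      (Phi p L w - Phi p L w') - (Phi p L' w - Phi p L' w') := by
    simp only [Mid]; abel
  rw [e]
  refine (map_sub_le_add (lpN p) _ _).trans ?_
  have h1 := lpN_Phi_sub hp hL w w'
  have h2 := lpN_Phi_sub hp hL' w w'
  linarith

theorem l1_Mid_sub (hp : p ≠ ∞) {L L' : ℝ} (hL' : 0 < L') (hLL : L' ≤ L) (w w' : S → ℝ) :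
    lpN 1 (Mid p L L' w - Mid p L L' w') ≤ 6 * L' ^ (1 - p.toReal) * lpN p (w - w') := by
  have hP := one_le_toReal (p := p) hp
  have hL : 0 < L := lt_of_lt_of_le hL' hLL
  have e : Mid p L L' w - Mid p L L' w' =
      ((w - Phi p L' w) - (w' - Phi p L' w')) - ((w - Phi p L w) - (w' - Phi p L w')) := by
    simp only [Mid]; abel
  rw [e]
  refine (map_sub_le_add (lpN 1) _ _).trans ?_
  have h1 := l1_Psi_sub hp hL w w'
  have h2 := l1_Psi_sub hp hL' w w'
  have h3 : L ^ (1 - p.toReal) ≤ L' ^ (1 - p.toReal) :=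
    rpow_le_rpow_of_nonpos hL' hLL (by linarith)
  have h4 := mul_le_mul_of_nonneg_right h3 (lpN_nonneg (p := p) (w - w'))
  linarith

theorem abs_Mid_le {L L' : ℝ} (hL' : 0 ≤ L') (hLL : L' ≤ L) (w : S → ℝ) (s : S) :
    |Mid p L L' w s| ≤ 2 * L * lpN p w := by
  have h1 := abs_Phi_le (p := p) (hL'.trans hLL) w s
  have h2 := abs_Phi_le (p := p) hL' w s
  have h3 : |Mid p L L' w s| ≤ |Phi p L w s| + |Phi p L' w s| := by
    simp only [Mid, Pi.sub_apply]; exact abs_sub _ _
  have h4 : L' * lpN p w ≤ L * lpN p w := mul_le_mul_of_nonneg_right hLL (lpN_nonneg w)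
  linarith

theorem abs_Mid_sub_le (hp : p ≠ ∞) {L L' : ℝ} (hL' : 0 ≤ L') (hLL : L' ≤ L) (hL1 : L ≤ 1)
    (w w' : S → ℝ) (s : S) :
    |Mid p L L' w s - Mid p L L' w' s| ≤ 2 * lpN p (w - w') := by
  have h1 := abs_Phi_sub_le hp (hL'.trans hLL) hL1 w w' s
  have h2 := abs_Phi_sub_le hp hL' (hLL.trans hL1) w w' s
  have e : Mid p L L' w s - Mid p L L' w' s =
      (Phi p L w s - Phi p L w' s) - (Phi p L' w s - Phi p L' w' s) := by
    simp only [Mid, Pi.sub_apply]; ring
  rw [e]
  refine (abs_sub _ _).trans ?_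
  linarith

/-- The multi-class decomposition. -/
theorem decomposition (hp : p ≠ ∞) (x : V → S → ℝ) (hx : ∀ i j, lpN p (x i - x j) = dist i j)
    {r : ℝ} (hr : 0 < r) {T : ℕ} (hT : 1 ≤ T) (Λ : ℕ)
    (hsmall : ∀ i j : V, i ≠ j → 64 * (r * 2 ^ T * log (Fintype.card V)) ≤ dist i j)
    (hlarge : ∀ k l : V, 112 * dist k l ≤ r * 2 ^ Λ)
    (L : ℕ → ℝ) (hL0 : L 0 = 1) (hLpos : ∀ j, 0 < L j) (hLanti : ∀ j, L (j + 1) ≤ L j)
    (a : ℕ → ℕ) (ha : ∀ j, 1 ≤ a j) (J : ℕ) :
    ∃ f : ℕ → V → S → ℝ,
      (∀ j i i', lpN p (f j i - f j i') ≤ 4 * (1 + 56 * log (Fintype.card V) / T) * dist i i') ∧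
      (∀ j, 2 * L j * (1 + 2 ^ T * (2 * log (Fintype.card V))) ≤ (1 / 2) ^ (a j) →
        ∀ i i' s, |f j i s - f j i' s| ≤
          log (Fintype.card V) / T * (224 * L j * 2 ^ T + 56 * (1 / 2) ^ (a j) * (a j)) * dist i i') ∧
      (∀ j i i', lpN 1 (f j i - f j i') ≤
        6 * L (j + 1) ^ (1 - p.toReal) * (1 + 56 * log (Fintype.card V) / T) * dist i i') ∧
      (2 * L J * (1 + 2 ^ T * (2 * log (Fintype.card V))) ≤ (1 / 2) ^ (a J) →
        ∀ i i', lpN p ((∑ j ∈ range J, (f j i - f j i')) + (x i - x i')) ≤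
        (1 / 8 + (Fintype.card S : ℝ) ^ (1 / p.toReal) * (log (Fintype.card V) / T *
          (224 * L J * 2 ^ T + 56 * (1 / 2) ^ (a J) * (a J)))) * dist i i') := by
  have hP := one_le_toReal (p := p) hp
  have hLle : ∀ j, L j ≤ 1 := by
    intro j
    induction j with
    | zero => rw [hL0]
    | succ j ih => exact (hLanti j).trans ih
  have hxx : ∀ k k' l l' : V, lpN p ((x k - x k') - (x l - x l')) ≤ dist k l + dist k' l' := by
    intro k k' l l'
    have e : (x k - x k') - (x l - x l') = (x k - x l) - (x k' - x l') := by abel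
    rw [e, ← hx k l, ← hx k' l']
    exact map_sub_le_add (lpN p) _ _
  refine ⟨fun j => tot r T Λ (fun k k' => Mid p (L j) (L (j + 1)) (x k - x k')), ?_, ?_, ?_, ?_⟩
  · intro j i i'
    have h := tot_diff (lpN p) hr hT Λ (fun k k' => Mid p (L j) (L (j + 1)) (x k - x k'))
      (c := 4) (by norm_num) (fun k k' => by
        have h := lpN_Mid_sub hp (hLpos j).le (hLpos (j + 1)).le (x k - x k') 0
        rwa [Mid_zero (hLpos j).le (hLpos (j + 1)).le, sub_zero, sub_zero, hx] at h)
      (fun k k' l l' => (lpN_Mid_sub hp (hLpos j).le (hLpos (j + 1)).le _ _).trans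
        (mul_le_mul_of_nonneg_left (hxx k k' l l') (by norm_num))) i i'
    linarith
  · intro j hj i i' s
    beta_reduce
    rw [tot_apply, tot_apply]
    have h := tot_slope hr hT Λ (fun k k' => Mid p (L j) (L (j + 1)) (x k - x k') s)
      (L := 2 * L j) (by have := hLpos j; positivity) (fun k k' => by
        have h := abs_Mid_le (p := p) (hLpos (j + 1)).le (hLanti j) (x k - x k') s
        rwa [hx] at h)
      (fun k k' l' => by
        have h := abs_Mid_sub_le hp (hLpos (j + 1)).le (hLanti j) (hLle j) (x k - x k')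
          (x k - x l') s
        refine h.trans ?_
        have := hxx k k' k l'
        rw [dist_self, zero_add] at this
        linarith) (ha j) hj i i'
    refine h.trans (le_of_eq ?_)
    ring
  · intro j i i'
    have h6 : 0 ≤ 6 * L (j + 1) ^ (1 - p.toReal) :=
      mul_nonneg (by norm_num) (rpow_nonneg (hLpos _).le _)
    have h := tot_diff (lpN 1) hr hT Λ (fun k k' => Mid p (L j) (L (j + 1)) (x k - x k'))
      h6 (fun k k' => by
        have h := l1_Mid_sub hp (hLpos (j + 1)) (hLanti j) (x k - x k') 0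
        rwa [Mid_zero (hLpos j).le (hLpos (j + 1)).le, sub_zero, sub_zero, hx] at h)
      (fun k k' l l' => (l1_Mid_sub hp (hLpos (j + 1)) (hLanti j) _ _).trans
        (mul_le_mul_of_nonneg_left (hxx k k' l l') h6)) i i'
    linarith
  · intro hJ i i'
    -- telescoping
    have htel : ∀ w : S → ℝ, ∑ j ∈ range J, Mid p (L j) (L (j + 1)) w = w - Phi p (L J) w := by
      intro w
      have : ∀ j, Mid p (L j) (L (j + 1)) w = Phi p (L j) w - Phi p (L (j + 1)) w := fun j => rfl
      simp only [this]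
      rw [Finset.sum_range_sub', hL0, Phi_one hp]
    have hsum : ∀ i'' : V, ∑ j ∈ range J,
        tot r T Λ (fun k k' => Mid p (L j) (L (j + 1)) (x k - x k')) i'' =
        tot r T Λ (fun k k' => x k - x k') i'' -
          tot r T Λ (fun k k' => Phi p (L J) (x k - x k')) i'' := by
      intro i''
      rw [← tot_sum]
      simp only [htel]
      rw [tot_sub]
    rw [Finset.sum_sub_distrib, hsum, hsum]
    have e : tot r T Λ (fun k k' => x k - x k') i - tot r T Λ (fun k k' => Phi p (L J) (x k - x k')) i -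
        (tot r T Λ (fun k k' => x k - x k') i' -
          tot r T Λ (fun k k' => Phi p (L J) (x k - x k')) i') + (x i - x i') =
        ((tot r T Λ (fun k k' => x k - x k') i - tot r T Λ (fun k k' => x k - x k') i') +
          (x i - x i')) - (tot r T Λ (fun k k' => Phi p (L J) (x k - x k')) i -
            tot r T Λ (fun k k' => Phi p (L J) (x k - x k')) i') := by abel
    rw [e]
    refine (map_sub_le_add (lpN p) _ _).trans ?_
    rw [add_mul]
    apply add_le_add
    · rcases eq_or_ne i i' with h | h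
      · subst h
        simp
      · apply tot_approx (lpN p) x hx hr hT Λ (by norm_num) (by norm_num)
        · have := hsmall i i' h
          linarith
        · intro k l
          have := hlarge k l
          linarith
    · rw [mul_assoc]
      have hd : 0 ≤ dist i i' := dist_nonneg
      have hlog : 0 ≤ log (Fintype.card V : ℝ) := log_natCast_nonneg _
      have hLJ := hLpos J
      apply lpN_le_card hp (by positivity)
      intro s
      rw [Pi.sub_apply, tot_apply, tot_apply]
      have h := tot_slope hr hT Λ (fun k k' => Phi p (L J) (x k - x k') s)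
        (L := 2 * L J) (by positivity) (fun k k' => by
          have h := abs_Phi_le (p := p) hLJ.le (x k - x k') s
          rw [hx] at h
          have : 0 ≤ L J * dist k k' := by positivity
          linarith)
        (fun k k' l' => by
          have h := abs_Phi_sub_le hp hLJ.le (hLle J) (x k - x k') (x k - x l') s
          refine h.trans ?_
          have h2 := hxx k k' k l'
          rw [dist_self, zero_add] at h2
          have : 0 ≤ dist k' l' := dist_nonneg
          linarith) (ha J) hJ i i'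
      refine h.trans (le_of_eq ?_)
      ring

end classes

end Vale.Agent.H22
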