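import Vale.Agent.H22.Decomp
import Vale.Agent.H22.Compress

set_option linter.unusedSectionVars false

namespace Vale.Agent.H22

open Finset Real
open scoped ENNReal

section scales

theorem exists_scales (V : Type*) [Fintype V] [MetricSpace V] (T : ℕ) :
    ∃ r : ℝ, 0 < r ∧ ∃ Λ : ℕ,
      (∀ i j : V, i ≠ j → 64 * (r * 2 ^ T * log (Fintype.card V)) ≤ dist i j) ∧
      (∀ k l : V, 112 * dist k l ≤ r * 2 ^ Λ) := by
  classical
  -- minimal distance
  have hmin : ∃ m : ℝ, 0 < m ∧ ∀ i j : V, i ≠ j → m ≤ dist i j := by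
    by_cases h : (univ.filter (fun q : V × V => q.1 ≠ q.2)).Nonempty
    · obtain ⟨q, hq, hqm⟩ := Finset.exists_min_image _ (fun q : V × V => dist q.1 q.2) h
      refine ⟨dist q.1 q.2, dist_pos.2 (Finset.mem_filter.1 hq).2, ?_⟩
      intro i j hij
      exact hqm (i, j) (Finset.mem_filter.2 ⟨mem_univ _, hij⟩)
    · refine ⟨1, one_pos, ?_⟩
      intro i j hij
      exfalso
      exact h ⟨(i, j), Finset.mem_filter.2 ⟨mem_univ _, hij⟩⟩
  obtain ⟨m, hm, hmd⟩ := hmin
  have hlog : 0 ≤ log (Fintype.card V : ℝ) := log_natCast_nonneg _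
  have hden : 0 < 64 * (2 ^ T * log (Fintype.card V : ℝ) + 1) := by positivity
  set r := m / (64 * (2 ^ T * log (Fintype.card V : ℝ) + 1)) with hr
  have hr0 : 0 < r := div_pos hm hden
  refine ⟨r, hr0, ?_⟩
  -- maximal distance
  have hmax : ∃ Δ : ℝ, ∀ k l : V, dist k l ≤ Δ := by
    obtain ⟨Δ, hΔ⟩ := (Set.finite_range (fun q : V × V => dist q.1 q.2)).bddAbove
    exact ⟨Δ, fun k l => hΔ ⟨(k, l), rfl⟩⟩
  obtain ⟨Δ, hΔ⟩ := hmax
  obtain ⟨Λ, hΛ⟩ := pow_unbounded_of_one_lt (112 * Δ / r) (by norm_num : (1 : ℝ) < 2)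
  refine ⟨Λ, ?_, ?_⟩
  · intro i j hij
    refine le_trans ?_ (hmd i j hij)
    have h1 : r * (64 * (2 ^ T * log (Fintype.card V : ℝ) + 1)) = m := by
      rw [hr]; field_simp
    nlinarith
  · intro k l
    have h1 : 112 * Δ < r * 2 ^ Λ := by
      rw [div_lt_iff₀ hr0] at hΛ
      linarith
    have := hΔ k l
    linarith

theorem exists_half_pow {y : ℝ} (hy0 : 0 < y) (hy : y ≤ 1 / 2) :
    ∃ a : ℕ, 1 ≤ a ∧ y ≤ (1 / 2) ^ a ∧ ((1 : ℝ) / 2) ^ a ≤ 2 * y ∧ (a : ℝ) * log 2 ≤ -log y := by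
  classical
  have hex : ∃ k : ℕ, ((1 : ℝ) / 2) ^ (k + 1) < y := by
    obtain ⟨k, hk⟩ := exists_pow_lt_of_lt_one hy0 (by norm_num : (1 : ℝ) / 2 < 1)
    refine ⟨k, lt_of_le_of_lt ?_ hk⟩
    exact pow_le_pow_of_le_one (by norm_num) (by norm_num) (by omega)
  let k := Nat.find hex
  have hk : ((1 : ℝ) / 2) ^ (k + 1) < y := Nat.find_spec hex
  have hk1 : 1 ≤ k := by
    by_contra hcon
    have h0 : k = 0 := by omega
    rw [h0] at hk
    norm_num at hk
    linarith
  have hkm : y ≤ (1 / 2) ^ k := by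
    have h := Nat.find_min hex (m := k - 1) (by omega)
    have e : k - 1 + 1 = k := by omega
    rw [e] at h
    exact not_lt.1 h
  refine ⟨k, hk1, hkm, ?_, ?_⟩
  · rw [pow_succ] at hk
    linarith
  · have h := log_le_log hy0 hkm
    rw [log_pow, one_div, log_inv] at h
    linarith

end scales

section embed

variable {V : Type*} [Fintype V] [MetricSpace V]
variable {S : Type*} [Fintype S] [Nonempty S] {p : ℝ≥0∞} [Fact (1 ≤ p)]

/-- Lipschitz constant of the classes -/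
noncomputable def A0 (n T : ℝ) : ℝ := 1 + 56 * log n / T

/-- slope constant -/
noncomputable def Gh (n : ℝ) (T : ℕ) (β : ℝ) (J : ℕ) : ℝ :=
  log n / T * (224 * 2 ^ T + 224 * (1 + 2 ^ T * (2 * log n)) * (J * (-log β) / log 2)) +
    16 * A0 n T * (1 + 2 ^ T * (2 * log n))

theorem slope_num {n : ℝ} (hn : 2 ≤ n) {T : ℕ} (hT : 1 ≤ T) {β : ℝ} (hβ0 : 0 < β) (hβ1 : β ≤ 1)
    {J j : ℕ} (hj : j ≤ J) (hy : 2 * β ^ j * (1 + 2 ^ T * (2 * log n)) ≤ 1 / 2) :
    ∃ a : ℕ, 1 ≤ a ∧ 2 * β ^ j * (1 + 2 ^ T * (2 * log n)) ≤ (1 / 2) ^ a ∧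
      log n / T * (224 * β ^ j * 2 ^ T + 56 * (1 / 2) ^ a * a) ≤ Gh n T β J * β ^ j := by
  have hlog : 0 < log n := log_pos (by linarith)
  have hT0 : (0 : ℝ) < T := by exact_mod_cast hT
  have hβj : 0 < β ^ j := by positivity
  set y := 2 * β ^ j * (1 + 2 ^ T * (2 * log n)) with hydef
  have hy0 : 0 < y := by positivity
  obtain ⟨a, ha1, ha2, ha3, ha4⟩ := exists_half_pow hy0 hy
  refine ⟨a, ha1, ha2, ?_⟩
  have hl2 : 0 < log (2 : ℝ) := log_pos (by norm_num)
  have hlogβ : 0 ≤ -log β := by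
    have := log_nonpos hβ0.le hβ1
    linarith
  have hβy : β ^ j ≤ y := by
    rw [hydef]
    have : 1 ≤ 2 * (1 + 2 ^ T * (2 * log n)) := by
      have : 0 ≤ (2 : ℝ) ^ T * (2 * log n) := by positivity
      linarith
    nlinarith
  have hau : (a : ℝ) ≤ J * (-log β) / log 2 := by
    rw [le_div_iff₀ hl2]
    refine ha4.trans ?_
    have h1 := log_le_log hβj hβy
    rw [log_pow] at h1
    have h2 : (j : ℝ) * (-log β) ≤ J * (-log β) := by
      apply mul_le_mul_of_nonneg_right _ hlogβ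
      exact_mod_cast hj
    linarith
  have hA0 : 0 ≤ A0 n T := by rw [A0]; positivity
  have h1 : 56 * (1 / 2 : ℝ) ^ a * a ≤
      224 * (1 + 2 ^ T * (2 * log n)) * (J * (-log β) / log 2) * β ^ j := by
    calc 56 * (1 / 2 : ℝ) ^ a * a ≤ 56 * (2 * y) * (J * (-log β) / log 2) := by
          apply mul_le_mul _ hau (by positivity) (by positivity)
          linarith
      _ = _ := by rw [hydef]; ring
  rw [Gh, add_mul]
  have h2 : 0 ≤ 16 * A0 n T * (1 + 2 ^ T * (2 * log n)) * β ^ j := by positivity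
  have h3 : log n / T * (224 * β ^ j * 2 ^ T + 56 * (1 / 2) ^ a * a) ≤
      log n / T * (224 * 2 ^ T + 224 * (1 + 2 ^ T * (2 * log n)) * (J * (-log β) / log 2)) *
        β ^ j := by
    have h4 : 224 * β ^ j * 2 ^ T + 56 * (1 / 2) ^ a * a ≤
        (224 * 2 ^ T + 224 * (1 + 2 ^ T * (2 * log n)) * (J * (-log β) / log 2)) * β ^ j := by
      linarith
    calc _ ≤ log n / T * ((224 * 2 ^ T +
          224 * (1 + 2 ^ T * (2 * log n)) * (J * (-log β) / log 2)) * β ^ j) :=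
          mul_le_mul_of_nonneg_left h4 (by positivity)
      _ = _ := by ring
  linarith

/-- the classes, with uniform slope constants -/
theorem classes (hp : p ≠ ∞) (hV : 2 ≤ Fintype.card V) (x : V → S → ℝ)
    (hx : ∀ i j, lpN p (x i - x j) = dist i j) {T : ℕ} (hT : 1 ≤ T) {β : ℝ} (hβ0 : 0 < β)
    (hβ1 : β ≤ 1) {J : ℕ}
    (hJ : (Fintype.card S : ℝ) ^ (1 / p.toReal) * (Gh (Fintype.card V) T β J * β ^ J) ≤ 1 / 8) :
    ∃ f : ℕ → V → S → ℝ,
      (∀ j i i', lpN p (f j i - f j i') ≤ 4 * A0 (Fintype.card V) T * dist i i') ∧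
      (∀ j, j ≤ J → ∀ i i' s, |f j i s - f j i' s| ≤
        Gh (Fintype.card V) T β J * β ^ j * dist i i') ∧
      (∀ j i i', lpN 1 (f j i - f j i') ≤
        6 * (β ^ (j + 1)) ^ (1 - p.toReal) * A0 (Fintype.card V) T * dist i i') ∧
      (∀ i i', lpN p ((∑ j ∈ range J, (f j i - f j i')) + (x i - x i')) ≤ 1 / 4 * dist i i') := by
  classical
  have hP := one_le_toReal (p := p) hp
  obtain ⟨r, hr, Λ, hsmall, hlarge⟩ := exists_scales V T
  set n : ℝ := (Fintype.card V : ℝ) with hn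
  have hn2 : 2 ≤ n := by rw [hn]; exact_mod_cast hV
  have hlog : 0 < log n := log_pos (by linarith)
  have hT0 : (0 : ℝ) < T := by exact_mod_cast hT
  have hl2 : 0 < log (2 : ℝ) := log_pos (by norm_num)
  have hlogβ : 0 ≤ -log β := by
    have := log_nonpos hβ0.le hβ1
    linarith
  have hA01 : 1 ≤ A0 n T := by
    rw [A0]
    have : 0 ≤ 56 * log n / T := by positivity
    linarith
  have hGh0 : 16 * A0 n T * (1 + 2 ^ T * (2 * log n)) ≤ Gh n T β J := by
    rw [Gh]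
    have : 0 ≤ log n / T * (224 * 2 ^ T + 224 * (1 + 2 ^ T * (2 * log n)) *
        (J * (-log β) / log 2)) := by positivity
    linarith
  have hGpos : 0 < 1 + 2 ^ T * (2 * log n) := by positivity
  have key : ∀ j : ℕ, ∃ a : ℕ, 1 ≤ a ∧ (j ≤ J → 2 * β ^ j * (1 + 2 ^ T * (2 * log n)) ≤ 1 / 2 →
      (2 * β ^ j * (1 + 2 ^ T * (2 * log n)) ≤ (1 / 2) ^ a ∧
      log n / T * (224 * β ^ j * 2 ^ T + 56 * (1 / 2) ^ a * a) ≤ Gh n T β J * β ^ j)) := by
    intro j
    by_cases h : j ≤ J ∧ 2 * β ^ j * (1 + 2 ^ T * (2 * log n)) ≤ 1 / 2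
    · obtain ⟨a, h1, h2, h3⟩ := slope_num hn2 hT hβ0 hβ1 h.1 h.2
      exact ⟨a, h1, fun _ _ => ⟨h2, h3⟩⟩
    · exact ⟨1, le_rfl, fun h1 h2 => absurd ⟨h1, h2⟩ h⟩
  choose a ha hkey using key
  obtain ⟨f, hf1, hf2, hf3, hf4⟩ := decomposition hp x hx hr hT Λ hsmall hlarge (fun j => β ^ j)
    (pow_zero β) (fun j => by positivity) (fun j => pow_le_pow_of_le_one hβ0.le hβ1 (by omega))
    a ha J
  refine ⟨f, ?_, ?_, ?_, ?_⟩
  · intro j i i'
    have := hf1 j i i'
    rw [A0]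
    exact this
  · intro j hj i i' s
    have hd : 0 ≤ dist i i' := dist_nonneg
    by_cases hy : 2 * β ^ j * (1 + 2 ^ T * (2 * log n)) ≤ 1 / 2
    · obtain ⟨h1, h2⟩ := hkey j hj hy
      exact (hf2 j h1 i i' s).trans (mul_le_mul_of_nonneg_right h2 hd)
    · push Not at hy
      have h1 : |f j i s - f j i' s| ≤ 4 * (1 + 56 * log n / T) * dist i i' := by
        have h2 := abs_le_lpN hp (f j i - f j i') s
        rw [Pi.sub_apply] at h2
        exact h2.trans (hf1 j i i')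
      refine h1.trans (mul_le_mul_of_nonneg_right ?_ hd)
      have e : 4 * (1 + 56 * log n / T) = 4 * A0 n T := rfl
      rw [e]
      have hβj : 0 < β ^ j := by positivity
      calc 4 * A0 n T = 4 * A0 n T * 1 := by ring
        _ ≤ 4 * A0 n T * (4 * β ^ j * (1 + 2 ^ T * (2 * log n))) := by
            apply mul_le_mul_of_nonneg_left _ (by linarith)
            linarith
        _ = 16 * A0 n T * (1 + 2 ^ T * (2 * log n)) * β ^ j := by ring
        _ ≤ Gh n T β J * β ^ j := mul_le_mul_of_nonneg_right hGh0 hβj.le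
  · intro j i i'
    have := hf3 j i i'
    rw [A0]
    exact this
  · intro i i'
    have hd : 0 ≤ dist i i' := dist_nonneg
    have hβJ : 0 < β ^ J := by positivity
    have hSc : 1 ≤ (Fintype.card S : ℝ) ^ (1 / p.toReal) := by
      apply one_le_rpow _ (by positivity)
      exact_mod_cast Fintype.card_pos (α := S)
    have hGJ : Gh n T β J * β ^ J ≤ 1 / 8 := by
      refine le_trans ?_ hJ
      apply le_mul_of_one_le_left _ hSc
      have : 0 ≤ Gh n T β J := le_trans (by positivity) hGh0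
      positivity
    have hy : 2 * β ^ J * (1 + 2 ^ T * (2 * log n)) ≤ 1 / 2 := by
      have h1 : 2 * (1 + 2 ^ T * (2 * log n)) ≤ Gh n T β J := by
        refine le_trans ?_ hGh0
        nlinarith
      have h2 := mul_le_mul_of_nonneg_right h1 hβJ.le
      linarith
    obtain ⟨h1, h2⟩ := hkey J le_rfl hy
    refine (hf4 h1 i i').trans ?_
    apply mul_le_mul_of_nonneg_right _ hd
    have h3 := mul_le_mul_of_nonneg_left h2 (by positivity : 0 ≤ (Fintype.card S : ℝ) ^ (1 / p.toReal))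
    linarith

end embed

end Vale.Agent.H22
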