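import Vale.Agent.H22.Embed

set_option linter.unusedSectionVars false

namespace Vale.Agent.H22

open Finset Real
open scoped ENNReal

section embed

variable {V : Type*} [Fintype V] [MetricSpace V]
variable {S : Type*} [Fintype S] [Nonempty S] {p : ℝ≥0∞} [Fact (1 ≤ p)]

theorem lpN_sum_le {ι : Type*} (s : Finset ι) (v : ι → S → ℝ) :
    lpN p (∑ j ∈ s, v j) ≤ ∑ j ∈ s, lpN p (v j) := seminorm_sum_le (lpN p) s v

/-- one-shot embedding with many classes -/
theorem embed_core (hp : p ≠ ∞) (hV : 2 ≤ Fintype.card V) (x : V → S → ℝ)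
    (hx : ∀ i j, lpN p (x i - x j) = dist i j) {T : ℕ} (hT : 1 ≤ T) {β : ℝ} (hβ0 : 0 < β)
    (hβ1 : β ≤ 1) {J : ℕ} (hJ1 : 1 ≤ J)
    (hJ : (Fintype.card S : ℝ) ^ (1 / p.toReal) * (Gh (Fintype.card V) T β J * β ^ J) ≤ 1 / 8)
    (hS : 1 ≤ (Fintype.card S : ℝ) * (Gh (Fintype.card V) T β J * β ^ (J - 1)) ^ p.toReal)
    {θ : ℝ} (hθ0 : 0 < θ) (hθ1 : θ ≤ 1) (hθP : θ ≤ p.toReal - 1) {g : ℕ}
    (hg : (Fintype.card S : ℝ) * Gh (Fintype.card V) T β J ^ p.toReal *
      K1 (((J : ℝ) * 4) ^ (-p.toReal)) (4 * A0 (Fintype.card V) T) p.toReal (Fintype.card V) ≤ 2 ^ g)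
    {q : ℕ} [Fact q.Prime]
    (hq : g * (2 * (p.toReal + 1) *
      (2 * K1 (((J : ℝ) * 4) ^ (-p.toReal)) (4 * A0 (Fintype.card V) T) p.toReal (Fintype.card V) *
      (6 * A0 (Fintype.card V) T * (Gh (Fintype.card V) T β J / β) ^ (p.toReal - 1))) ^ p.toReal /
        ((J : ℝ) * 4) ^ (-p.toReal)) ^ (1 / θ) ≤ q) :
    ∃ y : V → Fin J × (ZMod q × ZMod q) → ℝ, ∀ i j,
      (2 * (J : ℝ)) ^ (-p.toReal) * dist i j ^ p.toReal ≤ lpN p (y i - y j) ^ p.toReal / J ∧
      lpN p (y i - y j) ^ p.toReal / J ≤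
        (4 * A0 (Fintype.card V) T + 1) ^ p.toReal * dist i j ^ p.toReal := by
  classical
  have hP1 : 1 < p.toReal := by linarith
  set P := p.toReal with hPdef
  have hP0 : 0 < P := by linarith
  set n : ℝ := (Fintype.card V : ℝ) with hn
  have hn2 : 2 ≤ n := by rw [hn]; exact_mod_cast hV
  have hlog : 0 < log n := log_pos (by linarith)
  have hT0 : (0 : ℝ) < T := by exact_mod_cast hT
  have hJr : (1 : ℝ) ≤ J := by exact_mod_cast hJ1
  have hA01 : 1 ≤ A0 n T := by
    rw [A0]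
    have : 0 ≤ 56 * log n / T := by positivity
    linarith
  set A := 4 * A0 n T with hA
  have hA1 : 1 ≤ A := by linarith
  have hlogβ : 0 ≤ -log β := by
    have := log_nonpos hβ0.le hβ1
    linarith
  have hl2 : 0 < log (2 : ℝ) := log_pos (by norm_num)
  set G := Gh n T β J with hG
  have hG1 : 1 ≤ G := by
    rw [hG, Gh]
    have h1 : 0 ≤ log n / T * (224 * 2 ^ T + 224 * (1 + 2 ^ T * (2 * log n)) *
        (J * (-log β) / log 2)) := by positivity
    have h2 : 0 ≤ (2 : ℝ) ^ T * (2 * log n) := by positivity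
    nlinarith
  set δ : ℝ := ((J : ℝ) * 4) ^ (-P) with hδ
  have hδ0 : 0 < δ := by positivity
  have hδ1 : δ ≤ 1 := rpow_le_one_of_one_le_of_nonpos (by linarith) (by linarith)
  obtain ⟨f, hf1, hf2, hf3, hf4⟩ := classes hp hV x hx hT hβ0 hβ1 hJ
  set Q := 6 * A0 n T * (G / β) ^ (P - 1) with hQ
  have hz : ∀ j : Fin J, ∃ z : V → ZMod q × ZMod q → ℝ, ∀ i i',
      |lpN p (z i - z i') ^ P - lpN p (f j i - f j i') ^ P| ≤ δ * dist i i' ^ P := by
    intro j
    have hjJ : (j : ℕ) ≤ J := j.2.le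
    have hjJ1 : (j : ℕ) ≤ J - 1 := by omega
    have hβj : 0 < β ^ (j : ℕ) := by positivity
    have hβj1 : 0 < β ^ ((j : ℕ) + 1) := by positivity
    have hlam : 0 < G * β ^ (j : ℕ) := by positivity
    have hlG : G * β ^ (j : ℕ) ≤ G := by
      have : β ^ (j : ℕ) ≤ 1 := pow_le_one₀ hβ0.le hβ1
      nlinarith
    have hprod : (G * β ^ (j : ℕ)) ^ (P - 1) * (6 * (β ^ ((j : ℕ) + 1)) ^ (1 - P) * A0 n T) = Q := by
      have e1 : (β ^ ((j : ℕ) + 1)) ^ (1 - P) = ((β ^ ((j : ℕ) + 1))⁻¹) ^ (P - 1) := by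
        rw [inv_rpow hβj1.le, ← rpow_neg hβj1.le]; ring_nf
      have e2 : G / β = (G * β ^ (j : ℕ)) * (β ^ ((j : ℕ) + 1))⁻¹ := by
        rw [pow_succ]; field_simp
      rw [e1, hQ, e2, mul_rpow hlam.le (by positivity)]
      ring
    have hQ1 : 1 ≤ Q := by
      rw [hQ]
      have h1 : 1 ≤ G / β := by rw [le_div_iff₀ hβ0]; linarith
      have h2 : 1 ≤ (G / β) ^ (P - 1) := one_le_rpow h1 (by linarith)
      nlinarith
    apply compress hp hV (fun i i' => dist i i') (fun i i' => dist_nonneg) (f j) hA1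
      (fun i i' => hf1 j i i') (fun i i' s => hf2 j hjJ i i' s) (Γ := 6 * (β ^ ((j : ℕ) + 1)) ^ (1 - P) * A0 n T)
      (Q := Q) (fun i i' => hf3 j i i') hlam (by positivity)
    · refine hS.trans ?_
      apply mul_le_mul_of_nonneg_left _ (by positivity)
      apply rpow_le_rpow (by positivity) _ hP0.le
      apply mul_le_mul_of_nonneg_left _ (by linarith)
      exact pow_le_pow_of_le_one hβ0.le hβ1 hjJ1
    · rw [hprod]; exact hQ1
    · exact le_of_eq hprod
    · exact hδ0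
    · exact hδ1
    · exact hθ0
    · exact hθ1
    · exact hθP
    · refine le_trans ?_ hg
      apply mul_le_mul_of_nonneg_right _ _
      · apply mul_le_mul_of_nonneg_left _ (by positivity)
        exact rpow_le_rpow hlam.le hlG hP0.le
      · rw [K1]
        have h4 : 0 ≤ log (4 * n ^ 2) := log_nonneg (by nlinarith)
        positivity
    · exact hq
  choose z hzz using hz
  refine ⟨fun i jab => z jab.1 i jab.2, ?_⟩
  intro i i'
  have hd : 0 ≤ dist i i' := dist_nonneg
  have hdP : 0 ≤ dist i i' ^ P := rpow_nonneg hd _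
  have hk : lpN p ((fun jab : Fin J × (ZMod q × ZMod q) => z jab.1 i jab.2) -
      (fun jab : Fin J × (ZMod q × ZMod q) => z jab.1 i' jab.2)) ^ P =
      ∑ j : Fin J, lpN p (z j i - z j i') ^ P := by
    rw [lpN_rpow hp, Fintype.sum_prod_type]
    apply Finset.sum_congr rfl
    intro j _
    rw [lpN_rpow hp]
    rfl
  rw [hk]
  have hJ0 : (0 : ℝ) < J := by linarith
  constructor
  · -- lower bound
    have h1 : 3 / 4 * dist i i' ≤ ∑ j ∈ range J, lpN p (f j i - f j i') := by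
      have h2 := hf4 i i'
      have h3 : lpN p (x i - x i') ≤ lpN p ((∑ j ∈ range J, (f j i - f j i')) + (x i - x i')) +
          lpN p (∑ j ∈ range J, (f j i - f j i')) := by
        have e : x i - x i' = ((∑ j ∈ range J, (f j i - f j i')) + (x i - x i')) -
            ∑ j ∈ range J, (f j i - f j i') := by abel
        conv_lhs => rw [e]
        exact map_sub_le_add (lpN p) _ _
      rw [hx] at h3
      have h4 := lpN_sum_le (p := p) (range J) (fun j => f j i - f j i')
      linarith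
    have h5 : ∑ j ∈ range J, lpN p (f j i - f j i') = ∑ j : Fin J, lpN p (f j i - f j i') :=
      (Fin.sum_univ_eq_sum_range (fun j => lpN p (f j i - f j i')) J).symm
    rw [h5] at h1
    have h7 : (∑ j : Fin J, lpN p (f j i - f j i')) ^ P ≤
        (J : ℝ) ^ (P - 1) * ∑ j : Fin J, lpN p (f j i - f j i') ^ P := by
      have h := Real.rpow_sum_le_const_mul_sum_rpow (univ : Finset (Fin J))
        (fun j => lpN p (f j i - f j i')) hP1.le
      simp only [abs_of_nonneg (lpN_nonneg _), Finset.card_univ, Fintype.card_fin] at h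
      exact h
    have h8 : (3 / 4 * dist i i') ^ P ≤
        (J : ℝ) ^ (P - 1) * ∑ j : Fin J, lpN p (f j i - f j i') ^ P :=
      (rpow_le_rpow (by positivity) h1 hP0.le).trans h7
    have h9 : ∑ j : Fin J, lpN p (f j i - f j i') ^ P ≤
        ∑ j : Fin J, lpN p (z j i - z j i') ^ P + J * (δ * dist i i' ^ P) := by
      have : ∀ j : Fin J, lpN p (f j i - f j i') ^ P ≤
          lpN p (z j i - z j i') ^ P + δ * dist i i' ^ P := by
        intro j
        have := (abs_le.1 (hzz j i i')).1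
        linarith
      refine (Finset.sum_le_sum (fun j _ => this j)).trans ?_
      rw [Finset.sum_add_distrib, Finset.sum_const, Finset.card_univ, Fintype.card_fin,
        nsmul_eq_mul]
    rw [mul_rpow (by norm_num) hd] at h8
    -- combine
    have hJP : 0 < (J : ℝ) ^ (P - 1) := by positivity
    have e1 : δ = (J : ℝ) ^ (-P) * 4 ^ (-P) := by
      rw [hδ, mul_rpow hJ0.le (by norm_num)]
    have e2 : (J : ℝ) ^ (P - 1) * (J * δ) = 4 ^ (-P) := by
      rw [e1]
      have : (J : ℝ) ^ (P - 1) * (J * ((J : ℝ) ^ (-P) * 4 ^ (-P))) =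
          ((J : ℝ) ^ (P - 1) * J * (J : ℝ) ^ (-P)) * 4 ^ (-P) := by ring
      rw [this, ← rpow_add_one hJ0.ne', ← rpow_add hJ0]
      have : P - 1 + 1 + -P = 0 := by ring
      rw [this, rpow_zero, one_mul]
    have h10 : (1 / 2 : ℝ) ^ P + 4 ^ (-P) ≤ (3 / 4) ^ P := by
      have h := Real.add_rpow_le_rpow_add (by norm_num : (0 : ℝ) ≤ 1 / 2)
        (by norm_num : (0 : ℝ) ≤ 1 / 4) hP1.le
      have e3 : (4 : ℝ) ^ (-P) = (1 / 4) ^ P := by
        rw [one_div, inv_rpow (by norm_num), rpow_neg (by norm_num)]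
      have e4 : (1 / 2 : ℝ) + 1 / 4 = 3 / 4 := by norm_num
      rw [e4] at h
      rw [e3]; exact h
    have h11 : (1 / 2 : ℝ) ^ P * dist i i' ^ P ≤
        (J : ℝ) ^ (P - 1) * ∑ j : Fin J, lpN p (z j i - z j i') ^ P := by
      have h12 := mul_le_mul_of_nonneg_left h9 hJP.le
      have h13 := mul_le_mul_of_nonneg_right h10 hdP
      have h14 : (J : ℝ) ^ (P - 1) * (∑ j : Fin J, lpN p (z j i - z j i') ^ P +
          J * (δ * dist i i' ^ P)) = (J : ℝ) ^ (P - 1) * ∑ j : Fin J, lpN p (z j i - z j i') ^ P +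
          4 ^ (-P) * dist i i' ^ P := by
        rw [← e2]; ring
      rw [h14] at h12
      linarith
    have e5 : (2 * (J : ℝ)) ^ (-P) = (1 / 2) ^ P * (J : ℝ) ^ (-P) := by
      rw [mul_rpow (by norm_num) hJ0.le, one_div, inv_rpow (by norm_num), rpow_neg (by norm_num)]
    rw [e5, le_div_iff₀ hJ0]
    have hJm : 0 < (J : ℝ) ^ (-P) := by positivity
    have h15 := mul_le_mul_of_nonneg_left h11 (by positivity : 0 ≤ (J : ℝ) ^ (-P) * J)
    have e6 : (J : ℝ) ^ (-P) * J * ((J : ℝ) ^ (P - 1) *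
        ∑ j : Fin J, lpN p (z j i - z j i') ^ P) = ∑ j : Fin J, lpN p (z j i - z j i') ^ P := by
      have : (J : ℝ) ^ (-P) * J * (J : ℝ) ^ (P - 1) = 1 := by
        rw [← rpow_add_one hJ0.ne', ← rpow_add hJ0]
        have : -P + 1 + (P - 1) = 0 := by ring
        rw [this, rpow_zero]
      rw [← mul_assoc, this, one_mul]
    rw [e6] at h15
    linarith
  · -- upper bound
    rw [div_le_iff₀ hJ0]
    have h1 : ∀ j : Fin J, lpN p (z j i - z j i') ^ P ≤ (A + 1) ^ P * dist i i' ^ P := by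
      intro j
      have h2 := (abs_le.1 (hzz j i i')).2
      have h3 : lpN p (f j i - f j i') ^ P ≤ A ^ P * dist i i' ^ P := by
        rw [← mul_rpow (by linarith) hd]
        exact rpow_le_rpow (lpN_nonneg _) (hf1 j i i') hP0.le
      have h4 : A ^ P + 1 ^ P ≤ (A + 1) ^ P :=
        Real.add_rpow_le_rpow_add (by linarith) zero_le_one hP1.le
      rw [one_rpow] at h4
      have h5 : (A ^ P + δ) * dist i i' ^ P ≤ (A + 1) ^ P * dist i i' ^ P :=
        mul_le_mul_of_nonneg_right (by linarith) hdP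
      linarith
    refine (Finset.sum_le_sum (fun j _ => h1 j)).trans ?_
    rw [Finset.sum_const, Finset.card_univ, Fintype.card_fin, nsmul_eq_mul]
    linarith

end embed

end Vale.Agent.H22
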