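import Mathlib

set_option linter.unusedSectionVars false

namespace Vale.Agent.H22

open Finset Real

section kernel

variable {V : Type*} [Fintype V] [PseudoMetricSpace V]

/-- exponential weight at scale `r` -/
noncomputable def wt (r : ℝ) (i k : V) : ℝ := exp (-(dist i k / r))

/-- total weight -/
noncomputable def Zt (r : ℝ) (i : V) : ℝ := ∑ k, wt r i k

/-- probability kernel -/
noncomputable def Pk (r : ℝ) (i k : V) : ℝ := wt r i k / Zt r i

/-- normalised mean displacement -/
noncomputable def ek (r : ℝ) (i : V) : ℝ := ∑ k, Pk r i k * (dist i k / r)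

theorem wt_pos (r : ℝ) (i k : V) : 0 < wt r i k := exp_pos _

theorem one_le_Zt (r : ℝ) (i : V) : 1 ≤ Zt r i := by
  have h : wt r i i ≤ Zt r i :=
    Finset.single_le_sum (f := fun k => wt r i k) (fun k _ => (wt_pos r i k).le) (mem_univ i)
  have h1 : wt r i i = 1 := by simp [wt]
  linarith

theorem Zt_pos (r : ℝ) (i : V) : 0 < Zt r i := lt_of_lt_of_le one_pos (one_le_Zt r i)

theorem Zt_le_card {r : ℝ} (hr : 0 < r) (i : V) : Zt r i ≤ Fintype.card V := by
  have h : Zt r i ≤ ∑ _k : V, (1 : ℝ) := by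
    apply Finset.sum_le_sum
    intro k _
    rw [wt, exp_le_one_iff]
    have : 0 ≤ dist i k / r := by positivity
    linarith
  simpa using h

theorem logZ_nonneg (r : ℝ) (i : V) : 0 ≤ log (Zt r i) := log_nonneg (one_le_Zt r i)

theorem logZ_le {r : ℝ} (hr : 0 < r) (i : V) : log (Zt r i) ≤ log (Fintype.card V) :=
  log_le_log (Zt_pos r i) (Zt_le_card hr i)

theorem Pk_pos (r : ℝ) (i k : V) : 0 < Pk r i k := div_pos (wt_pos r i k) (Zt_pos r i)

theorem Pk_sum (r : ℝ) (i : V) : ∑ k, Pk r i k = 1 := by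
  simp only [Pk]
  rw [← Finset.sum_div]
  exact div_self (Zt_pos r i).ne'

theorem ek_nonneg {r : ℝ} (hr : 0 < r) (i : V) : 0 ≤ ek r i :=
  Finset.sum_nonneg (fun k _ => mul_nonneg (Pk_pos r i k).le (by positivity))

/-- `∑ P * dist = r * e` -/
theorem sum_P_dist {r : ℝ} (hr : 0 < r) (i : V) : ∑ k, Pk r i k * dist i k = r * ek r i := by
  rw [ek, Finset.mul_sum]
  apply Finset.sum_congr rfl
  intro k _
  field_simp

/-- (A): Jensen -/
theorem ek_le {r : ℝ} (hr : 0 < r) (i : V) :
    ek r i ≤ 2 * (log (Zt (2 * r) i) - log (Zt r i)) := by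
  set μ := ek r i / 2 with hμ
  have h1 : Zt (2 * r) i = Zt r i * ∑ k, Pk r i k * exp (dist i k / (2 * r)) := by
    rw [Finset.mul_sum, Zt]
    apply Finset.sum_congr rfl
    intro k _
    have h2 : Zt r i * (Pk r i k * exp (dist i k / (2 * r))) =
        wt r i k * exp (dist i k / (2 * r)) := by
      rw [Pk]
      have := (Zt_pos r i).ne'
      field_simp
    rw [h2, wt, wt, ← exp_add]
    congr 1
    field_simp
    ring
  have h3 : exp μ ≤ ∑ k, Pk r i k * exp (dist i k / (2 * r)) := by
    have h4 : ∀ k, Pk r i k * (exp μ * (1 + (dist i k / (2 * r) - μ))) ≤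
        Pk r i k * exp (dist i k / (2 * r)) := by
      intro k
      apply mul_le_mul_of_nonneg_left _ (Pk_pos r i k).le
      have h5 := add_one_le_exp (dist i k / (2 * r) - μ)
      calc exp μ * (1 + (dist i k / (2 * r) - μ)) ≤ exp μ * exp (dist i k / (2 * r) - μ) :=
            mul_le_mul_of_nonneg_left (by linarith) (exp_pos _).le
        _ = exp (dist i k / (2 * r)) := by rw [← exp_add]; ring_nf
    have h6 : ∑ k, Pk r i k * (exp μ * (1 + (dist i k / (2 * r) - μ))) = exp μ := by
      have h7 : ∀ k, Pk r i k * (exp μ * (1 + (dist i k / (2 * r) - μ))) =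
          exp μ * (1 - μ) * Pk r i k + exp μ / 2 * (Pk r i k * (dist i k / r)) := by
        intro k
        field_simp
        ring
      rw [Finset.sum_congr rfl (fun k _ => h7 k), Finset.sum_add_distrib, ← Finset.mul_sum,
        ← Finset.mul_sum, Pk_sum]
      change exp μ * (1 - μ) * 1 + exp μ / 2 * ek r i = exp μ
      rw [hμ]; ring
    rw [← h6]
    exact Finset.sum_le_sum (fun k _ => h4 k)
  have h8 : Zt r i * exp μ ≤ Zt (2 * r) i := by
    rw [h1]; exact mul_le_mul_of_nonneg_left h3 (Zt_pos r i).le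
  have h9 := log_le_log (mul_pos (Zt_pos r i) (exp_pos _)) h8
  rw [log_mul (Zt_pos r i).ne' (exp_pos _).ne', log_exp] at h9
  linarith

theorem ek_le_log {r : ℝ} (hr : 0 < r) (i : V) : ek r i ≤ 2 * log (Fintype.card V) := by
  have h1 := ek_le hr i
  have h2 := logZ_le (by linarith : 0 < 2 * r) i
  have h3 := logZ_nonneg r i
  linarith

/-- sum of the mean displacements over dyadic scales -/
theorem sum_ek_le {r : ℝ} (hr : 0 < r) (i : V) (N : ℕ) :
    ∑ m ∈ range N, ek (r * 2 ^ m) i ≤ 2 * log (Fintype.card V) := by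
  have h1 : ∑ m ∈ range N, ek (r * 2 ^ m) i ≤
      ∑ m ∈ range N, (2 * log (Zt (r * 2 ^ (m + 1)) i) - 2 * log (Zt (r * 2 ^ m) i)) := by
    apply Finset.sum_le_sum
    intro m _
    have h := ek_le (by positivity : 0 < r * 2 ^ m) i
    have e : 2 * (r * 2 ^ m) = r * 2 ^ (m + 1) := by ring
    rw [e] at h
    linarith
  rw [Finset.sum_range_sub (fun m => 2 * log (Zt (r * 2 ^ m) i))] at h1
  have h2 := logZ_le (by positivity : 0 < r * 2 ^ N) i
  have h3 := logZ_nonneg (r * 2 ^ 0) i
  linarith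

/-- (C) -/
theorem min_le_log {r κ : ℝ} (hr : 0 < r) (hκ0 : 0 < κ) (hκ : κ ≤ 1 / 2) (i : V) :
    ∑ k, Pk r i k * min κ (dist i k / r) ≤ 4 * κ * (log (Zt r i) - log (Zt (κ * r) i)) := by
  have h1 : Zt (κ * r) i = Zt r i * ∑ k, Pk r i k * exp (-(dist i k / r * (1 / κ - 1))) := by
    rw [Finset.mul_sum, Zt]
    apply Finset.sum_congr rfl
    intro k _
    have h2 : Zt r i * (Pk r i k * exp (-(dist i k / r * (1 / κ - 1)))) =
        wt r i k * exp (-(dist i k / r * (1 / κ - 1))) := by
      rw [Pk]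
      have := (Zt_pos r i).ne'
      field_simp
    rw [h2, wt, wt, ← exp_add]
    congr 1
    field_simp
    ring
  set y := ∑ k, Pk r i k * exp (-(dist i k / r * (1 / κ - 1))) with hy
  have hypos : 0 < y := by
    have h2 := Zt_pos (κ * r) i
    rw [h1] at h2
    exact (pos_iff_pos_of_mul_pos h2).1 (Zt_pos r i)
  have h3 : log (Zt r i) - log (Zt (κ * r) i) = - log y := by
    rw [h1, log_mul (Zt_pos r i).ne' hypos.ne']; ring
  have h4 : 1 - y ≤ - log y := by
    have := log_le_sub_one_of_pos hypos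
    linarith
  have h5 : 1 - y = ∑ k, Pk r i k * (1 - exp (-(dist i k / r * (1 / κ - 1)))) := by
    rw [hy]
    simp_rw [mul_sub, mul_one]
    rw [Finset.sum_sub_distrib, Pk_sum]
  have h6 : ∀ u : ℝ, 0 ≤ u → min κ u ≤ 4 * κ * (1 - exp (-(u * (1 / κ - 1)))) := by
    intro u hu
    have hk : 1 / (2 * κ) ≤ 1 / κ - 1 := by
      rw [div_sub_one hκ0.ne', div_le_div_iff₀ (by positivity) hκ0]
      nlinarith
    set t := u * (1 / κ - 1) with ht
    have ht0 : 0 ≤ t := by
      apply mul_nonneg hu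
      have : 0 < 1 / (2 * κ) := by positivity
      linarith
    have ht1 : u / (2 * κ) ≤ t := by
      rw [ht, div_eq_mul_one_div]
      exact mul_le_mul_of_nonneg_left hk hu
    have h7 : t / (1 + t) ≤ 1 - exp (-t) := by
      rw [exp_neg]
      have h8 := add_one_le_exp t
      have h9 : (exp t)⁻¹ ≤ (1 + t)⁻¹ := by
        apply inv_anti₀ (by linarith)
        linarith
      have h10 : t / (1 + t) = 1 - (1 + t)⁻¹ := by
        field_simp
        ring
      linarith
    have h11 : min 1 (u / κ) / 4 ≤ t / (1 + t) := by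
      rcases le_total 1 t with h | h
      · have : 1 / 2 ≤ t / (1 + t) := by
          rw [div_le_div_iff₀ (by norm_num) (by linarith)]
          linarith
        have h12 := min_le_left 1 (u / κ)
        linarith
      · have : t / 2 ≤ t / (1 + t) := by
          apply div_le_div_of_nonneg_left ht0 (by linarith)
          linarith
        have h12 := min_le_right 1 (u / κ)
        have h13 : u / (2 * κ) = u / κ / 2 := by field_simp
        linarith
    have h14 : min κ u = κ * min 1 (u / κ) := by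
      rw [mul_min_of_nonneg _ _ hκ0.le, mul_one, mul_div_cancel₀ _ hκ0.ne']
    rw [h14]
    nlinarith
  rw [h3]
  calc ∑ k, Pk r i k * min κ (dist i k / r)
      ≤ ∑ k, 4 * κ * (Pk r i k * (1 - exp (-(dist i k / r * (1 / κ - 1))))) := by
        apply Finset.sum_le_sum
        intro k _
        have := mul_le_mul_of_nonneg_left (h6 (dist i k / r) (by positivity)) (Pk_pos r i k).le
        linarith
    _ = 4 * κ * (1 - y) := by rw [← Finset.mul_sum, ← h5]
    _ ≤ 4 * κ * (- log y) := by
        apply mul_le_mul_of_nonneg_left h4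
        positivity

theorem sum_logdiff_le {r : ℝ} (hr : 0 < r) (i : V) (a N : ℕ) :
    ∑ m ∈ range N, (log (Zt (r * 2 ^ m) i) - log (Zt ((1 / 2) ^ a * (r * 2 ^ m)) i)) ≤
      a * log (Fintype.card V) := by
  induction a with
  | zero => simp
  | succ a ih =>
    have h1 : ∀ m, log (Zt (r * 2 ^ m) i) - log (Zt ((1 / 2) ^ (a + 1) * (r * 2 ^ m)) i) =
        (log (Zt (r * 2 ^ m) i) - log (Zt ((1 / 2) ^ a * (r * 2 ^ m)) i)) +
        (log (Zt ((1 / 2) ^ (a + 1) * r * 2 ^ (m + 1)) i) -
          log (Zt ((1 / 2) ^ (a + 1) * r * 2 ^ m) i)) := by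
      intro m
      have e1 : (1 / 2 : ℝ) ^ (a + 1) * r * 2 ^ (m + 1) = (1 / 2) ^ a * (r * 2 ^ m) := by
        rw [pow_succ, pow_succ]; ring
      have e2 : (1 / 2 : ℝ) ^ (a + 1) * (r * 2 ^ m) = (1 / 2) ^ (a + 1) * r * 2 ^ m := by ring
      rw [e1, e2]; ring
    rw [Finset.sum_congr rfl (fun m _ => h1 m), Finset.sum_add_distrib,
      Finset.sum_range_sub (fun m => log (Zt ((1 / 2) ^ (a + 1) * r * 2 ^ m) i))]
    have h2 := logZ_le (by positivity : 0 < (1 / 2 : ℝ) ^ (a + 1) * r * 2 ^ N) i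
    have h3 := logZ_nonneg ((1 / 2 : ℝ) ^ (a + 1) * r * 2 ^ 0) i
    push_cast
    linarith

/-- (B) -/
theorem Pk_diff {r : ℝ} (hr : 0 < r) {i j : V} (hij : dist i j ≤ r) (k : V) :
    |Pk r i k - Pk r j k| ≤ 7 * (dist i j / r) * Pk r i k := by
  set t := dist i j / r with ht
  have ht0 : 0 ≤ t := by positivity
  have ht1 : t ≤ 1 := (div_le_one hr).2 hij
  have hw : ∀ i' j' : V, dist i' j' = dist i j → ∀ k, wt r j' k ≤ exp t * wt r i' k := by
    intro i' j' h k
    rw [wt, wt, ← exp_add]
    apply exp_le_exp.2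
    rw [ht, ← h]
    have h1 := dist_triangle i' j' k
    have h2 : dist i' k / r ≤ dist i' j' / r + dist j' k / r := by
      rw [← add_div]; exact div_le_div_of_nonneg_right h1 hr.le
    linarith
  have hZ : ∀ i' j' : V, dist i' j' = dist i j → Zt r j' ≤ exp t * Zt r i' := by
    intro i' j' h
    rw [Zt, Zt, Finset.mul_sum]
    exact Finset.sum_le_sum (fun k _ => hw i' j' h k)
  have hP : ∀ i' j' : V, dist i' j' = dist i j → Pk r j' k ≤ exp (2 * t) * Pk r i' k := by
    intro i' j' h
    have h1 := hw i' j' h k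
    have h2 := hZ j' i' (by rw [dist_comm]; exact h)
    rw [Pk, Pk, div_le_iff₀ (Zt_pos r j')]
    calc wt r j' k ≤ exp t * wt r i' k := h1
      _ = exp (2 * t) * (wt r i' k / Zt r i') * (exp (-t) * Zt r i') := by
          have h3 : exp (2 * t) = exp t * exp t := by rw [← exp_add]; ring_nf
          have h4 : exp t * exp (-t) = 1 := by rw [← exp_add]; simp
          have h5 := (Zt_pos r i').ne'
          field_simp
          rw [h3]
          linear_combination (-(exp t * wt r i' k)) * h4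
      _ ≤ exp (2 * t) * (wt r i' k / Zt r i') * Zt r j' := by
          apply mul_le_mul_of_nonneg_left
          · rw [exp_neg, inv_mul_le_iff₀ (exp_pos t)]
            exact h2
          · exact mul_nonneg (exp_pos _).le (div_pos (wt_pos _ _ _) (Zt_pos _ _)).le
  have h1 := hP i j rfl
  have h2 := hP j i (dist_comm j i)
  have hPi := Pk_pos r i k
  have hPj := Pk_pos r j k
  have hexp : exp (2 * t) - 1 ≤ 7 * t := by
    have hc := convexOn_exp.2 (Set.mem_univ (0 : ℝ)) (Set.mem_univ (2 : ℝ))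
      (sub_nonneg.2 ht1) ht0 (by ring : (1 - t) + t = 1)
    simp only [smul_eq_mul, mul_zero, zero_add, Real.exp_zero, mul_one] at hc
    have he2 : exp 2 ≤ 8 := by
      have h := exp_one_lt_d9
      have : exp 2 = exp 1 * exp 1 := by rw [← exp_add]; norm_num
      rw [this]
      nlinarith [exp_pos 1]
    rw [mul_comm t 2] at hc
    nlinarith
  rw [abs_le]
  constructor
  · nlinarith
  · -- P_i - P_j ≤ (1 - e^{-2t}) P_i ≤ (e^{2t}-1) P_i
    have h3 : exp (-(2 * t)) * Pk r i k ≤ Pk r j k := by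
      rw [exp_neg, inv_mul_le_iff₀ (exp_pos _)]
      exact h2
    have h4 : 1 - exp (-(2 * t)) ≤ exp (2 * t) - 1 := by
      have h5 := add_one_le_exp (-(2 * t))
      have h6 := add_one_le_exp (2 * t)
      linarith
    nlinarith

end kernel

end Vale.Agent.H22
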