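import Vale.Agent.H22.LT2A

/-!
Row A, bounds uniform in `M`.
-/

open MeasureTheory Matrix Set
open scoped ENNReal ComplexOrder

namespace Vale.LT2

open Vale.H22.GT

variable {N : ℕ}

lemma tp_single (A : Mat N) (i j : Fin N) (c : ℂ) :
    tp A (Matrix.single j i c) = (A i j * c).re := by
  unfold tp
  rw [Matrix.trace, Complex.re_sum]
  rw [Finset.sum_eq_single i]
  · rw [diag_apply, Matrix.mul_apply, Complex.re_sum, Finset.sum_eq_single j]
    · simp
    · intro b _ hb
      rw [Matrix.single_apply_of_row_ne hb.symm]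
      simp
    · intro h; exact absurd (Finset.mem_univ _) h
  · intro b _ hb
    rw [diag_apply, Matrix.mul_apply, Complex.re_sum]
    refine Finset.sum_eq_zero fun k _ => ?_
    rw [Matrix.single_apply_of_col_ne _ _ hb.symm]
    simp
  · intro h; exact absurd (Finset.mem_univ _) h

lemma cX_single (i j : Fin N) (c : ℂ) : cX (Matrix.single j i c) = ‖c‖ := by
  unfold cX
  rw [Finset.sum_eq_single i]
  · rw [Finset.sum_eq_single j]
    · simp
    · intro b _ hb
      rw [Matrix.single_apply_of_row_ne hb.symm]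
      simp
    · intro h; exact absurd (Finset.mem_univ _) h
  · intro b _ hb
    refine Finset.sum_eq_zero fun k _ => ?_
    rw [Matrix.single_apply_of_col_ne _ _ hb.symm]
    simp
  · intro h; exact absurd (Finset.mem_univ _) h

lemma entry_le_of_tp (A : Mat N) (b : ℝ) (h : ∀ X : Mat N, |tp A X| ≤ b * cX X) (i j : Fin N) :
    ‖A i j‖ ≤ 2 * b := by
  have h1 := h (Matrix.single j i 1)
  have h2 := h (Matrix.single j i (-Complex.I))
  rw [tp_single, cX_single] at h1 h2
  have e1 : (A i j * 1).re = (A i j).re := by simp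
  have e2 : (A i j * (-Complex.I)).re = (A i j).im := by simp
  rw [e1, norm_one, mul_one] at h1
  rw [e2, norm_neg, Complex.norm_I, mul_one] at h2
  have := Complex.norm_le_abs_re_add_abs_im (A i j)
  linarith

theorem Dl_small_unif (K : Mat N) (hK : K.PosDef) :
    ∃ C : ℝ, ∀ M, Between K M → ∀ l ∈ Ioc (0 : ℝ) 1, ∀ i j,
      ‖Dl K M l i j‖ ≤ C * (1 + |Real.log l|) := by
  refine ⟨2 * ((3 + 2 * (1 + 2 * TT hK)) * N), fun M hM l hl i j => ?_⟩
  refine (entry_le_of_tp _ _ (fun X => Dl_crude hK hM X l hl.1) i j).trans ?_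
  have h1 : √l ≤ 1 := by
    rw [Real.sqrt_le_left (by norm_num)]
    linarith [hl.2]
  have h2 := TT_posA hK
  have h3 := abs_nonneg (Real.log l)
  have h4 : 3 * |Real.log l| + 2 * (√l + 2 * TT hK) ≤
      (3 + 2 * (1 + 2 * TT hK)) * (1 + |Real.log l|) := by nlinarith
  have h5 : 0 ≤ (N : ℝ) := Nat.cast_nonneg _
  have := mul_le_mul_of_nonneg_right h4 h5
  nlinarith

theorem Dl_large_unif (K : Mat N) (hK : K.PosDef) :
    ∃ C : ℝ, ∀ M, Between K M → ∀ l ∈ Ici (1 : ℝ), ∀ i j, ‖Dl K M l i j‖ ≤ C / l := by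
  have hT := TT_posA hK
  have hN : 0 ≤ (N : ℝ) := Nat.cast_nonneg _
  refine ⟨2 * (17 * TT hK ^ 2 * N + 16 * TT hK ^ 2 * ((100 * TT hK ^ 2) * N)),
    fun M hM l hl i j => ?_⟩
  have hl1 : (1:ℝ) ≤ l := hl
  have hl0 : 0 < l := by linarith
  have hb : ∀ X : Mat N, |tp (Dl K M l) X| ≤
      ((17 * TT hK ^ 2 * N + 16 * TT hK ^ 2 * ((100 * TT hK ^ 2) * N)) / l) * cX X := by
    intro X
    have hX := cX_nonneg X
    rcases le_total (16 * TT hK ^ 2) l with h | h
    · refine (Dl_large_aux hK hM X l h).trans ?_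
      have e : (17 * TT hK ^ 2 * N * cX X) / l = ((17 * TT hK ^ 2 * N) / l) * cX X := by ring
      rw [e]
      refine mul_le_mul_of_nonneg_right ?_ hX
      refine div_le_div_of_nonneg_right ?_ hl0.le
      have : 0 ≤ 16 * TT hK ^ 2 * ((100 * TT hK ^ 2) * N) := by positivity
      linarith
    · refine (Dl_mid hK hM X l hl1 h).trans ?_
      refine mul_le_mul_of_nonneg_right ?_ hX
      rw [le_div_iff₀ hl0]
      have h1 : (100 * TT hK ^ 2) * N * l ≤ 16 * TT hK ^ 2 * ((100 * TT hK ^ 2) * N) := by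
        have h2 : 0 ≤ (100 * TT hK ^ 2) * N := by positivity
        nlinarith
      have h3 : 0 ≤ 17 * TT hK ^ 2 * N := by positivity
      linarith
  have := entry_le_of_tp _ _ hb i j
  refine this.trans (le_of_eq ?_)
  ring

end Vale.LT2
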