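import Mathlib

namespace Vale.Agent.H22

open MeasureTheory Real

/-- convexity bound for the exponential on `[0, M]` -/
theorem exp_chord {z M a : ℝ} (hM : 0 < M) (h0 : 0 ≤ z) (h1 : z ≤ M) :
    exp (a / M * z) ≤ 1 + z / M * (exp a - 1) := by
  have hz : z / M ≤ 1 := (div_le_one hM).2 h1
  have hz0 : 0 ≤ z / M := div_nonneg h0 hM.le
  have h := convexOn_exp.2 (Set.mem_univ (0 : ℝ)) (Set.mem_univ a)
    (sub_nonneg.2 hz) hz0 (by ring : (1 - z / M) + z / M = 1)
  simp only [smul_eq_mul, mul_zero, zero_add, Real.exp_zero, mul_one] at h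
  have e1 : a / M * z = z / M * a := by ring
  rw [e1]
  linarith

theorem integral_exp_le {Ω : Type*} [MeasurableSpace Ω] (ν : Measure Ω) [IsProbabilityMeasure ν]
    {Z : Ω → ℝ} (hZm : Measurable Z) {M : ℝ} (hM : 0 < M) (hZ0 : ∀ s, 0 ≤ Z s)
    (hZM : ∀ s, Z s ≤ M) (hZ1 : ∫ s, Z s ∂ν = 1) (a : ℝ) :
    Integrable (fun s => exp (a / M * Z s)) ν ∧
      ∫ s, exp (a / M * Z s) ∂ν ≤ exp ((exp a - 1) / M) := by
  have hZint : Integrable Z ν := by
    apply Integrable.of_bound hZm.aestronglyMeasurable M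
    refine Filter.Eventually.of_forall (fun s => ?_)
    rw [Real.norm_eq_abs, abs_of_nonneg (hZ0 s)]; exact hZM s
  have hint : Integrable (fun s => exp (a / M * Z s)) ν := by
    apply Integrable.of_bound (C := exp (|a|))
    · exact (measurable_exp.comp (hZm.const_mul _)).aestronglyMeasurable
    · refine Filter.Eventually.of_forall (fun s => ?_)
      rw [Real.norm_eq_abs, abs_of_pos (exp_pos _)]
      apply exp_le_exp.2
      have h1 : Z s / M ≤ 1 := (div_le_one hM).2 (hZM s)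
      have h0 : 0 ≤ Z s / M := div_nonneg (hZ0 s) hM.le
      calc a / M * Z s = a * (Z s / M) := by ring
        _ ≤ |a| * (Z s / M) := mul_le_mul_of_nonneg_right (le_abs_self a) h0
        _ ≤ |a| * 1 := mul_le_mul_of_nonneg_left h1 (abs_nonneg a)
        _ = |a| := mul_one _
  refine ⟨hint, ?_⟩
  have h1 : ∫ s, exp (a / M * Z s) ∂ν ≤ ∫ s, (1 + Z s / M * (exp a - 1)) ∂ν := by
    apply integral_mono hint
    · exact (integrable_const _).add ((hZint.div_const _).mul_const _)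
    · intro s
      exact exp_chord hM (hZ0 s) (hZM s)
  have h2 : ∫ s, (1 + Z s / M * (exp a - 1)) ∂ν = 1 + (exp a - 1) / M := by
    rw [integral_add (integrable_const _) ((hZint.div_const _).mul_const _), integral_mul_const,
      integral_div, hZ1]
    simp
    ring
  rw [h2] at h1
  refine h1.trans ?_
  have := add_one_le_exp ((exp a - 1) / M)
  linarith

theorem exponent_bound {M ε : ℝ} (hM : 0 < M) (hε0 : 0 < ε) (hε1 : ε ≤ 1) :
    exp (-(ε / 2 / M) * (1 + ε)) * exp ((exp (ε / 2) - 1) / M) ≤ exp (-(ε ^ 2 / (4 * M))) ∧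
    exp ((ε / 2 / M) * (1 - ε)) * exp ((exp (-(ε / 2)) - 1) / M) ≤ exp (-(ε ^ 2 / (4 * M))) := by
  have h1 := Real.abs_exp_sub_one_sub_id_le (x := ε / 2) (by rw [abs_of_pos (by linarith)]; linarith)
  have h2 := Real.abs_exp_sub_one_sub_id_le (x := -(ε / 2))
    (by rw [abs_neg, abs_of_pos (by linarith)]; linarith)
  have h1' := (abs_le.1 h1).2
  have h2' := (abs_le.1 h2).2
  constructor
  · rw [← exp_add]
    apply exp_le_exp.2
    have e : -(ε / 2 / M) * (1 + ε) + (exp (ε / 2) - 1) / M + ε ^ 2 / (4 * M) =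
        (exp (ε / 2) - 1 - ε / 2 - (ε / 2) ^ 2) / M := by
      field_simp; ring
    have : (exp (ε / 2) - 1 - ε / 2 - (ε / 2) ^ 2) / M ≤ 0 := by
      apply div_nonpos_of_nonpos_of_nonneg _ hM.le
      linarith
    linarith
  · rw [← exp_add]
    apply exp_le_exp.2
    have e : (ε / 2 / M) * (1 - ε) + (exp (-(ε / 2)) - 1) / M + ε ^ 2 / (4 * M) =
        (exp (-(ε / 2)) - 1 - -(ε / 2) - (-(ε / 2)) ^ 2) / M := by
      field_simp; ring
    have : (exp (-(ε / 2)) - 1 - -(ε / 2) - (-(ε / 2)) ^ 2) / M ≤ 0 := by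
      apply div_nonpos_of_nonpos_of_nonneg _ hM.le
      linarith
    linarith

/-- Derandomized Chernoff sampling for a finite family of bounded mean-one functions. -/
theorem sampling_aux {Ω : Type*} [MeasurableSpace Ω] (ν : Measure Ω) [IsProbabilityMeasure ν]
    {I : Type*} [Fintype I] (Z : I → Ω → ℝ) (hZm : ∀ i, Measurable (Z i)) {M : ℝ} (hM : 0 < M)
    (hZ0 : ∀ i s, 0 ≤ Z i s) (hZM : ∀ i s, Z i s ≤ M) (hZ1 : ∀ i, ∫ s, Z i s ∂ν = 1)
    {ε : ℝ} (hε0 : 0 < ε) (hε1 : ε ≤ 1) (N : ℕ) :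
    ∃ s : Fin N → Ω, ∑ i, (exp (ε / 2 / M * (∑ l, Z i (s l) - N * (1 + ε))) +
      exp (-(ε / 2 / M) * (∑ l, Z i (s l) - N * (1 - ε)))) ≤
      2 * Fintype.card I * exp (-(ε ^ 2 / (4 * M))) ^ N := by
  induction N with
  | zero =>
    refine ⟨Fin.elim0, ?_⟩
    simp
    linarith
  | succ N ih =>
    obtain ⟨s, hs⟩ := ih
    set q := exp (-(ε ^ 2 / (4 * M))) with hq
    let c1 : I → ℝ := fun i => exp (ε / 2 / M * (∑ l, Z i (s l) - N * (1 + ε)))
    let c2 : I → ℝ := fun i => exp (-(ε / 2 / M) * (∑ l, Z i (s l) - N * (1 - ε)))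
    let g : Ω → ℝ := fun ω => ∑ i, (c1 i * (exp (-(ε / 2 / M) * (1 + ε)) * exp (ε / 2 / M * Z i ω))
      + c2 i * (exp ((ε / 2 / M) * (1 - ε)) * exp (-(ε / 2) / M * Z i ω)))
    have hb := exponent_bound hM hε0 hε1
    have h1 := fun i => integral_exp_le ν (hZm i) hM (hZ0 i) (hZM i) (hZ1 i) (ε / 2)
    have h2 := fun i => integral_exp_le ν (hZm i) hM (hZ0 i) (hZM i) (hZ1 i) (-(ε / 2))
    have hgi : Integrable g ν := by
      apply integrable_finsetSum
      intro i _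
      exact (((h1 i).1.const_mul _).const_mul _).add (((h2 i).1.const_mul _).const_mul _)
    have hgint : ∫ ω, g ω ∂ν ≤ q * ∑ i, (c1 i + c2 i) := by
      rw [integral_finsetSum]
      · rw [Finset.mul_sum]
        apply Finset.sum_le_sum
        intro i _
        rw [integral_add (((h1 i).1.const_mul _).const_mul _) (((h2 i).1.const_mul _).const_mul _),
          integral_const_mul, integral_const_mul, integral_const_mul, integral_const_mul]
        have hc1 : 0 < c1 i := exp_pos _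
        have hc2 : 0 < c2 i := exp_pos _
        have e1 : exp (-(ε / 2 / M) * (1 + ε)) * ∫ ω, exp (ε / 2 / M * Z i ω) ∂ν ≤ q :=
          (mul_le_mul_of_nonneg_left (h1 i).2 (exp_pos _).le).trans hb.1
        have e2 : exp ((ε / 2 / M) * (1 - ε)) * ∫ ω, exp (-(ε / 2) / M * Z i ω) ∂ν ≤ q :=
          (mul_le_mul_of_nonneg_left (h2 i).2 (exp_pos _).le).trans hb.2
        have e3 := mul_le_mul_of_nonneg_left e1 hc1.le
        have e4 := mul_le_mul_of_nonneg_left e2 hc2.le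
        linarith
      · intro i _
        exact (((h1 i).1.const_mul _).const_mul _).add (((h2 i).1.const_mul _).const_mul _)
    obtain ⟨ω, hω⟩ := exists_le_integral hgi
    refine ⟨Fin.snoc s ω, ?_⟩
    have hqpos : 0 < q := exp_pos _
    calc ∑ i, (exp (ε / 2 / M * (∑ l, Z i ((Fin.snoc s ω : Fin (N + 1) → Ω) l) - (N + 1 : ℕ) * (1 + ε))) +
          exp (-(ε / 2 / M) * (∑ l, Z i ((Fin.snoc s ω : Fin (N + 1) → Ω) l) - (N + 1 : ℕ) * (1 - ε))))
        = g ω := by
          apply Finset.sum_congr rfl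
          intro i _
          simp only [c1, c2]
          rw [Fin.sum_univ_castSucc]
          simp only [Fin.snoc_castSucc, Fin.snoc_last]
          rw [← exp_add, ← exp_add, ← exp_add, ← exp_add]
          push_cast
          congr 1
          · congr 1; ring
          · congr 1; ring
      _ ≤ ∫ ω, g ω ∂ν := hω
      _ ≤ q * ∑ i, (c1 i + c2 i) := hgint
      _ ≤ q * (2 * Fintype.card I * q ^ N) := mul_le_mul_of_nonneg_left hs hqpos.le
      _ = 2 * Fintype.card I * q ^ (N + 1) := by ring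

theorem sampling {Ω : Type*} [MeasurableSpace Ω] (ν : Measure Ω) [IsProbabilityMeasure ν]
    {I : Type*} [Fintype I] (Z : I → Ω → ℝ) (hZm : ∀ i, Measurable (Z i)) {M : ℝ} (hM : 0 < M)
    (hZ0 : ∀ i s, 0 ≤ Z i s) (hZM : ∀ i s, Z i s ≤ M) (hZ1 : ∀ i, ∫ s, Z i s ∂ν = 1)
    {ε : ℝ} (hε0 : 0 < ε) (hε1 : ε ≤ 1) (N : ℕ)
    (hN : 2 * Fintype.card I * exp (-(ε ^ 2 / (4 * M))) ^ N < 1) :
    ∃ s : Fin N → Ω, ∀ i, N * (1 - ε) ≤ ∑ l, Z i (s l) ∧ ∑ l, Z i (s l) ≤ N * (1 + ε) := by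
  obtain ⟨s, hs⟩ := sampling_aux ν Z hZm hM hZ0 hZM hZ1 hε0 hε1 N
  refine ⟨s, fun i => ?_⟩
  have hlt := lt_of_le_of_lt hs hN
  have hterm : exp (ε / 2 / M * (∑ l, Z i (s l) - N * (1 + ε))) +
      exp (-(ε / 2 / M) * (∑ l, Z i (s l) - N * (1 - ε))) < 1 := by
    refine lt_of_le_of_lt ?_ hlt
    exact Finset.single_le_sum (f := fun i => exp (ε / 2 / M * (∑ l, Z i (s l) - N * (1 + ε))) +
      exp (-(ε / 2 / M) * (∑ l, Z i (s l) - N * (1 - ε))))
      (fun j _ => (add_pos (exp_pos _) (exp_pos _)).le) (Finset.mem_univ i)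
  have hcpos : 0 < ε / 2 / M := by positivity
  constructor
  · by_contra hcon
    push Not at hcon
    have h1 : 1 ≤ exp (-(ε / 2 / M) * (∑ l, Z i (s l) - N * (1 - ε))) := by
      apply one_le_exp
      nlinarith
    have h2 := exp_pos (ε / 2 / M * (∑ l, Z i (s l) - N * (1 + ε)))
    linarith
  · by_contra hcon
    push Not at hcon
    have h1 : 1 ≤ exp (ε / 2 / M * (∑ l, Z i (s l) - N * (1 + ε))) := by
      apply one_le_exp
      nlinarith
    have h2 := exp_pos (-(ε / 2 / M) * (∑ l, Z i (s l) - N * (1 - ε)))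
    linarith

end Vale.Agent.H22
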