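import Vale.Agent.H22.Spanner2
import Vale.Agent.H22.Sampling

namespace Vale.Agent.H22

open MeasureTheory Real SimpleGraph
open scoped ENNReal

section pointwise

variable {V : Type*}

/-- absolute difference of `f` along an unordered pair -/
noncomputable def gap (f : V → ℝ) : Sym2 V → ℝ :=
  Sym2.lift ⟨fun a b => |f a - f b|, fun _ _ => abs_sub_comm _ _⟩

@[simp] theorem gap_mk (f : V → ℝ) (a b : V) : gap f s(a, b) = |f a - f b| := rfl

theorem gap_nonneg (f : V → ℝ) (e : Sym2 V) : 0 ≤ gap f e := by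
  induction e using Sym2.ind with
  | _ a b => exact abs_nonneg _

theorem abs_sub_le_walk {G : SimpleGraph V} (f : V → ℝ) {x y : V} (p : G.Walk x y) :
    |f x - f y| ≤ (p.edges.map (gap f)).sum := by
  induction p with
  | nil => simp
  | @cons a b c h p ih =>
    rw [Walk.edges_cons, List.map_cons, List.sum_cons, gap_mk]
    calc |f a - f c| = |(f a - f b) + (f b - f c)| := by ring_nf
      _ ≤ |f a - f b| + |f b - f c| := abs_add_le _ _
      _ ≤ _ := by linarith

theorem pointwise_bound {G : SimpleGraph V} {ρ : Sym2 V → ℝ} {P T : ℝ} (hP : 1 ≤ P)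
    (hT : 0 ≤ T) (E : Finset (Sym2 V)) (hE : ∀ e, e ∈ G.edgeSet → e ∈ E)
    (hρ : ∀ e ∈ E, 0 < ρ e)
    (f : V → ℝ) {x y : V} (hxy : 0 ≤ ρ s(x, y)) (p : G.Walk x y)
    (hp : (p.edges.map ρ).sum ≤ T * ρ s(x, y)) :
    |f x - f y| ^ P ≤ T ^ P * ρ s(x, y) ^ P * ∑ e ∈ E, (gap f e / ρ e) ^ P := by
  have hP0 : 0 < P := by linarith
  set h := ∑ e ∈ E, (gap f e / ρ e) ^ P with hh
  have hh0 : 0 ≤ h := by
    apply Finset.sum_nonneg
    intro e he
    exact rpow_nonneg (div_nonneg (gap_nonneg f e) (hρ e he).le) _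
  have h1 : ∀ e ∈ E, gap f e ≤ ρ e * h ^ (1 / P) := by
    intro e he
    have h2 : (gap f e / ρ e) ^ P ≤ h :=
      Finset.single_le_sum (f := fun e => (gap f e / ρ e) ^ P)
        (fun e he => rpow_nonneg (div_nonneg (gap_nonneg f e) (hρ e he).le) _) he
    have h3 : gap f e / ρ e ≤ h ^ (1 / P) := by
      have h4 := rpow_le_rpow (rpow_nonneg (div_nonneg (gap_nonneg f e) (hρ e he).le) _) h2
        (by positivity : (0 : ℝ) ≤ 1 / P)
      rwa [← rpow_mul (div_nonneg (gap_nonneg f e) (hρ e he).le), mul_one_div_cancel hP0.ne',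
        rpow_one] at h4
    rw [div_le_iff₀ (hρ e he)] at h3
    linarith
  have h2 : (p.edges.map (gap f)).sum ≤ (p.edges.map ρ).sum * h ^ (1 / P) := by
    rw [← List.sum_map_mul_right]
    apply List.sum_le_sum
    intro e he
    exact h1 e (hE e (p.edges_subset_edgeSet he))
  have h3 : |f x - f y| ≤ (T * ρ s(x, y)) * h ^ (1 / P) := by
    refine (abs_sub_le_walk f p).trans (h2.trans ?_)
    exact mul_le_mul_of_nonneg_right hp (rpow_nonneg hh0 _)
  have h4 := rpow_le_rpow (abs_nonneg _) h3 hP0.le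
  rwa [mul_rpow (mul_nonneg hT hxy) (rpow_nonneg hh0 _), mul_rpow hT hxy, ← rpow_mul hh0,
    one_div_mul_cancel hP0.ne', rpow_one] at h4

end pointwise

section lp

variable {Ω : Type*} [MeasurableSpace Ω] {μ : Measure Ω} {p : ℝ≥0∞}

theorem integral_rpow_sub (hp0 : p ≠ 0) (hp : p ≠ ∞) (f g : Lp ℝ p μ) :
    Integrable (fun s => |f s - g s| ^ p.toReal) μ ∧
      ∫ s, |f s - g s| ^ p.toReal ∂μ = ‖f - g‖ ^ p.toReal := by
  have hae : (fun s => ‖(f - g : Lp ℝ p μ) s‖ ^ p.toReal) =ᵐ[μ]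
      (fun s => |f s - g s| ^ p.toReal) := by
    filter_upwards [Lp.coeFn_sub f g] with s hs
    rw [hs, Pi.sub_apply, Real.norm_eq_abs]
  have hmem : MemLp (f - g : Lp ℝ p μ) p μ := Lp.memLp _
  have hPpos : 0 < p.toReal := ENNReal.toReal_pos hp0 hp
  constructor
  · exact (hmem.integrable_norm_rpow hp0 hp).congr hae
  · rw [← integral_congr_ae hae, Lp.norm_def, hmem.eLpNorm_eq_integral_rpow_norm hp0 hp,
      ENNReal.toReal_ofReal, ← rpow_mul, inv_mul_cancel₀ hPpos.ne', rpow_one]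
    · apply integral_nonneg
      intro s
      positivity
    · apply rpow_nonneg
      apply integral_nonneg
      intro s
      positivity

end lp

theorem assemble {Ω : Type*} [MeasurableSpace Ω] (μ : Measure Ω) {p : ℝ≥0∞} [Fact (1 ≤ p)]
    (hp : p ≠ ∞) {V : Type*} [Fintype V] [DecidableEq V] (x : V → Lp ℝ p μ)
    (hx : Function.Injective x) (hV : 2 ≤ Fintype.card V) {k δ : ℕ} (hk : 1 ≤ k)
    (hδ : Fintype.card V < δ ^ k) {ε : ℝ} (hε0 : 0 < ε) (hε1 : ε ≤ 1) (N : ℕ)
    (hN : 2 * (Fintype.card V : ℝ) ^ 2 *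
      exp (-(ε ^ 2 / (4 * ((2 * k - 1 : ℕ) ^ p.toReal * (δ * Fintype.card V))))) ^ N < 1) :
    ∃ y : V → PiLp p (fun _ : Fin N => ℝ), ∀ i j,
      (1 - ε) * ‖x i - x j‖ ^ p.toReal ≤ ‖y i - y j‖ ^ p.toReal ∧
      ‖y i - y j‖ ^ p.toReal ≤ (1 + ε) * ‖x i - x j‖ ^ p.toReal := by
  classical
  have hp1 : 1 ≤ p := Fact.out
  have hp0 : p ≠ 0 := (lt_of_lt_of_le one_pos hp1).ne'
  set P := p.toReal with hPdef
  have hP1 : 1 ≤ P := by
    rw [hPdef, ← ENNReal.toReal_one]
    exact (ENNReal.toReal_le_toReal ENNReal.one_ne_top hp).2 hp1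
  have hP0 : 0 < P := by linarith
  set T : ℝ := ((2 * k - 1 : ℕ) : ℝ) with hT
  have hT1 : 1 ≤ T := by
    rw [hT]; exact_mod_cast (by omega : 1 ≤ 2 * k - 1)
  let ρ : Sym2 V → ℝ := Sym2.lift ⟨fun i j => ‖x i - x j‖, fun i j => norm_sub_rev _ _⟩
  have hρmk : ∀ i j, ρ s(i, j) = ‖x i - x j‖ := fun i j => rfl
  have hρ0 : ∀ e, 0 ≤ ρ e := by
    intro e
    induction e using Sym2.ind with
    | _ a b => exact norm_nonneg (x a - x b)
  have hρpos : ∀ i j, i ≠ j → 0 < ρ s(i, j) := by
    intro i j hij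
    rw [hρmk]
    exact norm_pos_iff.2 (sub_ne_zero.2 (fun h => hij (hx h)))
  obtain ⟨G, E, hEG, hEcard, hsp⟩ := exists_spanner ρ hρ0 hk hδ
  have hρE : ∀ e ∈ E, 0 < ρ e := by
    intro e he
    induction e using Sym2.ind with
    | _ a b => exact hρpos a b ((mem_edgeSet G).1 ((hEG _).1 he)).ne
  have hEne : E.Nonempty := by
    obtain ⟨a, b, hab⟩ := Fintype.exists_pair_of_one_lt_card (by omega : 1 < Fintype.card V)
    obtain ⟨w, _⟩ := hsp a b hab
    cases w with
    | nil => exact absurd rfl hab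
    | cons h w' => exact ⟨_, (hEG _).2 ((mem_edgeSet G).2 h)⟩
  set m : ℝ := (E.card : ℝ) with hm
  have hm1 : 1 ≤ m := by
    rw [hm]; exact_mod_cast hEne.card_pos
  have hmδ : m ≤ δ * Fintype.card V := by rw [hm]; exact_mod_cast hEcard
  set h : Ω → ℝ := fun s => ∑ e ∈ E, (gap (fun i => x i s) e / ρ e) ^ P with hh
  have hh0 : ∀ s, 0 ≤ h s := by
    intro s
    apply Finset.sum_nonneg
    intro e he
    exact rpow_nonneg (div_nonneg (gap_nonneg _ e) (hρE e he).le) _
  have hxm : ∀ i, Measurable (fun s => x i s) := fun i => (Lp.stronglyMeasurable (x i)).measurable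
  have hgm : ∀ e : Sym2 V, Measurable (fun s => gap (fun i => x i s) e) := by
    intro e
    induction e using Sym2.ind with
    | _ a b =>
      simp only [gap_mk]
      exact ((hxm a).sub (hxm b)).abs
  have hhm : Measurable h := by
    apply Finset.measurable_sum
    intro e _
    exact ((hgm e).div_const _).pow_const _
  have hterm : ∀ e ∈ E, Integrable (fun s => (gap (fun i => x i s) e / ρ e) ^ P) μ ∧
      ∫ s, (gap (fun i => x i s) e / ρ e) ^ P ∂μ = 1 := by
    intro e he
    have hpos := hρE e he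
    induction e using Sym2.ind with
    | _ a b =>
      have h1 := integral_rpow_sub hp0 hp (x a) (x b)
      have h2 : (fun s => (gap (fun i => x i s) s(a, b) / ρ s(a, b)) ^ P) =
          (fun s => |x a s - x b s| ^ P / ρ s(a, b) ^ P) := by
        funext s
        rw [gap_mk, div_rpow (abs_nonneg _) hpos.le]
      rw [h2]
      refine ⟨h1.1.div_const _, ?_⟩
      rw [integral_div, h1.2, hρmk]
      rw [hρmk] at hpos
      exact div_self (rpow_pos_of_pos hpos _).ne'
  have hhint : Integrable h μ := integrable_finsetSum _ (fun e he => (hterm e he).1)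
  have hhI : ∫ s, h s ∂μ = m := by
    rw [hh, integral_finsetSum _ (fun e he => (hterm e he).1),
      Finset.sum_congr rfl (fun e he => (hterm e he).2)]
    simp [hm]
  -- pointwise domination
  have hdom : ∀ i j, i ≠ j → ∀ s, |x i s - x j s| ^ P ≤ T ^ P * ρ s(i, j) ^ P * h s := by
    intro i j hij s
    obtain ⟨w, hw⟩ := hsp i j hij
    exact pointwise_bound hP1 (by linarith) E (fun e he => (hEG e).2 he) hρE
      (fun i => x i s) (hρ0 _) w hw
  -- the sampling measure
  let ν : Measure Ω := μ.withDensity (fun s => ENNReal.ofReal (h s / m))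
  have hmeas : Measurable (fun s => ENNReal.ofReal (h s / m)) :=
    (hhm.div_const _).ennreal_ofReal
  have hν : IsProbabilityMeasure ν := by
    constructor
    rw [withDensity_apply _ MeasurableSet.univ, Measure.restrict_univ,
      ← ofReal_integral_eq_lintegral_ofReal (hhint.div_const _)
        (Filter.Eventually.of_forall (fun s => div_nonneg (hh0 s) (by linarith)))]
    rw [integral_div, hhI, div_self (by linarith : m ≠ 0), ENNReal.ofReal_one]
  let I := {q : V × V // q.1 ≠ q.2}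
  let Z : I → Ω → ℝ := fun q s => |x q.1.1 s - x q.1.2 s| ^ P * m / (ρ s(q.1.1, q.1.2) ^ P * h s)
  have hZm : ∀ q, Measurable (Z q) := by
    intro q
    exact ((((hxm _).sub (hxm _)).abs.pow_const _).mul_const _).div (hhm.const_mul _)
  have hZ0 : ∀ q s, 0 ≤ Z q s := by
    intro q s
    apply div_nonneg
    · exact mul_nonneg (rpow_nonneg (abs_nonneg _) _) (by linarith)
    · exact mul_nonneg (rpow_nonneg (hρ0 _) _) (hh0 s)
  have hMpos : 0 < T ^ P * (δ * Fintype.card V) := by
    have : 0 < T ^ P := rpow_pos_of_pos (by linarith) _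
    apply mul_pos this
    linarith
  have hZM : ∀ q s, Z q s ≤ T ^ P * (δ * Fintype.card V) := by
    intro q s
    have hq := q.2
    by_cases hs : h s = 0
    · simp only [Z, hs, mul_zero, div_zero]
      exact hMpos.le
    · have hspos : 0 < h s := lt_of_le_of_ne (hh0 s) (Ne.symm hs)
      have hρq : 0 < ρ s(q.1.1, q.1.2) ^ P := rpow_pos_of_pos (hρpos _ _ hq) _
      simp only [Z]
      rw [div_le_iff₀ (mul_pos hρq hspos)]
      have h1 := hdom _ _ hq s
      have hTP : 0 < T ^ P := rpow_pos_of_pos (by linarith) _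
      calc |x q.1.1 s - x q.1.2 s| ^ P * m
          ≤ (T ^ P * ρ s(q.1.1, q.1.2) ^ P * h s) * m := mul_le_mul_of_nonneg_right h1 (by linarith)
        _ ≤ (T ^ P * ρ s(q.1.1, q.1.2) ^ P * h s) * (δ * Fintype.card V) := by
            apply mul_le_mul_of_nonneg_left hmδ
            positivity
        _ = T ^ P * (δ * Fintype.card V) * (ρ s(q.1.1, q.1.2) ^ P * h s) := by ring
  have hZ1 : ∀ q, ∫ s, Z q s ∂ν = 1 := by
    intro q
    have hq := q.2
    have hρq : 0 < ρ s(q.1.1, q.1.2) ^ P := rpow_pos_of_pos (hρpos _ _ hq) _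
    rw [integral_withDensity_eq_integral_toReal_smul hmeas
      (Filter.Eventually.of_forall (fun s => ENNReal.ofReal_lt_top))]
    have h1 := integral_rpow_sub hp0 hp (x q.1.1) (x q.1.2)
    have h2 : (fun s => (ENNReal.ofReal (h s / m)).toReal • Z q s) =
        (fun s => |x q.1.1 s - x q.1.2 s| ^ P / ρ s(q.1.1, q.1.2) ^ P) := by
      funext s
      rw [ENNReal.toReal_ofReal (div_nonneg (hh0 s) (by linarith)), smul_eq_mul]
      by_cases hs : h s = 0
      · have h3 := hdom _ _ hq s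
        rw [hs, mul_zero] at h3
        have h4 : |x q.1.1 s - x q.1.2 s| ^ P = 0 :=
          le_antisymm h3 (rpow_nonneg (abs_nonneg _) _)
        rw [hs, h4]; simp
      · simp only [Z]
        have hm0 : m ≠ 0 := by linarith
        field_simp
    rw [h2, integral_div, h1.2, ← hρmk]
    exact div_self hρq.ne'
  have hcard : (Fintype.card I : ℝ) ≤ (Fintype.card V : ℝ) ^ 2 := by
    have : Fintype.card I ≤ Fintype.card (V × V) := Fintype.card_subtype_le _
    rw [Fintype.card_prod] at this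
    rw [pow_two]
    exact_mod_cast this
  have hN' : 2 * Fintype.card I * exp (-(ε ^ 2 / (4 * (T ^ P * (δ * Fintype.card V))))) ^ N < 1 := by
    refine lt_of_le_of_lt ?_ hN
    apply mul_le_mul_of_nonneg_right _ (pow_nonneg (exp_pos _).le _)
    linarith
  obtain ⟨s, hs⟩ := sampling ν Z hZm hMpos hZ0 hZM hZ1 hε0 hε1 N hN'
  have hNpos : 0 < (N : ℝ) := by
    rcases Nat.eq_zero_or_pos N with h0 | h0
    · exfalso
      rw [h0, pow_zero] at hN
      have : (2 : ℝ) ≤ Fintype.card V := by exact_mod_cast hV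
      nlinarith
    · exact_mod_cast h0
  refine ⟨fun i => WithLp.toLp p (fun l => x i (s l) * (m / (N * h (s l))) ^ (1 / P)), ?_⟩
  intro i j
  rcases eq_or_ne i j with hij | hij
  · subst hij
    simp [Real.zero_rpow hP0.ne']
  have hρij := hρpos i j hij
  have hkey : ‖(WithLp.toLp p (fun l => x i (s l) * (m / (N * h (s l))) ^ (1 / P)) :
      PiLp p (fun _ : Fin N => ℝ)) -
      WithLp.toLp p (fun l => x j (s l) * (m / (N * h (s l))) ^ (1 / P))‖ ^ P =
      ρ s(i, j) ^ P / N * ∑ l, Z ⟨(i, j), hij⟩ (s l) := by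
    rw [PiLp.norm_eq_sum hP0, ← rpow_mul (Finset.sum_nonneg
      (fun l _ => rpow_nonneg (norm_nonneg _) _)), one_div_mul_cancel hP0.ne', rpow_one,
      Finset.mul_sum]
    apply Finset.sum_congr rfl
    intro l _
    have hh1 : 0 ≤ m / (N * h (s l)) := div_nonneg (by linarith) (mul_nonneg hNpos.le (hh0 _))
    have e1 : (WithLp.toLp p (fun l => x i (s l) * (m / (N * h (s l))) ^ (1 / P)) -
      WithLp.toLp p (fun l => x j (s l) * (m / (N * h (s l))) ^ (1 / P)) :
      PiLp p (fun _ : Fin N => ℝ)) l = (x i (s l) - x j (s l)) * (m / (N * h (s l))) ^ (1 / P) := by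
      simp only [PiLp.sub_apply]
      ring
    rw [e1, norm_mul, Real.norm_eq_abs, Real.norm_eq_abs, abs_of_nonneg (rpow_nonneg hh1 _),
      mul_rpow (abs_nonneg _) (rpow_nonneg hh1 _), ← rpow_mul hh1, one_div_mul_cancel hP0.ne',
      rpow_one]
    have hρP : 0 < ρ s(i, j) ^ P := rpow_pos_of_pos hρij _
    simp only [Z]
    by_cases hs0 : h (s l) = 0
    · simp [hs0]
    · field_simp
      rw [← hPdef]
  rw [hkey, ← hρmk i j]
  obtain ⟨hl, hu⟩ := hs ⟨(i, j), hij⟩
  have hρP : 0 < ρ s(i, j) ^ P := rpow_pos_of_pos hρij _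
  have hc : 0 < ρ s(i, j) ^ P / N := div_pos hρP hNpos
  constructor
  · calc (1 - ε) * ρ s(i, j) ^ P = ρ s(i, j) ^ P / N * (N * (1 - ε)) := by field_simp
      _ ≤ _ := mul_le_mul_of_nonneg_left hl hc.le
  · calc _ ≤ ρ s(i, j) ^ P / N * (N * (1 + ε)) := mul_le_mul_of_nonneg_left hu hc.le
      _ = (1 + ε) * ρ s(i, j) ^ P := by field_simp

end Vale.Agent.H22
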