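import Vale.Agent.H22.P249Main

namespace Vale.Agent.H22.P249

open Real MeasureTheory Filter Topology
open scoped ENNReal

universe u

theorem little_o {p : ℝ≥0∞} [Fact (1 ≤ p)] {κ : ℝ} (hκ : 0 < κ)
    (h : ∀ D : ℝ, 1 < D → ∃ C : ℝ, 0 < C ∧ ∀ n : ℕ, 2 ≤ n → Reduces.{u} p n (dimLp.{u} p n D) D ∧
      (dimLp.{u} p n D : ℝ) ≤ C * (n : ℝ) ^ (κ / √D)) :
    ∃ D₀ : ℝ, 1 < D₀ ∧ ∀ D : ℝ, D₀ ≤ D →
      Tendsto (fun n : ℕ => (dimLp.{u} p n D : ℝ) / n) atTop (𝓝 0) := by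
  refine ⟨(2 * κ) ^ 2 + 2, by nlinarith [sq_nonneg (2 * κ)], ?_⟩
  intro D hD
  have hD1 : 1 < D := by nlinarith [sq_nonneg (2 * κ)]
  obtain ⟨C, hC, hn⟩ := h D hD1
  have hs : 2 * κ ≤ √D := by
    apply Real.le_sqrt_of_sq_le
    linarith
  have hsD : 0 < √D := Real.sqrt_pos.2 (by linarith)
  have he : κ / √D ≤ 1 / 2 := by
    rw [div_le_iff₀ hsD]; linarith
  have hlim : Tendsto (fun n : ℕ => C * (n : ℝ) ^ (-(1 / 2) : ℝ)) atTop (𝓝 0) := by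
    have h1 := (tendsto_rpow_neg_atTop (by norm_num : (0 : ℝ) < 1 / 2)).comp
      tendsto_natCast_atTop_atTop
    have h2 := h1.const_mul C
    rw [mul_zero] at h2
    exact h2
  apply squeeze_zero' (Eventually.of_forall (fun n => by positivity)) _ hlim
  filter_upwards [eventually_ge_atTop 2] with n hn2
  have h2n : (2 : ℝ) ≤ n := by exact_mod_cast hn2
  have hnr : (0 : ℝ) < n := by linarith
  rw [div_le_iff₀ hnr]
  refine (hn n hn2).2.trans ?_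
  rw [mul_assoc]
  apply mul_le_mul_of_nonneg_left _ hC.le
  rw [← rpow_add_one hnr.ne']
  apply rpow_le_rpow_of_exponent_le (by linarith)
  norm_num
  linarith

theorem small_power {p : ℝ≥0∞} [Fact (1 ≤ p)] {κ : ℝ}
    (h : ∀ D : ℝ, 1 < D → ∃ C : ℝ, 0 < C ∧ ∀ n : ℕ, 2 ≤ n → Reduces.{u} p n (dimLp.{u} p n D) D ∧
      (dimLp.{u} p n D : ℝ) ≤ C * (n : ℝ) ^ (κ / √D)) (η : ℝ) (hη : 0 < η) :
    ∃ D C : ℝ, 1 < D ∧ 0 < C ∧ ∀ n : ℕ, 2 ≤ n → (dimLp.{u} p n D : ℝ) ≤ C * (n : ℝ) ^ η := by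
  set D := (κ / η) ^ 2 + 2 with hDdef
  have hD1 : 1 < D := by nlinarith [sq_nonneg (κ / η)]
  obtain ⟨C, hC, hn⟩ := h D hD1
  refine ⟨D, C, hD1, hC, fun n hn2 => (hn n hn2).2.trans ?_⟩
  have h2n : (2 : ℝ) ≤ n := by exact_mod_cast hn2
  apply mul_le_mul_of_nonneg_left _ hC.le
  apply rpow_le_rpow_of_exponent_le (by linarith)
  have hs : κ / η ≤ √D := by
    apply Real.le_sqrt_of_sq_le
    linarith
  have hsD : 0 < √D := Real.sqrt_pos.2 (by linarith)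
  rw [div_le_iff₀ hsD]
  rw [div_le_iff₀ hη] at hs
  linarith

end Vale.Agent.H22.P249
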