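import Mathlib

/-! Definitions for the dimension of finite subsets of `L_p` (problem P249). -/

namespace Vale.Agent.H22.P249

open MeasureTheory
open scoped ENNReal

/-- `f` has distortion at most `D` on the finite set `X`. -/
def DistortionAtMost {E F : Type*} [NormedAddCommGroup E] [NormedAddCommGroup F]
    (X : Finset E) (f : E → F) (D : ℝ) : Prop :=
  ∃ s : ℝ, 0 < s ∧ ∀ x ∈ X, ∀ x' ∈ X,
    s * ‖x - x'‖ ≤ ‖f x - f x'‖ ∧ ‖f x - f x'‖ ≤ D * s * ‖x - x'‖

/-- Every `n`-point subset of every real space `L_p(μ)` admits a map into `ℓ_p^d` with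
distortion at most `D`. -/
def Reduces.{u} (p : ℝ≥0∞) [Fact (1 ≤ p)] (n d : ℕ) (D : ℝ) : Prop :=
  ∀ (Ω : Type u) (_ : MeasurableSpace Ω) (μ : Measure Ω) (X : Finset (Lp ℝ p μ)),
    X.card = n → ∃ f : Lp ℝ p μ → PiLp p (fun _ : Fin d => ℝ), DistortionAtMost X f D

/-- `d_p(n, D)`: the least `d` such that every `n`-point subset of every real `L_p(μ)` admits a
map into `ℓ_p^d` with distortion at most `D`. -/
noncomputable def dimLp.{u} (p : ℝ≥0∞) [Fact (1 ≤ p)] (n : ℕ) (D : ℝ) : ℕ :=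
  sInf {d : ℕ | Reduces.{u} p n d D}

end Vale.Agent.H22.P249
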