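import Vale.Agent.H22.PolyBound

set_option linter.unusedSectionVars false

namespace Vale.Agent.H22

open Finset Real

theorem PB.ceil_log {F : ℕ → ℝ} {E b : ℝ} (hF : PB F E) (hE : 0 ≤ E) (hb : 0 < b)
    (hpos : ∀ n : ℕ, 2 ≤ n → 0 < F n) :
    PB (fun n => (⌈Real.log (F n) / Real.log 2⌉₊ : ℝ)) b := by
  have hl2 : 0 < Real.log (2 : ℝ) := log_pos (by norm_num)
  obtain ⟨h0, C, hC, h1⟩ := hF
  have h2 : PB (fun n => (Real.log (C + 1) + E * Real.log n) / Real.log 2 + 1) b := by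
    have hc : 0 ≤ Real.log (C + 1) / Real.log 2 := div_nonneg (log_nonneg (by linarith)) hl2.le
    have a1 := (PB.const hc).mono (e' := b) hb.le
    have a2 := (PB.const (by positivity : 0 ≤ E / Real.log 2)).mul (PB.log hb)
    rw [zero_add] at a2
    have a3 := (a1.add a2).add ((PB.const zero_le_one).mono (e' := b) hb.le)
    apply a3.of_le
    · intro n hn
      have := log_natCast_nonneg n
      have : 0 ≤ Real.log (C + 1) := log_nonneg (by linarith)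
      positivity
    · intro n hn
      apply le_of_eq; ring
  apply h2.of_le
  · intro n _; positivity
  · intro n hn
    have hn0 : (0 : ℝ) < n := by
      have : (2 : ℝ) ≤ n := by exact_mod_cast hn
      linarith
    have h3 : Real.log (F n) ≤ Real.log (C + 1) + E * Real.log n := by
      rw [← log_rpow hn0, ← log_mul (by linarith) (by positivity)]
      apply log_le_log (hpos n hn)
      refine (h1 n hn).trans ?_
      apply mul_le_mul_of_nonneg_right (by linarith) (by positivity)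
    have h4 : 0 ≤ (Real.log (C + 1) + E * Real.log n) / Real.log 2 := by
      have := log_natCast_nonneg n
      have : 0 ≤ Real.log (C + 1) := log_nonneg (by linarith)
      positivity
    have h5 : (⌈Real.log (F n) / Real.log 2⌉₊ : ℝ) ≤
        ⌈(Real.log (C + 1) + E * Real.log n) / Real.log 2⌉₊ := by
      exact_mod_cast Nat.ceil_mono (div_le_div_of_nonneg_right h3 hl2.le)
    exact h5.trans (Nat.ceil_lt_add_one h4).le

theorem le_two_pow_ceil {x : ℝ} (hx : 0 < x) : x ≤ 2 ^ ⌈log x / log 2⌉₊ := by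
  have hl2 : 0 < log (2 : ℝ) := log_pos (by norm_num)
  have h1 : log x / log 2 ≤ ⌈log x / log 2⌉₊ := Nat.le_ceil _
  rw [div_le_iff₀ hl2] at h1
  have h2 : exp (log x) ≤ exp (⌈log x / log 2⌉₊ * log 2) := exp_le_exp.2 h1
  rw [exp_log hx, exp_nat_mul, exp_log (by norm_num)] at h2
  exact h2

theorem params_exist {P θ b C0 : ℝ} (hP : 1 < P) (hθ0 : 0 < θ) (hb : 0 < b) (hb1 : b ≤ 1)
    (hC0 : 0 ≤ C0) :
    ∃ C : ℝ, 0 ≤ C ∧ ∃ n0 : ℕ, 2 ≤ n0 ∧ ∀ n : ℕ, n0 ≤ n → ∃ M g q : ℕ, 0 < M ∧ q.Prime ∧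
      C0 * (n : ℝ) ^ (3 : ℝ) ≤ M ∧
      (M : ℝ) ^ (1 / P) * (Gh n (Tn b n) ((n : ℝ) ^ (-b)) (Jb b) * ((n : ℝ) ^ (-b)) ^ (Jb b)) ≤
        1 / 8 ∧
      1 ≤ (M : ℝ) * (Gh n (Tn b n) ((n : ℝ) ^ (-b)) (Jb b) *
        ((n : ℝ) ^ (-b)) ^ (Jb b - 1)) ^ P ∧
      (M : ℝ) * Gh n (Tn b n) ((n : ℝ) ^ (-b)) (Jb b) ^ P *
        K1 (((Jb b : ℝ) * 4) ^ (-P)) (4 * A0 n (Tn b n)) P n ≤ 2 ^ g ∧
      g * (2 * (P + 1) * (2 * K1 (((Jb b : ℝ) * 4) ^ (-P)) (4 * A0 n (Tn b n)) P n *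
        (6 * A0 n (Tn b n) * (Gh n (Tn b n) ((n : ℝ) ^ (-b)) (Jb b) / (n : ℝ) ^ (-b)) ^ (P - 1))) ^ P /
        ((Jb b : ℝ) * 4) ^ (-P)) ^ (1 / θ) ≤ q ∧
      (Jb b : ℝ) * q ^ 2 ≤ C * (n : ℝ) ^ (2 * ((1 + P * (3 * P - 2) / θ) * b)) := by
  have hP0 : 0 < P := by linarith
  set G : ℕ → ℝ := fun n => Gh n (Tn b n) ((n : ℝ) ^ (-b)) (Jb b) with hG
  set K : ℕ → ℝ := fun n => K1 (((Jb b : ℝ) * 4) ^ (-P)) (4 * A0 n (Tn b n)) P n with hK
  set X : ℕ → ℝ := fun n => G n * ((n : ℝ) ^ (-b)) ^ (Jb b - 1) with hX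
  set Mn : ℕ → ℕ := fun n => ⌈(X n) ^ (-P)⌉₊ with hMn
  have hJ0 : (0 : ℝ) < Jb b := by rw [Jb]; positivity
  have hGpb : PB G (2 * b) := PB_Gh hb hb1
  have hKpb : PB K b := PB_K1 hb hb1 hP
  have hG1 : ∀ n : ℕ, 2 ≤ n → 1 ≤ G n := fun n hn => one_le_Gh hb hn
  have hK1 : ∀ n : ℕ, 2 ≤ n → 1 ≤ K n := by
    intro n hn
    have h2n : (2 : ℝ) ≤ n := by exact_mod_cast hn
    simp only [hK]
    rw [K1]
    have h3 := one_le_A0 (b := b) n
    have h4 : 0 ≤ log (4 * (n : ℝ) ^ 2) := log_nonneg (by nlinarith)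
    have : 0 ≤ 32 * (4 * A0 n (Tn b n)) ^ (2 * P) / (((Jb b : ℝ) * 4) ^ (-P)) ^ 2 *
      log (4 * (n : ℝ) ^ 2) := by positivity
    linarith
  have hXpos : ∀ n : ℕ, 2 ≤ n → 0 < X n := by
    intro n hn
    have h2n : (2 : ℝ) ≤ n := by exact_mod_cast hn
    have := hG1 n hn
    simp only [hX]
    positivity
  -- bound for M
  have hMpb : PB (fun n => (Mn n : ℝ)) (b * (Jb b - 1 : ℕ) * P) := by
    have h1 : PB (fun n => ((((n : ℝ) ^ (-b))⁻¹) ^ ((Jb b - 1 : ℕ) : ℝ)) ^ P + 1)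
        (b * (Jb b - 1 : ℕ) * P) := by
      have h := ((PB.rpow_neg_inv (b := b)).rpow (Nat.cast_nonneg (Jb b - 1))).rpow hP0.le
      exact h.add ((PB.const zero_le_one).mono (by positivity))
    apply h1.of_le
    · intro n _; positivity
    · intro n hn
      have h2n : (2 : ℝ) ≤ n := by exact_mod_cast hn
      have hβ : 0 < (n : ℝ) ^ (-b) := by positivity
      have h2 := (Nat.ceil_lt_add_one (rpow_nonneg (hXpos n hn).le (-P))).le
      refine h2.trans ?_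
      have h3 : (X n) ^ (-P) ≤ (((n : ℝ) ^ (-b)) ^ (Jb b - 1)) ^ (-P) := by
        apply rpow_le_rpow_of_nonpos (by positivity) _ (by linarith)
        simp only [hX]
        exact le_mul_of_one_le_left (by positivity) (hG1 n hn)
      have h4 : (((n : ℝ) ^ (-b)) ^ (Jb b - 1)) ^ (-P) =
          ((((n : ℝ) ^ (-b))⁻¹) ^ ((Jb b - 1 : ℕ) : ℝ)) ^ P := by
        rw [rpow_natCast, inv_pow, rpow_neg (by positivity), inv_rpow (by positivity)]
      linarith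
  -- g
  have hprod : PB (fun n => (Mn n : ℝ) * G n ^ P * K n) (b * (Jb b - 1 : ℕ) * P + 2 * b * P + b) :=
    (hMpb.mul (hGpb.rpow hP0.le)).mul hKpb
  have hprodpos : ∀ n : ℕ, 2 ≤ n → 0 < (Mn n : ℝ) * G n ^ P * K n := by
    intro n hn
    have h1 := hG1 n hn
    have h2 := hK1 n hn
    have h3 : (0 : ℝ) < Mn n := by
      have h4 : 0 < (X n) ^ (-P) := rpow_pos_of_pos (hXpos n hn) _
      have : 0 < Mn n := Nat.ceil_pos.2 h4
      exact_mod_cast this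
    positivity
  have hgpb := hprod.ceil_log (b := b) (by positivity) hb hprodpos
  set gn : ℕ → ℕ := fun n => ⌈log ((Mn n : ℝ) * G n ^ P * K n) / log 2⌉₊ with hgn
  -- the bound for q
  set R : ℕ → ℝ := fun n => gn n * (2 * (P + 1) * (2 * K n *
        (6 * A0 n (Tn b n) * (G n / (n : ℝ) ^ (-b)) ^ (P - 1))) ^ P /
        ((Jb b : ℝ) * 4) ^ (-P)) ^ (1 / θ) with hR
  have hRpb : PB R ((1 + P * (3 * P - 2) / θ) * b) := by
    have h1 : PB (fun n => G n / (n : ℝ) ^ (-b)) (2 * b + b) := by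
      have h := hGpb.mul (PB.rpow_neg_inv (b := b))
      exact h
    have h2 := h1.rpow (by linarith : 0 ≤ P - 1)
    have h3 := ((PB.const (by norm_num : (0 : ℝ) ≤ 6)).mul (PB_A0 hb hb1)).mul h2
    have h4 := ((PB.const (by norm_num : (0 : ℝ) ≤ 2)).mul hKpb).mul h3
    have h5 := h4.rpow hP0.le
    have h6 := (PB.const (by positivity : (0 : ℝ) ≤ 2 * (P + 1))).mul h5
    have h7 : PB (fun n => 2 * (P + 1) * (2 * K n *
        (6 * A0 n (Tn b n) * (G n / (n : ℝ) ^ (-b)) ^ (P - 1))) ^ P /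
        ((Jb b : ℝ) * 4) ^ (-P)) (b * (P * (3 * P - 2))) := by
      have h := h6.mul (PB.const (by positivity : (0 : ℝ) ≤ (((Jb b : ℝ) * 4) ^ (-P))⁻¹))
      have h' := h.mono (e' := b * (P * (3 * P - 2))) (le_of_eq (by ring))
      exact h'
    have h8 := h7.rpow (by positivity : 0 ≤ 1 / θ)
    have h9 := hgpb.mul h8
    exact h9.mono (le_of_eq (by field_simp))
  have hRnn : ∀ n : ℕ, 2 ≤ n → 0 ≤ R n := hRpb.1
  obtain ⟨_, CR, hCR, hRb⟩ := hRpb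
  have he0 : 0 ≤ (1 + P * (3 * P - 2) / θ) * b := by
    have : 0 ≤ P * (3 * P - 2) / θ := by
      apply div_nonneg _ hθ0.le
      nlinarith
    positivity
  -- threshold
  obtain ⟨_, CG, hCG, hGb⟩ := hGpb
  obtain ⟨n1, hn1⟩ := exists_nat_ge ((CG + 1) * (C0 + 1))
  obtain ⟨n2, hn2⟩ := exists_nat_ge ((16 : ℝ) ^ (1 / b))
  refine ⟨(Jb b : ℝ) * (2 * (CR + 2)) ^ 2, by positivity, n1 + n2 + 2, by omega, ?_⟩
  intro n hn
  have hn2' : 2 ≤ n := by omega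
  have h2n : (2 : ℝ) ≤ n := by exact_mod_cast hn2'
  have hn0 : (0 : ℝ) < n := by linarith
  have hβ0 : 0 < (n : ℝ) ^ (-b) := by positivity
  have hβ16 : (n : ℝ) ^ (-b) ≤ 1 / 16 := by
    have h1 : (16 : ℝ) ^ (1 / b) ≤ n := by
      refine hn2.trans ?_
      exact_mod_cast (by omega : n2 ≤ n)
    have h2 := rpow_le_rpow (by positivity) h1 hb.le
    rw [← rpow_mul (by norm_num), one_div_mul_cancel hb.ne', rpow_one] at h2
    rw [rpow_neg hn0.le, one_div]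
    exact inv_anti₀ (by norm_num) h2
  have hn1' : (CG + 1) * (C0 + 1) ≤ n := by
    refine hn1.trans ?_
    exact_mod_cast (by omega : n1 ≤ n)
  have hXn := hXpos n hn2'
  -- X is small
  have hJ1 : (4 : ℝ) / b + 2 ≤ ((Jb b - 1 : ℕ) : ℝ) := by
    have h1 : Jb b - 1 = ⌈4 / b⌉₊ + 2 := by rw [Jb]; omega
    rw [h1]; push_cast
    have := Nat.le_ceil (4 / b)
    linarith
  have hXle : X n ≤ (CG + 1) * ((n : ℝ) ^ (4 : ℝ))⁻¹ := by
    have h1 := hGb n hn2'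
    have h2 : ((n : ℝ) ^ (-b)) ^ (Jb b - 1) ≤ (n : ℝ) ^ (-4 - 2 * b) := by
      rw [← rpow_natCast, ← rpow_mul hn0.le]
      apply rpow_le_rpow_of_exponent_le (by linarith)
      have h3 : b * (4 / b + 2) ≤ b * ((Jb b - 1 : ℕ) : ℝ) := mul_le_mul_of_nonneg_left hJ1 hb.le
      have e : b * (4 / b + 2) = 4 + 2 * b := by field_simp
      rw [e] at h3
      linarith
    calc X n ≤ (CG * (n : ℝ) ^ (2 * b)) * (n : ℝ) ^ (-4 - 2 * b) := by
          simp only [hX]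
          apply mul_le_mul h1 h2 (by positivity) (by positivity)
      _ = CG * ((n : ℝ) ^ (2 * b) * (n : ℝ) ^ (-4 - 2 * b)) := by ring
      _ = CG * (n : ℝ) ^ (-4 : ℝ) := by rw [← rpow_add hn0]; ring_nf
      _ = CG * ((n : ℝ) ^ (4 : ℝ))⁻¹ := by rw [rpow_neg hn0.le]
      _ ≤ _ := by
          apply mul_le_mul_of_nonneg_right (by linarith)
          positivity
  have hn4 : (n : ℝ) ^ (4 : ℝ) = (n : ℝ) ^ (3 : ℝ) * n := by
    rw [← rpow_add_one hn0.ne']; norm_num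
  have hXinv : C0 * (n : ℝ) ^ (3 : ℝ) ≤ (X n)⁻¹ ∧ 1 ≤ (X n)⁻¹ := by
    have h1 : ((CG + 1) * ((n : ℝ) ^ (4 : ℝ))⁻¹)⁻¹ ≤ (X n)⁻¹ := inv_anti₀ hXn hXle
    have h2 : ((CG + 1) * ((n : ℝ) ^ (4 : ℝ))⁻¹)⁻¹ = (n : ℝ) ^ (4 : ℝ) / (CG + 1) := by
      rw [mul_inv, inv_inv]; field_simp
    rw [h2] at h1
    have h3 : (C0 + 1) * (n : ℝ) ^ (3 : ℝ) ≤ (n : ℝ) ^ (4 : ℝ) / (CG + 1) := by
      rw [le_div_iff₀ (by linarith), hn4]
      have : 0 < (n : ℝ) ^ (3 : ℝ) := by positivity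
      nlinarith [mul_le_mul_of_nonneg_left hn1' this.le]
    have h4 : 1 ≤ (n : ℝ) ^ (3 : ℝ) := one_le_rpow (by linarith) (by norm_num)
    constructor
    · nlinarith
    · nlinarith
  have hXP : (X n)⁻¹ ≤ (X n) ^ (-P) := by
    rw [rpow_neg hXn.le, ← inv_rpow hXn.le]
    calc (X n)⁻¹ = ((X n)⁻¹) ^ (1 : ℝ) := (rpow_one _).symm
      _ ≤ _ := rpow_le_rpow_of_exponent_le hXinv.2 hP.le
  have hMlow : (X n) ^ (-P) ≤ Mn n := Nat.le_ceil _
  have hMup : (Mn n : ℝ) ≤ 2 * (X n) ^ (-P) := by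
    have := (Nat.ceil_lt_add_one (rpow_nonneg hXn.le (-P))).le
    have h1 : 1 ≤ (X n) ^ (-P) := hXinv.2.trans hXP
    have h2 : (Mn n : ℝ) ≤ (X n) ^ (-P) + 1 := this
    linarith
  have hJsplit : ((n : ℝ) ^ (-b)) ^ (Jb b) = ((n : ℝ) ^ (-b)) ^ (Jb b - 1) * (n : ℝ) ^ (-b) := by
    have h1 : Jb b = (Jb b - 1) + 1 := by
      have : 3 ≤ Jb b := by rw [Jb]; omega
      omega
    conv_lhs => rw [h1, pow_succ]
  -- the prime
  obtain ⟨q, hqp, hql, hqu⟩ := Nat.exists_prime_lt_and_le_two_mul (⌈R n⌉₊ + 1) (by omega)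
  refine ⟨Mn n, gn n, q, ?_, hqp, ?_, ?_, ?_, ?_, ?_, ?_⟩
  · have : (0 : ℝ) < Mn n := lt_of_lt_of_le (rpow_pos_of_pos hXn _) hMlow
    exact_mod_cast this
  · exact (hXinv.1.trans hXP).trans hMlow
  · have h1 : (Mn n : ℝ) ^ (1 / P) ≤ 2 * (X n)⁻¹ := by
      calc (Mn n : ℝ) ^ (1 / P) ≤ (2 * (X n) ^ (-P)) ^ (1 / P) :=
            rpow_le_rpow (by positivity) hMup (by positivity)
        _ = 2 ^ (1 / P) * (X n)⁻¹ := by
            rw [mul_rpow (by norm_num) (rpow_nonneg hXn.le _), ← rpow_mul hXn.le]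
            have : -P * (1 / P) = -1 := by field_simp
            rw [this, rpow_neg_one]
        _ ≤ 2 * (X n)⁻¹ := by
            apply mul_le_mul_of_nonneg_right _ (by positivity)
            calc (2 : ℝ) ^ (1 / P) ≤ 2 ^ (1 : ℝ) := by
                  apply rpow_le_rpow_of_exponent_le (by norm_num)
                  rw [div_le_one hP0]; exact hP.le
              _ = 2 := rpow_one 2
    have h2 : G n * ((n : ℝ) ^ (-b)) ^ (Jb b) = X n * (n : ℝ) ^ (-b) := by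
      simp only [hX]; rw [hJsplit]; ring
    rw [h2]
    calc (Mn n : ℝ) ^ (1 / P) * (X n * (n : ℝ) ^ (-b)) ≤
          2 * (X n)⁻¹ * (X n * (n : ℝ) ^ (-b)) :=
          mul_le_mul_of_nonneg_right h1 (by positivity)
      _ = 2 * (n : ℝ) ^ (-b) := by field_simp
      _ ≤ 1 / 8 := by linarith
  · have h1 : (X n) ^ (-P) * X n ^ P = 1 := by
      rw [← rpow_add hXn]; simp
    calc (1 : ℝ) = (X n) ^ (-P) * X n ^ P := h1.symm
      _ ≤ Mn n * X n ^ P := mul_le_mul_of_nonneg_right hMlow (by positivity)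
  · exact le_two_pow_ceil (hprodpos n hn2')
  · have h1 : R n ≤ ⌈R n⌉₊ := Nat.le_ceil _
    have h2 : ((⌈R n⌉₊ + 1 : ℕ) : ℝ) < q := by exact_mod_cast hql
    push_cast at h2
    have : R n ≤ q := by linarith
    exact this
  · have h1 : (⌈R n⌉₊ : ℝ) ≤ R n + 1 := (Nat.ceil_lt_add_one (hRnn n hn2')).le
    have h2 : (q : ℝ) ≤ 2 * (⌈R n⌉₊ + 1) := by exact_mod_cast hqu
    have h3 : 1 ≤ (n : ℝ) ^ ((1 + P * (3 * P - 2) / θ) * b) := one_le_rpow (by linarith) he0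
    have h4 : (q : ℝ) ≤ 2 * (CR + 2) * (n : ℝ) ^ ((1 + P * (3 * P - 2) / θ) * b) := by
      have := hRb n hn2'
      nlinarith
    have h5 : (n : ℝ) ^ (2 * ((1 + P * (3 * P - 2) / θ) * b)) =
        ((n : ℝ) ^ ((1 + P * (3 * P - 2) / θ) * b)) ^ 2 := by
      rw [mul_comm 2, rpow_mul hn0.le, rpow_two]
    rw [h5]
    calc (Jb b : ℝ) * (q : ℝ) ^ 2 ≤
          (Jb b : ℝ) * (2 * (CR + 2) * (n : ℝ) ^ ((1 + P * (3 * P - 2) / θ) * b)) ^ 2 := by
          apply mul_le_mul_of_nonneg_left _ hJ0.le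
          exact pow_le_pow_left₀ (Nat.cast_nonneg q) h4 2
      _ = _ := by ring

end Vale.Agent.H22
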