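import Vale.Agent.H22.P249Near
import Vale.Agent.H22.EmbedCore
import Vale.Agent.H22.Params

set_option linter.unusedSectionVars false

namespace Vale.Agent.H22.P249

open Finset Real MeasureTheory Vale.Agent.H22
open scoped ENNReal

universe u

section

variable {p : ℝ≥0∞} [Fact (1 ≤ p)]

theorem embed_points (hp : p ≠ ∞) {V : Type*} [Fintype V] (hV : 2 ≤ Fintype.card V) {M0 M : ℕ}
    (x : V → PiLp p (fun _ : Fin M0 => ℝ)) (hinj : Function.Injective x) (hM : M0 ≤ M)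
    (hMpos : 0 < M) {T : ℕ} (hT : 1 ≤ T) {β : ℝ} (hβ0 : 0 < β)
    (hβ1 : β ≤ 1) {J : ℕ} (hJ1 : 1 ≤ J)
    (hJ : (M : ℝ) ^ (1 / p.toReal) * (Gh (Fintype.card V) T β J * β ^ J) ≤ 1 / 8)
    (hS : 1 ≤ (M : ℝ) * (Gh (Fintype.card V) T β J * β ^ (J - 1)) ^ p.toReal)
    {θ : ℝ} (hθ0 : 0 < θ) (hθ1 : θ ≤ 1) (hθP : θ ≤ p.toReal - 1) {g : ℕ}
    (hg : (M : ℝ) * Gh (Fintype.card V) T β J ^ p.toReal *
      K1 (((J : ℝ) * 4) ^ (-p.toReal)) (4 * A0 (Fintype.card V) T) p.toReal (Fintype.card V) ≤ 2 ^ g)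
    {q : ℕ} (hqp : q.Prime)
    (hq : g * (2 * (p.toReal + 1) *
      (2 * K1 (((J : ℝ) * 4) ^ (-p.toReal)) (4 * A0 (Fintype.card V) T) p.toReal (Fintype.card V) *
      (6 * A0 (Fintype.card V) T * (Gh (Fintype.card V) T β J / β) ^ (p.toReal - 1))) ^ p.toReal /
        ((J : ℝ) * 4) ^ (-p.toReal)) ^ (1 / θ) ≤ q) :
    ∃ y : V → PiLp p (fun _ : Fin (J * q ^ 2) => ℝ), ∃ s : ℝ, 0 < s ∧ ∀ i j,
      s * ‖x i - x j‖ ≤ ‖y i - y j‖ ∧
      ‖y i - y j‖ ≤ 2 * J * (4 * A0 (Fintype.card V) T + 1) * s * ‖x i - x j‖ := by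
  classical
  have : Fact q.Prime := ⟨hqp⟩
  let _ : MetricSpace V := MetricSpace.induced x hinj inferInstance
  have hP1 : 1 < p.toReal := by linarith
  have hP0 : 0 < p.toReal := by linarith
  have hdist : ∀ i j, dist i j = ‖x i - x j‖ := by
    intro i j
    have : dist i j = dist (x i) (x j) := rfl
    rw [this, dist_eq_norm]
  let x' : V → (Fin M0 ⊕ Fin (M - M0)) → ℝ := fun i => Sum.elim (fun s => x i s) (fun _ => 0)
  have hcard : Fintype.card (Fin M0 ⊕ Fin (M - M0)) = M := by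
    rw [Fintype.card_sum, Fintype.card_fin, Fintype.card_fin]; omega
  have : Nonempty (Fin M0 ⊕ Fin (M - M0)) := by
    rw [← Fintype.card_pos_iff, hcard]; exact hMpos
  have hx' : ∀ i j, lpN p (x' i - x' j) = dist i j := by
    intro i j
    rw [hdist]
    have h1 : lpN p (x' i - x' j) ^ p.toReal = ‖x i - x j‖ ^ p.toReal := by
      rw [lpN_rpow hp, Fintype.sum_sum_type, PiLp.norm_eq_sum hP0, ← rpow_mul (Finset.sum_nonneg
        (fun l _ => rpow_nonneg (norm_nonneg _) _)), one_div_mul_cancel hP0.ne', rpow_one]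
      simp [x', Real.zero_rpow hP0.ne', Real.norm_eq_abs]
    have h2 : (lpN p (x' i - x' j) ^ p.toReal) ^ (1 / p.toReal) =
        (‖x i - x j‖ ^ p.toReal) ^ (1 / p.toReal) := by rw [h1]
    rwa [← rpow_mul (lpN_nonneg _), ← rpow_mul (norm_nonneg _), mul_one_div_cancel hP0.ne',
      rpow_one, rpow_one] at h2
  obtain ⟨Y, hY⟩ := embed_core (q := q) hp hV x' hx' hT hβ0 hβ1 hJ1 (by rw [hcard]; exact hJ)
    (by rw [hcard]; exact hS) hθ0 hθ1 hθP (by rw [hcard]; exact hg) hq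
  have hcard2 : Fintype.card (Fin (J * q ^ 2)) = Fintype.card (Fin J × (ZMod q × ZMod q)) := by
    rw [Fintype.card_fin, Fintype.card_prod, Fintype.card_prod, ZMod.card, Fintype.card_fin]
    ring
  let e : Fin (J * q ^ 2) ≃ Fin J × (ZMod q × ZMod q) := Fintype.equivOfCardEq hcard2
  have hJr : (1 : ℝ) ≤ J := by exact_mod_cast hJ1
  have hJ0 : (0 : ℝ) < J := by linarith
  refine ⟨fun i => WithLp.toLp p (fun l => Y i (e l)),
    (J : ℝ) ^ (1 / p.toReal) / (2 * J), by positivity, ?_⟩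
  intro i j
  have hnorm : ‖(WithLp.toLp p (fun l => Y i (e l)) : PiLp p (fun _ : Fin (J * q ^ 2) => ℝ)) -
      WithLp.toLp p (fun l => Y j (e l))‖ = lpN p (Y i - Y j) := by
    have h1 : ‖(WithLp.toLp p (fun l => Y i (e l)) : PiLp p (fun _ : Fin (J * q ^ 2) => ℝ)) -
      WithLp.toLp p (fun l => Y j (e l))‖ ^ p.toReal = lpN p (Y i - Y j) ^ p.toReal := by
      rw [lpN_rpow hp, PiLp.norm_eq_sum hP0, ← rpow_mul (Finset.sum_nonneg
        (fun l _ => rpow_nonneg (norm_nonneg _) _)), one_div_mul_cancel hP0.ne', rpow_one]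
      rw [← Equiv.sum_comp e]
      apply Finset.sum_congr rfl
      intro l _
      simp [Real.norm_eq_abs]
    have h2 := congrArg (fun t : ℝ => t ^ (1 / p.toReal)) h1
    beta_reduce at h2
    rwa [← rpow_mul (lpN_nonneg _), ← rpow_mul (norm_nonneg _), mul_one_div_cancel hP0.ne',
      rpow_one, rpow_one] at h2
  rw [hnorm, ← hdist]
  obtain ⟨hl, hu⟩ := hY i j
  have hd : 0 ≤ dist i j := dist_nonneg
  have hroot : ∀ t : ℝ, 0 ≤ t → (t ^ p.toReal) ^ (1 / p.toReal) = t := by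
    intro t ht
    rw [← rpow_mul ht, mul_one_div_cancel hP0.ne', rpow_one]
  have hA : 0 ≤ 4 * A0 (Fintype.card V) T + 1 := by
    rw [A0]
    have := log_natCast_nonneg (Fintype.card V)
    positivity
  constructor
  · have h1 : J * ((2 * (J : ℝ)) ^ (-p.toReal) * dist i j ^ p.toReal) ≤
        lpN p (Y i - Y j) ^ p.toReal := by
      rw [le_div_iff₀ hJ0] at hl
      linarith
    have h2 := rpow_le_rpow (by positivity) h1 (by positivity : 0 ≤ 1 / p.toReal)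
    rw [hroot _ (lpN_nonneg _), mul_rpow hJ0.le (by positivity), mul_rpow (by positivity)
      (by positivity), hroot _ hd, ← rpow_mul (by positivity)] at h2
    have e1 : -p.toReal * (1 / p.toReal) = -1 := by field_simp
    rw [e1, rpow_neg_one] at h2
    calc (J : ℝ) ^ (1 / p.toReal) / (2 * J) * dist i j =
        (J : ℝ) ^ (1 / p.toReal) * ((2 * (J : ℝ))⁻¹ * dist i j) := by field_simp
      _ ≤ _ := h2
  · have h1 : lpN p (Y i - Y j) ^ p.toReal ≤
        J * ((4 * A0 (Fintype.card V) T + 1) ^ p.toReal * dist i j ^ p.toReal) := by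
      rw [div_le_iff₀ hJ0] at hu
      linarith
    have h2 := rpow_le_rpow (rpow_nonneg (lpN_nonneg _) _) h1 (by positivity : 0 ≤ 1 / p.toReal)
    rw [hroot _ (lpN_nonneg _), mul_rpow hJ0.le (by positivity), mul_rpow (by positivity)
      (by positivity), hroot _ hd, hroot _ hA] at h2
    refine h2.trans (le_of_eq ?_)
    field_simp

theorem reduces_main (hp : p ≠ ∞) (hp1 : 1 < p.toReal) {θ : ℝ} (hθ0 : 0 < θ) (hθ1 : θ ≤ 1)
    (hθP : θ ≤ p.toReal - 1) {b : ℝ} (hb : 0 < b) (hb1 : b ≤ 1) :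
    ∃ C : ℝ, 0 ≤ C ∧ ∃ n0 : ℕ, 2 ≤ n0 ∧ ∀ n : ℕ, n0 ≤ n → ∃ d : ℕ,
      (d : ℝ) ≤ C * (n : ℝ) ^ (2 * ((1 + p.toReal * (3 * p.toReal - 2) / θ) * b)) ∧
      Reduces.{u} p n d (7328 / b ^ 2) := by
  classical
  obtain ⟨C0, hC0, hnl⟩ := near_linear.{u} 2 (by norm_num)
  obtain ⟨C, hC, n0, hn0, hpar⟩ := params_exist hp1 hθ0 hb hb1 hC0.le
  refine ⟨C, hC, n0, hn0, ?_⟩
  intro n hn
  have hn2 : 2 ≤ n := hn0.trans hn
  have h2n : (2 : ℝ) ≤ n := by exact_mod_cast hn2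
  have hnr : (0 : ℝ) < n := by linarith
  obtain ⟨M, g, q, hMpos, hqp, hM0, h1, h2, h3, h4, h5⟩ := hpar n hn
  obtain ⟨hred, hdim⟩ := hnl p hp n 1 hn2 le_rfl
  set M0 := dimLp.{u} p n 2 with hM0def
  have hM0M : M0 ≤ M := by
    have e1 : (2 * ((1 : ℕ) : ℝ) - 1) ^ p.toReal = 1 := by norm_num
    have e2 : (n : ℝ) ^ (1 + 1 / ((1 : ℕ) : ℝ)) = (n : ℝ) ^ (2 : ℝ) := by norm_num
    rw [e1, e2, one_mul] at hdim
    have e3 : log (n : ℝ) ≤ n := (log_le_sub_one_of_pos hnr).trans (by linarith)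
    have e4 : (n : ℝ) ^ (3 : ℝ) = (n : ℝ) ^ (2 : ℝ) * n := by
      rw [← rpow_add_one hnr.ne']; norm_num
    have e5 : C0 * ((n : ℝ) ^ (2 : ℝ) * log n) ≤ C0 * (n : ℝ) ^ (3 : ℝ) := by
      rw [e4]
      apply mul_le_mul_of_nonneg_left _ hC0.le
      exact mul_le_mul_of_nonneg_left e3 (by positivity)
    have e6 : (M0 : ℝ) ≤ M := (hdim.trans e5).trans hM0
    exact_mod_cast e6
  refine ⟨Jb b * q ^ 2, ?_, ?_⟩
  · push_cast
    exact h5
  intro Ω mΩ μ X hX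
  obtain ⟨f, s, hs, hf⟩ := hred Ω mΩ μ X hX
  have hcard : Fintype.card X = n := by rw [Fintype.card_coe, hX]
  have hinj : Function.Injective (fun v : X => f v) := by
    intro v w hvw
    have h6 := (hf v v.2 w w.2).1
    simp only at hvw
    rw [hvw, sub_self, norm_zero] at h6
    have h7 : ‖(v : Lp ℝ p μ) - w‖ ≤ 0 := by
      by_contra hcon
      push Not at hcon
      have : 0 < s * ‖(v : Lp ℝ p μ) - w‖ := mul_pos hs hcon
      linarith
    have h8 := norm_le_zero_iff.1 h7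
    exact Subtype.ext (sub_eq_zero.1 h8)
  have hJ3 : 1 ≤ Jb b := by rw [Jb]; omega
  have hβ0 : 0 < (n : ℝ) ^ (-b) := by positivity
  have hβ1 : (n : ℝ) ^ (-b) ≤ 1 := rpow_le_one_of_one_le_of_nonpos (by linarith) (by linarith)
  obtain ⟨y, t, ht, hy⟩ := embed_points (T := Tn b n) hp (by rw [hcard]; exact hn2)
    (fun v : X => f v) hinj hM0M hMpos (by rw [Tn]; omega) hβ0 hβ1 hJ3
    (by rw [hcard]; exact h1) (by rw [hcard]; exact h2) hθ0 hθ1 hθP (by rw [hcard]; exact h3) hqp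
    (by rw [hcard]; exact h4)
  refine ⟨fun v => if h : v ∈ X then y ⟨v, h⟩ else 0, t * s, by positivity, ?_⟩
  intro a ha a' ha'
  simp only [dif_pos ha, dif_pos ha']
  obtain ⟨h6, h7⟩ := hy ⟨a, ha⟩ ⟨a', ha'⟩
  obtain ⟨h8, h9⟩ := hf a ha a' ha'
  simp only at h6 h7
  constructor
  · calc t * s * ‖a - a'‖ = t * (s * ‖a - a'‖) := by ring
      _ ≤ t * ‖f a - f a'‖ := mul_le_mul_of_nonneg_left h8 ht.le
      _ ≤ _ := h6
  · rw [hcard] at h7
    have hA := A0_le hb hb1 n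
    have hA1 := one_le_A0 (b := b) n
    have hJle : (Jb b : ℝ) ≤ 8 / b := by
      rw [Jb]; push_cast
      have h10 := (Nat.ceil_lt_add_one (by positivity : 0 ≤ 4 / b)).le
      have h11 : 1 ≤ 1 / b := by rw [le_div_iff₀ hb]; linarith
      have e1 : 8 / b = 4 / b + 4 * (1 / b) := by ring
      rw [e1]; linarith
    have hAle : 4 * A0 n (Tn b n) + 1 ≤ 229 / b := by
      have h11 : 1 ≤ 1 / b := by rw [le_div_iff₀ hb]; linarith
      have e1 : 229 / b = 4 * (57 / b) + 1 / b := by ring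
      rw [e1]; linarith
    have hprod : 2 * (Jb b : ℝ) * (4 * A0 n (Tn b n) + 1) ≤ 3664 / b ^ 2 := by
      calc 2 * (Jb b : ℝ) * (4 * A0 n (Tn b n) + 1) ≤ 2 * (8 / b) * (229 / b) := by
            apply mul_le_mul (mul_le_mul_of_nonneg_left hJle (by norm_num)) hAle (by linarith)
              (by positivity)
        _ = 3664 / b ^ 2 := by field_simp; norm_num
    calc ‖y ⟨a, ha⟩ - y ⟨a', ha'⟩‖ ≤
          2 * (Jb b : ℝ) * (4 * A0 n (Tn b n) + 1) * t * ‖f a - f a'‖ := h7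
      _ ≤ 3664 / b ^ 2 * t * ‖f a - f a'‖ := by
          apply mul_le_mul_of_nonneg_right _ (norm_nonneg _)
          exact mul_le_mul_of_nonneg_right hprod ht.le
      _ ≤ 3664 / b ^ 2 * t * (2 * s * ‖a - a'‖) := by
          apply mul_le_mul_of_nonneg_left h9 (by positivity)
      _ = 7328 / b ^ 2 * (t * s) * ‖a - a'‖ := by ring

theorem Reduces.mono_D {n d : ℕ} {D D' : ℝ} (h : Reduces.{u} p n d D) (hD : D ≤ D') :
    Reduces.{u} p n d D' := by
  intro Ω mΩ μ X hX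
  obtain ⟨f, s, hs, hf⟩ := h Ω mΩ μ X hX
  refine ⟨f, s, hs, fun a ha a' ha' => ?_⟩
  obtain ⟨h1, h2⟩ := hf a ha a' ha'
  refine ⟨h1, h2.trans ?_⟩
  apply mul_le_mul_of_nonneg_right _ (norm_nonneg _)
  exact mul_le_mul_of_nonneg_right hD hs.le

/-- the main bound -/
theorem main_bound (hp : p ≠ ∞) (hp1 : 1 < p) : ∃ κ : ℝ, 0 < κ ∧ ∀ D : ℝ, 1 < D →
    ∃ C : ℝ, 0 < C ∧ ∀ n : ℕ, 2 ≤ n → Reduces.{u} p n (dimLp.{u} p n D) D ∧
      (dimLp.{u} p n D : ℝ) ≤ C * (n : ℝ) ^ (κ / √D) := by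
  have hP1 : 1 < p.toReal := by
    rw [← ENNReal.toReal_one]
    exact (ENNReal.toReal_lt_toReal ENNReal.one_ne_top hp).2 hp1
  set P := p.toReal with hPdef
  set θ : ℝ := min 1 (P - 1) with hθ
  have hθ0 : 0 < θ := lt_min one_pos (by linarith)
  have hθ1 : θ ≤ 1 := min_le_left _ _
  have hθP : θ ≤ P - 1 := min_le_right _ _
  set κ1 : ℝ := 1 + P * (3 * P - 2) / θ with hκ1
  have hκ11 : 1 ≤ κ1 := by
    rw [hκ1]
    have : 0 ≤ P * (3 * P - 2) / θ := by
      apply div_nonneg _ hθ0.le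
      nlinarith
    linarith
  refine ⟨258 * κ1, by linarith, ?_⟩
  intro D hD
  have hD0 : 0 < D := by linarith
  have hsD : 0 < √D := Real.sqrt_pos.2 hD0
  -- trivial bound
  obtain ⟨C0, hC0, hnl⟩ := near_linear.{u} D hD
  have htriv : ∀ n : ℕ, 2 ≤ n → Reduces.{u} p n (dimLp.{u} p n D) D ∧
      (dimLp.{u} p n D : ℝ) ≤ C0 * (n : ℝ) ^ (3 : ℝ) := by
    intro n hn
    have h2n : (2 : ℝ) ≤ n := by exact_mod_cast hn
    have hnr : (0 : ℝ) < n := by linarith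
    obtain ⟨hred, hdim⟩ := hnl p hp n 1 hn le_rfl
    refine ⟨hred, ?_⟩
    have e1 : (2 * ((1 : ℕ) : ℝ) - 1) ^ p.toReal = 1 := by norm_num
    have e2 : (n : ℝ) ^ (1 + 1 / ((1 : ℕ) : ℝ)) = (n : ℝ) ^ (2 : ℝ) := by norm_num
    rw [e1, e2, one_mul] at hdim
    have e3 : log (n : ℝ) ≤ n := (log_le_sub_one_of_pos hnr).trans (by linarith)
    have e4 : (n : ℝ) ^ (3 : ℝ) = (n : ℝ) ^ (2 : ℝ) * n := by
      rw [← rpow_add_one hnr.ne']; norm_num
    refine hdim.trans ?_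
    rw [e4]
    apply mul_le_mul_of_nonneg_left _ hC0.le
    exact mul_le_mul_of_nonneg_left e3 (by positivity)
  rcases le_or_gt 7328 D with hbig | hsmall
  · -- large distortion
    set b : ℝ := √(7328 / D) with hb
    have hb0 : 0 < b := Real.sqrt_pos.2 (by positivity)
    have hb1 : b ≤ 1 := by
      rw [hb, Real.sqrt_le_left (by norm_num), one_pow, div_le_one hD0]
      exact hbig
    have hb2 : b ^ 2 = 7328 / D := Real.sq_sqrt (by positivity)
    have hDb : 7328 / b ^ 2 = D := by rw [hb2]; field_simp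
    obtain ⟨C, hC, n0, hn0, hmain⟩ := reduces_main.{u} hp hP1 hθ0 hθ1 hθP hb0 hb1
    have hexp : 2 * (κ1 * b) ≤ 258 * κ1 / √D := by
      have h1 : b * √D ≤ 129 := by
        rw [hb, ← Real.sqrt_mul (by positivity), div_mul_cancel₀ _ hD0.ne']
        rw [Real.sqrt_le_left (by norm_num)]
        norm_num
      rw [le_div_iff₀ hsD]
      nlinarith
    have hκD : 0 ≤ 258 * κ1 / √D := by positivity
    refine ⟨C + C0 * (n0 : ℝ) ^ (3 : ℝ) + 1, by positivity, ?_⟩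
    intro n hn
    have h2n : (2 : ℝ) ≤ n := by exact_mod_cast hn
    refine ⟨(htriv n hn).1, ?_⟩
    have hn1 : 1 ≤ (n : ℝ) ^ (258 * κ1 / √D) := one_le_rpow (by linarith) hκD
    rcases le_or_gt n0 n with hnn | hnn
    · obtain ⟨d, hd, hred⟩ := hmain n hnn
      rw [hDb] at hred
      have h1 : dimLp.{u} p n D ≤ d := Nat.sInf_le hred
      have h2 : (dimLp.{u} p n D : ℝ) ≤ d := by exact_mod_cast h1
      have h3 : (n : ℝ) ^ (2 * ((1 + p.toReal * (3 * p.toReal - 2) / θ) * b)) ≤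
          (n : ℝ) ^ (258 * κ1 / √D) := rpow_le_rpow_of_exponent_le (by linarith) hexp
      calc (dimLp.{u} p n D : ℝ) ≤ C * (n : ℝ) ^ (258 * κ1 / √D) :=
            (h2.trans hd).trans (mul_le_mul_of_nonneg_left h3 hC)
        _ ≤ _ := by
            apply mul_le_mul_of_nonneg_right _ (by linarith)
            have : 0 ≤ C0 * (n0 : ℝ) ^ (3 : ℝ) := by positivity
            linarith
    · have h1 := (htriv n hn).2
      have h2 : (n : ℝ) ^ (3 : ℝ) ≤ (n0 : ℝ) ^ (3 : ℝ) :=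
        rpow_le_rpow (by linarith) (by exact_mod_cast hnn.le) (by norm_num)
      have h3 : C0 * (n : ℝ) ^ (3 : ℝ) ≤ C0 * (n0 : ℝ) ^ (3 : ℝ) :=
        mul_le_mul_of_nonneg_left h2 hC0.le
      have h4 : 0 ≤ C0 * (n0 : ℝ) ^ (3 : ℝ) := by positivity
      nlinarith
  · -- small distortion
    have hexp : 3 ≤ 258 * κ1 / √D := by
      have h1 : √D ≤ 86 := by
        rw [Real.sqrt_le_left (by norm_num)]
        linarith
      rw [le_div_iff₀ hsD]
      nlinarith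
    refine ⟨C0, hC0, ?_⟩
    intro n hn
    have h2n : (2 : ℝ) ≤ n := by exact_mod_cast hn
    refine ⟨(htriv n hn).1, (htriv n hn).2.trans ?_⟩
    apply mul_le_mul_of_nonneg_left _ hC0.le
    exact rpow_le_rpow_of_exponent_le (by linarith) hexp

end

end Vale.Agent.H22.P249
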