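import Vale.Agent.H22.P249Defs
import Vale.Agent.H22.LpReduce

namespace Vale.Agent.H22.P249

open MeasureTheory Real
open scoped ENNReal

universe u

/-- near-isometric embedding of `n` points of `L_p` in `ℓ_p^N`. -/
theorem reduces_of_count {p : ℝ≥0∞} [Fact (1 ≤ p)] (hp : p ≠ ∞) {n : ℕ} (hn : 2 ≤ n) {D : ℝ}
    (hD : 1 < D) {k δ : ℕ} (hk : 1 ≤ k) (hδ : n < δ ^ k) (N : ℕ)
    (hN : 2 * (n : ℝ) ^ 2 *
      exp (-(((D - 1) / (D + 1)) ^ 2 / (4 * ((2 * k - 1 : ℕ) ^ p.toReal * (δ * n))))) ^ N < 1) :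
    Reduces.{u} p n N D := by
  classical
  intro Ω mΩ μ X hX
  have hε0 : 0 < (D - 1) / (D + 1) := by
    apply div_pos <;> linarith
  have hε1 : (D - 1) / (D + 1) ≤ 1 := by
    rw [div_le_one (by linarith)]; linarith
  have hcard : Fintype.card X = n := by rw [Fintype.card_coe, hX]
  obtain ⟨y, hy⟩ := assemble μ hp (V := X) (fun i => (i : Lp ℝ p μ)) Subtype.val_injective
    (by rw [hcard]; exact hn) hk (by rw [hcard]; exact hδ) hε0 hε1 N (by rw [hcard]; exact hN)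
  have hp1 : 1 ≤ p := Fact.out
  have hP1 : 1 ≤ p.toReal := by
    rw [← ENNReal.toReal_one]
    exact (ENNReal.toReal_le_toReal ENNReal.one_ne_top hp).2 hp1
  have hP0 : 0 < p.toReal := by linarith
  set P := p.toReal with hP
  set ε := (D - 1) / (D + 1) with hε
  have h1ε : 0 < 1 - ε := by
    rw [hε]
    have : (D - 1) / (D + 1) < 1 := by rw [div_lt_one (by linarith)]; linarith
    linarith
  have hratio : 1 + ε = D * (1 - ε) := by
    rw [hε]; field_simp; ring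
  refine ⟨fun v => if h : v ∈ X then y ⟨v, h⟩ else 0, (1 - ε) ^ (1 / P), rpow_pos_of_pos h1ε _, ?_⟩
  intro a ha b hb
  simp only [dif_pos ha, dif_pos hb]
  obtain ⟨h1, h2⟩ := hy ⟨a, ha⟩ ⟨b, hb⟩
  simp only at h1 h2
  have hr : ∀ t : ℝ, 0 ≤ t → (t ^ P) ^ (1 / P) = t := by
    intro t ht
    rw [← rpow_mul ht, mul_one_div_cancel hP0.ne', rpow_one]
  constructor
  · have h3 := rpow_le_rpow (mul_nonneg h1ε.le (rpow_nonneg (norm_nonneg (a - b)) _)) h1
      (by positivity : (0 : ℝ) ≤ 1 / P)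
    rwa [mul_rpow h1ε.le (rpow_nonneg (norm_nonneg _) _), hr _ (norm_nonneg _),
      hr _ (norm_nonneg _)] at h3
  · have h3 := rpow_le_rpow (rpow_nonneg (norm_nonneg _) _) h2
      (by positivity : (0 : ℝ) ≤ 1 / P)
    have h1ε' : 0 ≤ 1 + ε := by linarith
    rw [mul_rpow h1ε' (rpow_nonneg (norm_nonneg _) _), hr _ (norm_nonneg _),
      hr _ (norm_nonneg _), hratio, mul_rpow (by linarith) h1ε.le] at h3
    refine h3.trans ?_
    apply mul_le_mul_of_nonneg_right _ (norm_nonneg _)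
    apply mul_le_mul_of_nonneg_right _ (rpow_nonneg h1ε.le _)
    calc D ^ (1 / P) ≤ D ^ (1 : ℝ) := by
          apply rpow_le_rpow_of_exponent_le hD.le
          rw [div_le_one hP0]; exact hP1
      _ = D := rpow_one D

theorem exists_count {n : ℕ} (hn : 2 ≤ n) {D : ℝ} (hD : 1 < D) {k : ℕ} (hk : 1 ≤ k) {P : ℝ}
    (hP : 1 ≤ P) : ∃ δ N : ℕ, n < δ ^ k ∧
      2 * (n : ℝ) ^ 2 *
        exp (-(((D - 1) / (D + 1)) ^ 2 / (4 * ((2 * k - 1 : ℕ) ^ P * (δ * n))))) ^ N < 1 ∧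
      (N : ℝ) ≤ (24 / ((D - 1) / (D + 1)) ^ 2 + 2) * ((2 * k - 1 : ℝ) ^ P *
        (n : ℝ) ^ (1 + 1 / (k : ℝ)) * log n) := by
  have hn0 : (2 : ℝ) ≤ n := by exact_mod_cast hn
  have hε0 : 0 < (D - 1) / (D + 1) := by
    apply div_pos <;> linarith
  set ε := (D - 1) / (D + 1) with hε
  have hk0 : (1 : ℝ) ≤ k := by exact_mod_cast hk
  have hT : ((2 * k - 1 : ℕ) : ℝ) = 2 * k - 1 := by
    rw [Nat.cast_sub (by omega)]; push_cast; ring
  set a : ℝ := (n : ℝ) ^ (1 / (k : ℝ)) with ha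
  have ha1 : 1 ≤ a := by
    rw [ha]; exact one_le_rpow (by linarith) (by positivity)
  set δ : ℕ := ⌊a⌋₊ + 1 with hδ
  have hδa : a < δ := by
    rw [hδ]; push_cast; exact Nat.lt_floor_add_one a
  have hδ2 : (δ : ℝ) ≤ 2 * a := by
    rw [hδ]; push_cast
    have := Nat.floor_le (by linarith : 0 ≤ a)
    linarith
  have hak : a ^ k = n := by
    rw [ha, ← rpow_natCast, ← rpow_mul (by linarith), one_div_mul_cancel (by positivity), rpow_one]
  have hδk : n < δ ^ k := by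
    have : (n : ℝ) < (δ : ℝ) ^ k := by
      rw [← hak]
      exact pow_lt_pow_left₀ hδa (by linarith) (by omega)
    exact_mod_cast this
  have hTP1 : 1 ≤ (2 * k - 1 : ℝ) ^ P := one_le_rpow (by linarith) (by linarith)
  set A : ℝ := 4 * ((2 * k - 1 : ℝ) ^ P * (δ * n)) with hA
  have hδpos : (0 : ℝ) < δ := by linarith
  have hApos : 0 < A := by positivity
  set N : ℕ := ⌊A / ε ^ 2 * log (2 * n ^ 2)⌋₊ + 1 with hN
  have hlog : 0 < log (2 * (n : ℝ) ^ 2) := log_pos (by nlinarith)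
  have hx0 : 0 ≤ A / ε ^ 2 * log (2 * n ^ 2) := by positivity
  refine ⟨δ, N, hδk, ?_, ?_⟩
  · rw [hT, ← exp_nat_mul]
    have h1 : A / ε ^ 2 * log (2 * n ^ 2) < N := by
      rw [hN]; push_cast; exact Nat.lt_floor_add_one _
    have h2 : log (2 * n ^ 2) < N * (ε ^ 2 / A) := by
      have : A / ε ^ 2 * log (2 * n ^ 2) * (ε ^ 2 / A) < N * (ε ^ 2 / A) :=
        mul_lt_mul_of_pos_right h1 (by positivity)
      have e : A / ε ^ 2 * log (2 * n ^ 2) * (ε ^ 2 / A) = log (2 * n ^ 2) := by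
        field_simp
      rwa [e] at this
    have h3 : (2 * (n : ℝ) ^ 2) = exp (log (2 * n ^ 2)) := (exp_log (by positivity)).symm
    rw [h3, ← exp_add, exp_lt_one_iff, ← hA]
    have : (N : ℝ) * -(ε ^ 2 / A) = -(N * (ε ^ 2 / A)) := by ring
    rw [this]; linarith
  · have h1 : (N : ℝ) ≤ A / ε ^ 2 * log (2 * n ^ 2) + 1 := by
      rw [hN]; push_cast
      have := Nat.floor_le hx0
      linarith
    have hlogn : 0 < log (n : ℝ) := log_pos (by linarith)
    have hlog2 : log (2 : ℝ) ≤ log n := log_le_log (by norm_num) hn0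
    have h2 : log (2 * (n : ℝ) ^ 2) ≤ 3 * log n := by
      rw [log_mul (by norm_num) (by positivity), log_pow]
      push_cast; linarith
    have hpow : (n : ℝ) ^ (1 + 1 / (k : ℝ)) = n * a := by
      rw [rpow_add (by linarith), rpow_one]
    rw [hpow]
    have hA' : A ≤ 8 * ((2 * k - 1 : ℝ) ^ P * (n * a)) := by
      rw [hA]
      have : (δ : ℝ) * n ≤ 2 * (n * a) := by nlinarith
      nlinarith [mul_le_mul_of_nonneg_left this (by linarith : 0 ≤ (2 * k - 1 : ℝ) ^ P)]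
    set B : ℝ := (2 * k - 1 : ℝ) ^ P * (n * a) with hB
    have hB2 : 2 ≤ B := by
      rw [hB]
      have : (2 : ℝ) ≤ n * a := by nlinarith
      nlinarith
    have hln2 : (1 : ℝ) / 2 ≤ log n := by
      have := Real.log_two_gt_d9
      linarith
    have h3 : A / ε ^ 2 * log (2 * n ^ 2) ≤ 24 / ε ^ 2 * (B * log n) := by
      calc A / ε ^ 2 * log (2 * n ^ 2) ≤ (8 * B) / ε ^ 2 * (3 * log n) := by
            apply mul_le_mul _ h2 hlog.le (by positivity)
            apply div_le_div_of_nonneg_right hA' (by positivity)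
        _ = _ := by ring
    have h4 : 1 ≤ 2 * (B * log n) := by nlinarith
    calc (N : ℝ) ≤ 24 / ε ^ 2 * (B * log n) + 2 * (B * log n) := by linarith
      _ = (24 / ε ^ 2 + 2) * (B * log n) := by ring

theorem reduces_dimLp_of {p : ℝ≥0∞} [Fact (1 ≤ p)] {n N : ℕ} {D : ℝ} (h : Reduces.{u} p n N D) :
    Reduces.{u} p n (dimLp.{u} p n D) D ∧ dimLp.{u} p n D ≤ N :=
  ⟨Nat.sInf_mem (s := {d : ℕ | Reduces.{u} p n d D}) ⟨N, h⟩, Nat.sInf_le h⟩

theorem near_linear (D : ℝ) (hD : 1 < D) : ∃ C : ℝ, 0 < C ∧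
    ∀ (p : ℝ≥0∞) [Fact (1 ≤ p)], p ≠ ∞ → ∀ n k : ℕ, 2 ≤ n → 1 ≤ k →
      Reduces.{u} p n (dimLp.{u} p n D) D ∧
      (dimLp.{u} p n D : ℝ) ≤
        C * ((2 * k - 1 : ℝ) ^ p.toReal * (n : ℝ) ^ (1 + 1 / (k : ℝ)) * log n) := by
  have hε0 : 0 < (D - 1) / (D + 1) := by
    apply div_pos <;> linarith
  refine ⟨24 / ((D - 1) / (D + 1)) ^ 2 + 2, by positivity, ?_⟩
  intro p _ hp n k hn hk
  have hp1 : 1 ≤ p := Fact.out
  have hP1 : 1 ≤ p.toReal := by
    rw [← ENNReal.toReal_one]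
    exact (ENNReal.toReal_le_toReal ENNReal.one_ne_top hp).2 hp1
  obtain ⟨δ, N, hδ, hN, hNle⟩ := exists_count hn hD hk hP1
  have h := reduces_dimLp_of (reduces_of_count.{u} hp hn hD hk hδ N hN)
  refine ⟨h.1, ?_⟩
  have : (dimLp.{u} p n D : ℝ) ≤ N := by exact_mod_cast h.2
  exact this.trans hNle

theorem near_linear_log (D : ℝ) (hD : 1 < D) (p : ℝ≥0∞) [Fact (1 ≤ p)] (hp : p ≠ ∞) :
    ∃ C : ℝ, 0 < C ∧ ∀ n : ℕ, 2 ≤ n →
      (dimLp.{u} p n D : ℝ) ≤ C * (n * (log n) ^ (p.toReal + 1)) := by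
  obtain ⟨C, hC, h⟩ := near_linear.{u} D hD
  have hp1 : 1 ≤ p := Fact.out
  have hP1 : 1 ≤ p.toReal := by
    rw [← ENNReal.toReal_one]
    exact (ENNReal.toReal_le_toReal ENNReal.one_ne_top hp).2 hp1
  set P := p.toReal with hP
  refine ⟨C * (exp 1 * 5 ^ P), by positivity, ?_⟩
  intro n hn
  have hn0 : (2 : ℝ) ≤ n := by exact_mod_cast hn
  have hln2 : (1 : ℝ) / 2 ≤ log n := by
    have := Real.log_two_gt_d9
    have hlog2 : log (2 : ℝ) ≤ log n := log_le_log (by norm_num) hn0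
    linarith
  set k : ℕ := ⌈log n⌉₊ with hk
  have hk1 : 1 ≤ k := Nat.one_le_iff_ne_zero.2 (by
    rw [hk]; exact (Nat.ceil_pos.2 (by linarith)).ne')
  have hkl : log n ≤ k := Nat.le_ceil _
  have hku : (k : ℝ) ≤ log n + 1 := (Nat.ceil_lt_add_one (by linarith)).le
  obtain ⟨_, h2⟩ := h p hp n k hn hk1
  refine h2.trans ?_
  have hk0 : (1 : ℝ) ≤ k := by exact_mod_cast hk1
  have e1 : (n : ℝ) ^ (1 + 1 / (k : ℝ)) ≤ n * exp 1 := by
    rw [rpow_add (by linarith), rpow_one]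
    apply mul_le_mul_of_nonneg_left _ (by linarith)
    rw [rpow_def_of_pos (by linarith)]
    apply exp_le_exp.2
    rw [mul_one_div, div_le_one (by linarith)]
    exact hkl
  have e2 : (2 * k - 1 : ℝ) ^ P ≤ (5 * log n) ^ P := by
    apply rpow_le_rpow (by linarith) _ (by linarith)
    linarith
  have e3 : (5 * log n) ^ P = 5 ^ P * (log n) ^ P := mul_rpow (by norm_num) (by linarith)
  have e4 : (log n) ^ (P + 1) = (log n) ^ P * log n := by
    rw [rpow_add (by linarith), rpow_one]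
  have e5 : C * (exp 1 * 5 ^ P) * (n * log n ^ (P + 1)) =
      C * ((exp 1 * 5 ^ P) * (n * (log n ^ P * log n))) := by rw [e4]; ring
  rw [e5]
  apply mul_le_mul_of_nonneg_left _ hC.le
  calc (2 * k - 1 : ℝ) ^ P * (n : ℝ) ^ (1 + 1 / (k : ℝ)) * log n
      ≤ (5 ^ P * (log n) ^ P) * (n * exp 1) * log n := by
        apply mul_le_mul_of_nonneg_right _ (by linarith)
        apply mul_le_mul (e2.trans_eq e3) e1 (by positivity)
        apply mul_nonneg (by positivity)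
        exact rpow_nonneg (by linarith) _
    _ = _ := by ring

end Vale.Agent.H22.P249
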