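import Vale.Agent.H22.Compress
import Vale.Agent.H22.Embed

set_option linter.unusedSectionVars false

namespace Vale.Agent.H22

open Finset Real

/-- nonnegative and bounded by a multiple of `n ^ e` for `n ≥ 2` -/
def PB (F : ℕ → ℝ) (e : ℝ) : Prop :=
  (∀ n : ℕ, 2 ≤ n → 0 ≤ F n) ∧ ∃ C : ℝ, 0 ≤ C ∧ ∀ n : ℕ, 2 ≤ n → F n ≤ C * (n : ℝ) ^ e

theorem PB.const {c : ℝ} (hc : 0 ≤ c) : PB (fun _ => c) 0 :=
  ⟨fun _ _ => hc, c, hc, fun n _ => by simp⟩

theorem PB.mono {F : ℕ → ℝ} {e e' : ℝ} (h : PB F e) (hee : e ≤ e') : PB F e' := by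
  obtain ⟨h0, C, hC, h1⟩ := h
  refine ⟨h0, C, hC, fun n hn => (h1 n hn).trans ?_⟩
  apply mul_le_mul_of_nonneg_left _ hC
  apply rpow_le_rpow_of_exponent_le _ hee
  have : (2 : ℝ) ≤ n := by exact_mod_cast hn
  linarith

theorem PB.of_le {F G : ℕ → ℝ} {e : ℝ} (h : PB G e) (h0 : ∀ n : ℕ, 2 ≤ n → 0 ≤ F n)
    (hle : ∀ n : ℕ, 2 ≤ n → F n ≤ G n) : PB F e := by
  obtain ⟨_, C, hC, h1⟩ := h
  exact ⟨h0, C, hC, fun n hn => (hle n hn).trans (h1 n hn)⟩

theorem PB.add {F G : ℕ → ℝ} {e : ℝ} (hF : PB F e) (hG : PB G e) : PB (fun n => F n + G n) e := by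
  obtain ⟨h0, C, hC, h1⟩ := hF
  obtain ⟨h0', C', hC', h1'⟩ := hG
  refine ⟨fun n hn => add_nonneg (h0 n hn) (h0' n hn), C + C', by linarith, fun n hn => ?_⟩
  have := h1 n hn
  have := h1' n hn
  linarith

theorem PB.mul {F G : ℕ → ℝ} {e e' : ℝ} (hF : PB F e) (hG : PB G e') :
    PB (fun n => F n * G n) (e + e') := by
  obtain ⟨h0, C, hC, h1⟩ := hF
  obtain ⟨h0', C', hC', h1'⟩ := hG
  refine ⟨fun n hn => mul_nonneg (h0 n hn) (h0' n hn), C * C', by positivity, fun n hn => ?_⟩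
  have hn0 : (0 : ℝ) < n := by
    have : (2 : ℝ) ≤ n := by exact_mod_cast hn
    linarith
  calc F n * G n ≤ (C * (n : ℝ) ^ e) * (C' * (n : ℝ) ^ e') :=
        mul_le_mul (h1 n hn) (h1' n hn) (h0' n hn) (by positivity)
    _ = _ := by rw [rpow_add hn0]; ring

theorem PB.rpow {F : ℕ → ℝ} {e s : ℝ} (hF : PB F e) (hs : 0 ≤ s) :
    PB (fun n => F n ^ s) (e * s) := by
  obtain ⟨h0, C, hC, h1⟩ := hF
  refine ⟨fun n hn => rpow_nonneg (h0 n hn) _, C ^ s, by positivity, fun n hn => ?_⟩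
  have hn0 : (0 : ℝ) ≤ n := by positivity
  calc F n ^ s ≤ (C * (n : ℝ) ^ e) ^ s := rpow_le_rpow (h0 n hn) (h1 n hn) hs
    _ = _ := by rw [mul_rpow hC (by positivity), ← rpow_mul hn0]

theorem PB.log {e : ℝ} (he : 0 < e) : PB (fun n => Real.log n) e := by
  refine ⟨fun n _ => log_natCast_nonneg n, 1 / e, by positivity, fun n _ => ?_⟩
  have := Real.log_le_rpow_div (Nat.cast_nonneg n) he
  rw [div_eq_mul_one_div, mul_comm] at this
  exact this

theorem PB.rpow_neg_inv {b : ℝ} : PB (fun n => ((n : ℝ) ^ (-b))⁻¹) b := by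
  refine ⟨fun n _ => by positivity, 1, zero_le_one, fun n _ => ?_⟩
  have e : ((n : ℝ) ^ (-b))⁻¹ = (n : ℝ) ^ b := by
    rw [rpow_neg (Nat.cast_nonneg n), inv_inv]
  rw [one_mul]
  exact le_of_eq e

section params

variable (b : ℝ)

/-- window length -/
noncomputable def Tn (n : ℕ) : ℕ := ⌊b * log n⌋₊ + 1

/-- number of classes -/
noncomputable def Jb : ℕ := ⌈4 / b⌉₊ + 3

variable {b}

theorem Tn_ge (n : ℕ) : b * log n ≤ Tn b n := by
  rw [Tn]; push_cast; exact (Nat.lt_floor_add_one _).le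

theorem Tn_pos (n : ℕ) : (0 : ℝ) < Tn b n := by
  rw [Tn]; positivity

theorem log_div_T_le (hb : 0 < b) (n : ℕ) : log n / Tn b n ≤ 1 / b := by
  rw [div_le_div_iff₀ (Tn_pos n) hb, one_mul, mul_comm]
  exact Tn_ge n

theorem two_pow_T_le (hb : 0 < b) {n : ℕ} (hn : 2 ≤ n) : (2 : ℝ) ^ Tn b n ≤ 2 * (n : ℝ) ^ b := by
  have hn0 : (0 : ℝ) < n := by
    have : (2 : ℝ) ≤ n := by exact_mod_cast hn
    linarith
  rw [Tn, pow_succ, mul_comm]
  apply mul_le_mul_of_nonneg_left _ (by norm_num)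
  have h1 : ((⌊b * log n⌋₊ : ℕ) : ℝ) ≤ b * log n :=
    Nat.floor_le (mul_nonneg hb.le (log_natCast_nonneg n))
  calc (2 : ℝ) ^ ⌊b * log n⌋₊ ≤ exp 1 ^ ⌊b * log n⌋₊ := by
        apply pow_le_pow_left₀ (by norm_num)
        have := Real.exp_one_gt_d9
        linarith
    _ = exp (⌊b * log n⌋₊) := by rw [← exp_nat_mul, mul_one]
    _ ≤ exp (b * log n) := exp_le_exp.2 h1
    _ = (n : ℝ) ^ b := by rw [rpow_def_of_pos hn0, mul_comm]

theorem PB_twoT (hb : 0 < b) : PB (fun n => (2 : ℝ) ^ Tn b n) b := by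
  refine ⟨fun n _ => by positivity, 2, by norm_num, fun n hn => two_pow_T_le hb hn⟩

theorem A0_le (hb : 0 < b) (hb1 : b ≤ 1) (n : ℕ) : A0 n (Tn b n) ≤ 57 / b := by
  rw [A0, mul_div_assoc]
  have h1 := log_div_T_le hb n
  have h2 : 1 ≤ 1 / b := by rw [le_div_iff₀ hb]; linarith
  have e : 57 / b = 57 * (1 / b) := by ring
  rw [e]; linarith

theorem one_le_A0 (n : ℕ) : 1 ≤ A0 n (Tn b n) := by
  rw [A0]
  have : 0 ≤ 56 * log (n : ℝ) / Tn b n := by
    have := log_natCast_nonneg n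
    positivity
  linarith

theorem PB_A0 (hb : 0 < b) (hb1 : b ≤ 1) : PB (fun n => A0 n (Tn b n)) 0 :=
  (PB.const (by positivity : 0 ≤ 57 / b)).of_le (fun n _ => by linarith [one_le_A0 (b := b) n])
    (fun n _ => A0_le hb hb1 n)

theorem PB_log_div (hb : 0 < b) : PB (fun n => log n / Tn b n) 0 :=
  (PB.const (by positivity : 0 ≤ 1 / b)).of_le
    (fun n _ => div_nonneg (log_natCast_nonneg n) (Tn_pos n).le) (fun n _ => log_div_T_le hb n)

theorem PB_one_add (hb : 0 < b) : PB (fun n => 1 + 2 ^ Tn b n * (2 * log n)) (b + b / 4) := by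
  have h1 : PB (fun n => (2 : ℝ) ^ Tn b n * (2 * log n)) (b + b / 4) := by
    have h := (PB_twoT hb).mul ((PB.const (by norm_num : (0 : ℝ) ≤ 2)).mul
      (PB.log (by positivity : 0 < b / 4)))
    rw [zero_add] at h
    exact h
  exact ((PB.const zero_le_one).mono (by positivity)).add h1

theorem PB_Gh (hb : 0 < b) (hb1 : b ≤ 1) :
    PB (fun n => Gh n (Tn b n) ((n : ℝ) ^ (-b)) (Jb b)) (2 * b) := by
  have hl2 : 0 < log (2 : ℝ) := log_pos (by norm_num)
  have h1 := PB_one_add hb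
  have hlogb : PB (fun n => (Jb b : ℝ) * (-log ((n : ℝ) ^ (-b))) / log 2) (b / 4) := by
    have h := (PB.const (by positivity : 0 ≤ (Jb b : ℝ) * b / log 2)).mul
      (PB.log (by positivity : 0 < b / 4))
    rw [zero_add] at h
    apply h.of_le
    · intro n hn
      have hn0 : (0 : ℝ) < n := by
        have : (2 : ℝ) ≤ n := by exact_mod_cast hn
        linarith
      rw [log_rpow hn0]
      have := log_natCast_nonneg n
      have : 0 ≤ -(-b * log (n : ℝ)) := by nlinarith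
      positivity
    · intro n hn
      have hn0 : (0 : ℝ) < n := by
        have : (2 : ℝ) ≤ n := by exact_mod_cast hn
        linarith
      rw [log_rpow hn0]
      apply le_of_eq; ring
  have h224 : (0 : ℝ) ≤ 224 := by norm_num
  have h2 : PB (fun n => 224 * (1 + 2 ^ Tn b n * (2 * log n)) *
      ((Jb b : ℝ) * (-log ((n : ℝ) ^ (-b))) / log 2)) (2 * b) := by
    have h := ((PB.const h224).mul h1).mul hlogb
    exact h.mono (by linarith)
  have h3 : PB (fun n => 224 * (2 : ℝ) ^ Tn b n) (2 * b) := by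
    have h := (PB.const h224).mul (PB_twoT hb)
    exact h.mono (by linarith)
  have h4 := (PB_log_div hb).mul (h3.add h2)
  have h5 : PB (fun n => 16 * A0 n (Tn b n) * (1 + 2 ^ Tn b n * (2 * log n))) (2 * b) := by
    have h := ((PB.const (by norm_num : (0 : ℝ) ≤ 16)).mul (PB_A0 hb hb1)).mul h1
    exact h.mono (by linarith)
  rw [zero_add] at h4
  exact h4.add h5

theorem one_le_Gh (hb : 0 < b) {n : ℕ} (hn : 2 ≤ n) :
    1 ≤ Gh n (Tn b n) ((n : ℝ) ^ (-b)) (Jb b) := by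
  have hn0 : (0 : ℝ) < n := by
    have : (2 : ℝ) ≤ n := by exact_mod_cast hn
    linarith
  have hl2 : 0 < log (2 : ℝ) := log_pos (by norm_num)
  have hlog := log_natCast_nonneg n
  rw [Gh, log_rpow hn0]
  have hT := Tn_pos (b := b) n
  have hneg : 0 ≤ -(-b * log (n : ℝ)) := by nlinarith
  have h1 : 0 ≤ log n / Tn b n * (224 * 2 ^ Tn b n + 224 * (1 + 2 ^ Tn b n * (2 * log n)) *
        (Jb b * (-(-b * log (n : ℝ))) / log 2)) := by positivity
  have h2 : 0 ≤ (2 : ℝ) ^ Tn b n * (2 * log n) := by positivity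
  have h3 := one_le_A0 (b := b) n
  nlinarith

theorem PB_K1 (hb : 0 < b) (hb1 : b ≤ 1) {P : ℝ} (hP : 1 < P) :
    PB (fun n => K1 (((Jb b : ℝ) * 4) ^ (-P)) (4 * A0 n (Tn b n)) P n) b := by
  have hJ : (0 : ℝ) < Jb b := by rw [Jb]; positivity
  have h1 : PB (fun n => 32 * (4 * A0 n (Tn b n)) ^ (2 * P) / (((Jb b : ℝ) * 4) ^ (-P)) ^ 2) 0 := by
    have h := ((PB.const (by positivity : 0 ≤ 32 / (((Jb b : ℝ) * 4) ^ (-P)) ^ 2))).mul
      (((PB.const (by norm_num : (0 : ℝ) ≤ 4)).mul (PB_A0 hb hb1)).rpow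
        (by linarith : 0 ≤ 2 * P))
    have h' := h.mono (e' := 0) (by simp)
    apply h'.of_le
    · intro n _
      have := one_le_A0 (b := b) n
      positivity
    · intro n _
      apply le_of_eq; ring
  have h2 : PB (fun n => log (4 * (n : ℝ) ^ 2)) b := by
    have h := (PB.const (by norm_num : (0 : ℝ) ≤ 4)).mul (PB.log hb)
    rw [zero_add] at h
    apply h.of_le
    · intro n hn
      have : (2 : ℝ) ≤ n := by exact_mod_cast hn
      exact log_nonneg (by nlinarith)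
    · intro n hn
      have h2n : (2 : ℝ) ≤ n := by exact_mod_cast hn
      have hlog2 : log (2 : ℝ) ≤ log n := log_le_log (by norm_num) h2n
      have e4 : log (4 : ℝ) = 2 * log 2 := by
        rw [show (4 : ℝ) = 2 ^ 2 by norm_num, log_pow]; norm_num
      rw [log_mul (by norm_num) (by positivity), log_pow, e4]
      push_cast
      linarith
  have h3 := h1.mul h2
  rw [zero_add] at h3
  exact h3.add ((PB.const zero_le_one).mono hb.le)

end params

end Vale.Agent.H22
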