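import Vale.Agent.H22.Sampling
import Vale.Agent.H22.Clip

set_option linter.unusedSectionVars false

namespace Vale.Agent.H22

open Finset Real MeasureTheory
open scoped ENNReal

section sample

variable {V : Type*} [Fintype V] {S : Type*} [Fintype S] [Nonempty S] {p : ℝ≥0∞} [Fact (1 ≤ p)]

/-- sampling from the uniform distribution on a finite set -/
theorem sampling_uniform {I : Type*} [Fintype I] (Z : I → S → ℝ) {M : ℝ} (hM : 0 < M)
    (hZ0 : ∀ i s, 0 ≤ Z i s) (hZM : ∀ i s, Z i s ≤ M)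
    (hZ1 : ∀ i, ∑ s, Z i s = Fintype.card S)
    {ε : ℝ} (hε0 : 0 < ε) (hε1 : ε ≤ 1) (N : ℕ)
    (hN : 2 * Fintype.card I * exp (-(ε ^ 2 / (4 * M))) ^ N < 1) :
    ∃ s : Fin N → S, ∀ i, N * (1 - ε) ≤ ∑ l, Z i (s l) ∧ ∑ l, Z i (s l) ≤ N * (1 + ε) := by
  classical
  let _ : MeasurableSpace S := ⊤
  have hS0 : (Fintype.card S : ℝ≥0∞) ≠ 0 := by
    have := Fintype.card_pos (α := S)
    exact_mod_cast this.ne'
  have hST : (Fintype.card S : ℝ≥0∞) ≠ ∞ := ENNReal.natCast_ne_top _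
  let ν : Measure S := (Fintype.card S : ℝ≥0∞)⁻¹ • Measure.count
  have hν : IsProbabilityMeasure ν := by
    constructor
    simp only [ν, Measure.smul_apply, smul_eq_mul, Measure.count_univ]
    rw [ENat.card_eq_coe_fintype_card]
    simp only [ENat.toENNReal_coe]
    exact ENNReal.inv_mul_cancel hS0 hST
  refine sampling ν Z (fun i => measurable_of_finite _) hM hZ0 hZM ?_ hε0 hε1 N hN
  intro i
  have hSr : (Fintype.card S : ℝ) ≠ 0 := by
    have := Fintype.card_pos (α := S)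
    exact_mod_cast this.ne'
  simp only [ν]
  rw [integral_smul_measure, integral_count, hZ1 i, smul_eq_mul, ENNReal.toReal_inv,
    ENNReal.toReal_natCast]
  exact inv_mul_cancel₀ hSr

theorem sample_step (hp : p ≠ ∞) (d : V → V → ℝ) (hd0 : ∀ i j, 0 ≤ d i j) (f : V → S → ℝ)
    {A lam Γ : ℝ} (hA : 1 ≤ A) (ha : ∀ i j, lpN p (f i - f j) ≤ A * d i j)
    (hb : ∀ i j s, |f i s - f j s| ≤ lam * d i j) (hc : ∀ i j, lpN 1 (f i - f j) ≤ Γ * d i j)
    (hl0 : 0 < lam) (hΓ0 : 0 < Γ) (hl : 1 ≤ Fintype.card S * lam ^ p.toReal)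
    (hlΓ : 1 ≤ lam ^ (p.toReal - 1) * Γ)
    {ε : ℝ} (hε0 : 0 < ε) (hε1 : ε ≤ 1) (N : ℕ) (hN0 : 0 < N)
    (hN : 4 * (Fintype.card V : ℝ) ^ 2 *
      exp (-(ε ^ 2 / (8 * (Fintype.card S * lam ^ p.toReal)))) ^ N < 1) :
    ∃ u : V → Fin N → ℝ, ∀ i j,
      |lpN p (u i - u j) ^ p.toReal - lpN p (f i - f j) ^ p.toReal| ≤
        ε * A ^ p.toReal * d i j ^ p.toReal ∧
      lpN 1 (u i - u j) ≤ ((N : ℝ) / Fintype.card S) ^ (1 - 1 / p.toReal) * (2 * Γ) * d i j := by
  classical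
  have hP := one_le_toReal (p := p) hp
  have hP0 : 0 < p.toReal := by linarith
  set P := p.toReal with hPdef
  set M : ℝ := (Fintype.card S : ℝ) with hM
  have hM0 : 0 < M := by
    rw [hM]; exact_mod_cast Fintype.card_pos (α := S)
  have hNr : (0 : ℝ) < N := by exact_mod_cast hN0
  have hAP : 1 ≤ A ^ P := one_le_rpow hA hP0.le
  have hAP0 : 0 < A ^ P := by linarith
  let I := {q : V × V // 0 < d q.1 q.2}
  let μ1 : I → ℝ := fun q => lpN p (f q.1.1 - f q.1.2) ^ P / d q.1.1 q.1.2 ^ P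
  let μ2 : I → ℝ := fun q => lpN 1 (f q.1.1 - f q.1.2) / d q.1.1 q.1.2
  have hμ1 : ∀ q, μ1 q ≤ A ^ P := by
    intro q
    have hq := q.2
    simp only [μ1]
    rw [div_le_iff₀ (rpow_pos_of_pos hq _), ← mul_rpow (by linarith) hq.le]
    exact rpow_le_rpow (lpN_nonneg _) (ha _ _) hP0.le
  have hμ2 : ∀ q, μ2 q ≤ Γ := by
    intro q
    have hq := q.2
    simp only [μ2]
    rw [div_le_iff₀ hq]
    exact hc _ _
  let Z1 : I → S → ℝ := fun q s =>
    (M * (|f q.1.1 s - f q.1.2 s| ^ P / d q.1.1 q.1.2 ^ P) + (A ^ P - μ1 q)) / A ^ P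
  let Z2 : I → S → ℝ := fun q s =>
    (M * (|f q.1.1 s - f q.1.2 s| / d q.1.1 q.1.2) + (Γ - μ2 q)) / Γ
  let Z : I × Bool → S → ℝ := fun q s => if q.2 then Z1 q.1 s else Z2 q.1 s
  have hμ1nn : ∀ q, 0 ≤ μ1 q := fun q =>
    div_nonneg (rpow_nonneg (lpN_nonneg _) _) (rpow_nonneg q.2.le _)
  have hμ2nn : ∀ q, 0 ≤ μ2 q := fun q => div_nonneg (lpN_nonneg _) q.2.le
  have hrat : ∀ (q : I) s, |f q.1.1 s - f q.1.2 s| / d q.1.1 q.1.2 ≤ lam := by
    intro q s
    rw [div_le_iff₀ q.2]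
    exact hb _ _ _
  have hrat0 : ∀ (q : I) s, 0 ≤ |f q.1.1 s - f q.1.2 s| / d q.1.1 q.1.2 := fun q s =>
    div_nonneg (abs_nonneg _) q.2.le
  have hratP : ∀ (q : I) s, |f q.1.1 s - f q.1.2 s| ^ P / d q.1.1 q.1.2 ^ P ≤ lam ^ P := by
    intro q s
    rw [← div_rpow (abs_nonneg _) q.2.le]
    exact rpow_le_rpow (hrat0 q s) (hrat q s) hP0.le
  have hratP0 : ∀ (q : I) s, 0 ≤ |f q.1.1 s - f q.1.2 s| ^ P / d q.1.1 q.1.2 ^ P := fun q s =>
    div_nonneg (rpow_nonneg (abs_nonneg _) _) (rpow_nonneg q.2.le _)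
  have hlP : 0 < lam ^ P := rpow_pos_of_pos hl0 _
  have hZ1b : ∀ q s, 0 ≤ Z1 q s ∧ Z1 q s ≤ 2 * (M * lam ^ P) := by
    intro q s
    simp only [Z1]
    constructor
    · apply div_nonneg _ hAP0.le
      have := hμ1 q
      have := mul_nonneg hM0.le (hratP0 q s)
      linarith
    · rw [div_le_iff₀ hAP0]
      have h1 := mul_le_mul_of_nonneg_left (hratP q s) hM0.le
      have h2 := hμ1nn q
      have h3 : M * lam ^ P ≤ M * lam ^ P * A ^ P := le_mul_of_one_le_right (by positivity) hAP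
      have h4 : A ^ P ≤ M * lam ^ P * A ^ P := le_mul_of_one_le_left hAP0.le hl
      nlinarith
  have hZ2b : ∀ q s, 0 ≤ Z2 q s ∧ Z2 q s ≤ 2 * (M * lam ^ P) := by
    intro q s
    simp only [Z2]
    constructor
    · apply div_nonneg _ hΓ0.le
      have := hμ2 q
      have := mul_nonneg hM0.le (hrat0 q s)
      linarith
    · rw [div_le_iff₀ hΓ0]
      have h1 := mul_le_mul_of_nonneg_left (hrat q s) hM0.le
      have h2 := hμ2nn q
      have e : lam ^ P = lam ^ (P - 1) * lam := by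
        rw [← rpow_add_one hl0.ne']; ring_nf
      have h3 : M * lam ≤ M * lam ^ P * Γ := by
        rw [e]
        calc M * lam = M * lam * 1 := by ring
          _ ≤ M * lam * (lam ^ (P - 1) * Γ) := mul_le_mul_of_nonneg_left hlΓ (by positivity)
          _ = _ := by ring
      have h4 : Γ ≤ M * lam ^ P * Γ := le_mul_of_one_le_left hΓ0.le hl
      nlinarith
  have hZ0 : ∀ q s, 0 ≤ Z q s := by
    intro q s
    simp only [Z]
    split_ifs
    · exact (hZ1b _ _).1
    · exact (hZ2b _ _).1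
  have hZM : ∀ q s, Z q s ≤ 2 * (M * lam ^ P) := by
    intro q s
    simp only [Z]
    split_ifs
    · exact (hZ1b _ _).2
    · exact (hZ2b _ _).2
  have hZ1s : ∀ q, ∑ s, Z1 q s = M := by
    intro q
    simp only [Z1]
    rw [← Finset.sum_div, Finset.sum_add_distrib, ← Finset.mul_sum, ← Finset.sum_div]
    have e : ∑ s, |f q.1.1 s - f q.1.2 s| ^ P = lpN p (f q.1.1 - f q.1.2) ^ P := by
      rw [lpN_rpow hp]; rfl
    rw [e, Finset.sum_const, Finset.card_univ, nsmul_eq_mul, ← hM]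
    simp only [μ1]
    field_simp
    ring
  have hZ2s : ∀ q, ∑ s, Z2 q s = M := by
    intro q
    simp only [Z2]
    rw [← Finset.sum_div, Finset.sum_add_distrib, ← Finset.mul_sum, ← Finset.sum_div]
    have e : ∑ s, |f q.1.1 s - f q.1.2 s| = lpN 1 (f q.1.1 - f q.1.2) := by
      rw [lpN_one]; rfl
    rw [e, Finset.sum_const, Finset.card_univ, nsmul_eq_mul, ← hM]
    simp only [μ2]
    field_simp
    ring
  have hZs : ∀ q, ∑ s, Z q s = Fintype.card S := by
    intro q
    rcases q with ⟨q, b⟩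
    cases b
    · simp only [Z, Bool.false_eq_true, if_false]
      exact hZ2s q
    · simp only [Z, if_true]
      exact hZ1s q
  have hcard : (Fintype.card (I × Bool) : ℝ) ≤ 2 * (Fintype.card V : ℝ) ^ 2 := by
    have h1 : Fintype.card I ≤ Fintype.card (V × V) := Fintype.card_subtype_le _
    rw [Fintype.card_prod] at h1
    rw [Fintype.card_prod, Fintype.card_bool]
    have h2 : (Fintype.card I : ℝ) ≤ (Fintype.card V : ℝ) * Fintype.card V := by exact_mod_cast h1
    push_cast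
    nlinarith
  have hN' : 2 * Fintype.card (I × Bool) * exp (-(ε ^ 2 / (4 * (2 * (M * lam ^ P))))) ^ N < 1 := by
    refine lt_of_le_of_lt ?_ hN
    have e : 4 * (2 * (M * lam ^ P)) = 8 * (M * lam ^ P) := by ring
    rw [e]
    apply mul_le_mul_of_nonneg_right _ (pow_nonneg (exp_pos _).le _)
    linarith
  obtain ⟨s, hs⟩ := sampling_uniform Z (by positivity) hZ0 hZM hZs hε0 hε1 N hN'
  have hMN : 0 < M / N := div_pos hM0 hNr
  refine ⟨fun i l => (M / N) ^ (1 / P) * f i (s l), ?_⟩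
  intro i j
  rcases (hd0 i j).eq_or_lt with h0 | h0
  · have hz : ∀ t, f i t = f j t := by
      intro t
      have := hb i j t
      rw [← h0, mul_zero] at this
      have := abs_nonpos_iff.1 this
      linarith
    have hfz : f i - f j = 0 := by
      funext t; simp [hz t]
    have huz : (fun l => (M / N) ^ (1 / P) * f i (s l)) - (fun l => (M / N) ^ (1 / P) * f j (s l)) =
        (0 : Fin N → ℝ) := by
      funext l; simp [hz (s l)]
    rw [huz, hfz, map_zero, map_zero, ← h0]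
    simp [Real.zero_rpow hP0.ne']
  let q : I := ⟨(i, j), h0⟩
  have hu : (fun l => (M / N) ^ (1 / P) * f i (s l)) - (fun l => (M / N) ^ (1 / P) * f j (s l)) =
      fun l => (M / N) ^ (1 / P) * (f i (s l) - f j (s l)) := by
    funext l; simp only [Pi.sub_apply]; ring
  have hdP : 0 < d i j ^ P := rpow_pos_of_pos h0 _
  have hMNP : 0 ≤ (M / N) ^ (1 / P) := rpow_nonneg hMN.le _
  rw [hu]
  constructor
  · have hk : lpN p (fun l => (M / N) ^ (1 / P) * (f i (s l) - f j (s l))) ^ P =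
        (∑ l, M * (|f i (s l) - f j (s l)| ^ P / d i j ^ P)) / N * d i j ^ P := by
      rw [lpN_rpow hp, Finset.sum_div, Finset.sum_mul]
      apply Finset.sum_congr rfl
      intro l _
      rw [← hPdef, abs_mul, abs_of_nonneg hMNP, mul_rpow hMNP (abs_nonneg _), ← rpow_mul hMN.le,
        one_div_mul_cancel hP0.ne', rpow_one]
      field_simp
    have h1 := hs (q, true)
    simp only [Z, if_true, Z1] at h1
    rw [← Finset.sum_div, Finset.sum_add_distrib, Finset.sum_const, Finset.card_univ,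
      Fintype.card_fin, nsmul_eq_mul] at h1
    obtain ⟨h1a, h1b⟩ := h1
    rw [le_div_iff₀ hAP0] at h1a
    rw [div_le_iff₀ hAP0] at h1b
    have hμ : lpN p (f i - f j) ^ P = μ1 q * d i j ^ P := by
      simp only [μ1, q]
      field_simp
    rw [hk, hμ, ← sub_mul, abs_mul, abs_of_pos hdP]
    apply mul_le_mul_of_nonneg_right _ hdP.le
    rw [abs_le]
    have hsum : ∑ l, M * (|f q.1.1 (s l) - f q.1.2 (s l)| ^ P / d q.1.1 q.1.2 ^ P) =
      ∑ l, M * (|f i (s l) - f j (s l)| ^ P / d i j ^ P) := rfl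
    rw [hsum] at h1a h1b
    constructor
    · have : μ1 q - ε * A ^ P ≤
          (∑ l, M * (|f i (s l) - f j (s l)| ^ P / d i j ^ P)) / N := by
        rw [le_div_iff₀ hNr]
        nlinarith
      linarith
    · have : (∑ l, M * (|f i (s l) - f j (s l)| ^ P / d i j ^ P)) / N ≤ μ1 q + ε * A ^ P := by
        rw [div_le_iff₀ hNr]
        nlinarith
      linarith
  · have h1 := (hs (q, false)).2
    simp only [Z, Bool.false_eq_true, if_false, Z2] at h1
    rw [← Finset.sum_div, Finset.sum_add_distrib, Finset.sum_const, Finset.card_univ,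
      Fintype.card_fin, nsmul_eq_mul, div_le_iff₀ hΓ0] at h1
    have hsum : ∑ l, M * (|f q.1.1 (s l) - f q.1.2 (s l)| / d q.1.1 q.1.2) =
      ∑ l, M * (|f i (s l) - f j (s l)| / d i j) := rfl
    rw [hsum] at h1
    have h2 := hμ2 q
    have h3 : ∑ l, M * (|f i (s l) - f j (s l)| / d i j) ≤ 2 * (N * Γ) := by
      nlinarith [mul_le_mul_of_nonneg_left h2 hNr.le, mul_le_mul_of_nonneg_right hε1
        (by positivity : 0 ≤ N * Γ)]
    have hk : lpN 1 (fun l => (M / N) ^ (1 / P) * (f i (s l) - f j (s l))) =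
        ((N : ℝ) / M) ^ (1 - 1 / P) * (d i j / N) *
          ∑ l, M * (|f i (s l) - f j (s l)| / d i j) := by
      rw [lpN_one, Finset.mul_sum]
      apply Finset.sum_congr rfl
      intro l _
      rw [abs_mul, abs_of_nonneg hMNP]
      have e : ((N : ℝ) / M) ^ (1 - 1 / P) = (N : ℝ) / M * (M / N) ^ (1 / P) := by
        rw [rpow_sub (by positivity), rpow_one, div_eq_mul_inv _ ((N / M : ℝ) ^ (1 / P)),
          ← inv_rpow (by positivity), inv_div]
      rw [e]
      field_simp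
    rw [hk]
    have hNM : 0 ≤ ((N : ℝ) / M) ^ (1 - 1 / P) := by positivity
    calc ((N : ℝ) / M) ^ (1 - 1 / P) * (d i j / N) *
          ∑ l, M * (|f i (s l) - f j (s l)| / d i j)
        ≤ ((N : ℝ) / M) ^ (1 - 1 / P) * (d i j / N) * (2 * (N * Γ)) := by
          apply mul_le_mul_of_nonneg_left h3 (by positivity)
      _ = _ := by field_simp

end sample

end Vale.Agent.H22
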