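import Vale.Agent.H22.Average

set_option linter.unusedSectionVars false

namespace Vale.Agent.H22

open Finset Real

section slopes

variable {V : Type*} [Fintype V] [PseudoMetricSpace V]

/-- absolute value as a seminorm -/
noncomputable def absN : Seminorm ℝ ℝ := normSeminorm ℝ ℝ

theorem absN_apply (w : ℝ) : absN w = |w| := by
  simp [absN]

theorem logdiff_nonneg {r κ : ℝ} (hr : 0 < r) (hκ0 : 0 < κ) (hκ : κ ≤ 1 / 2) (i : V) :
    0 ≤ log (Zt r i) - log (Zt (κ * r) i) := by
  have h := min_le_log hr hκ0 hκ i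
  have h1 : 0 ≤ ∑ k, Pk r i k * min κ (dist i k / r) := by
    apply Finset.sum_nonneg
    intro k _
    have : 0 ≤ min κ (dist i k / r) := le_min hκ0.le (by positivity)
    exact mul_nonneg (Pk_pos r i k).le this
  by_contra hneg
  push Not at hneg
  have : 4 * κ * (log (Zt r i) - log (Zt (κ * r) i)) < 0 := by
    apply mul_neg_of_pos_of_neg (by linarith) hneg
  linarith

theorem second_change {R r L κ : ℝ} (hr : 0 < r) (hrR : r ≤ R) (F : V → V → ℝ) (hL : 0 ≤ L)
    (hF0 : ∀ k k', |F k k'| ≤ L * dist k k') (hF1 : ∀ k k' l', |F k k' - F k l'| ≤ 2 * dist k' l')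
    (hκ0 : 0 < κ) (hκ : κ ≤ 1 / 2)
    (hκL : L * (r + R * (2 * log (Fintype.card V))) ≤ κ * r) {i j : V} (hij : dist i j ≤ r) :
    |avg R j (fun k => avg r i (F k) - avg r j (F k))| ≤
      7 * dist i j * (L * ek r i + 8 * κ * (log (Zt r i) - log (Zt (κ * r) i))) := by
  have hR : 0 < R := lt_of_lt_of_le hr hrR
  have hd : 0 ≤ dist i j := dist_nonneg
  -- bound for each k
  have h1 : ∀ k, |avg r i (F k) - avg r j (F k)| ≤
      7 * (dist i j / r) * ∑ k', Pk r i k' * (L * dist i k' + 2 * min (dist i k') (L * dist k i)) := by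
    intro k
    have h := N_avg_diff_le absN hr hij (F k) (F k i)
      (fun k' => L * dist i k' + 2 * min (dist i k') (L * dist k i)) ?_
    · rwa [absN_apply] at h
    · intro k'
      rw [absN_apply]
      have a1 := hF1 k k' i
      have a2 := hF0 k k'
      have a3 := hF0 k i
      have a4 := dist_triangle k i k'
      have a5 : |F k k' - F k i| ≤ |F k k'| + |F k i| := abs_sub _ _
      have a6 : 0 ≤ L * dist i k' := by positivity
      rw [dist_comm k' i] at a1
      rcases le_total (dist i k') (L * dist k i) with h | h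
      · rw [min_eq_left h]; linarith
      · rw [min_eq_right h]
        nlinarith [mul_le_mul_of_nonneg_left a4 hL]
  have h2 : |avg R j (fun k => avg r i (F k) - avg r j (F k))| ≤ ∑ k, Pk R j k *
      (7 * (dist i j / r) * ∑ k', Pk r i k' * (L * dist i k' + 2 * min (dist i k') (L * dist k i))) := by
    have h := N_avg_le absN R j (fun k => avg r i (F k) - avg r j (F k))
      (fun k => 7 * (dist i j / r) *
        ∑ k', Pk r i k' * (L * dist i k' + 2 * min (dist i k') (L * dist k i)))
      (fun k => by rw [absN_apply]; exact h1 k)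
    rwa [absN_apply] at h
  refine h2.trans ?_
  -- exchange
  have h3 : ∑ k, Pk R j k *
      (7 * (dist i j / r) * ∑ k', Pk r i k' * (L * dist i k' + 2 * min (dist i k') (L * dist k i))) =
      7 * (dist i j / r) * ∑ k', Pk r i k' *
        ∑ k, Pk R j k * (L * dist i k' + 2 * min (dist i k') (L * dist k i)) := by
    simp_rw [Finset.mul_sum]
    rw [Finset.sum_comm]
    apply Finset.sum_congr rfl
    intro k' _
    apply Finset.sum_congr rfl
    intro k _
    ring
  rw [h3]
  have hmean : ∑ k, Pk R j k * (L * dist k i) ≤ κ * r := by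
    have e1 : ∑ k, Pk R j k * (L * dist k i) ≤ ∑ k, (L * (Pk R j k * dist j k) + L * dist i j * Pk R j k) := by
      apply Finset.sum_le_sum
      intro k _
      have := dist_triangle k j i
      rw [dist_comm k j, dist_comm j i] at this
      have hp := Pk_pos R j k
      have : L * Pk R j k * dist k i ≤ L * Pk R j k * (dist j k + dist i j) :=
        mul_le_mul_of_nonneg_left this (by positivity)
      linarith
    rw [Finset.sum_add_distrib, ← Finset.mul_sum, ← Finset.mul_sum, Pk_sum, sum_P_dist hR] at e1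
    refine e1.trans (le_trans ?_ hκL)
    have e2 := ek_le_log hR j
    have e3 : R * ek R j ≤ R * (2 * log (Fintype.card V)) := mul_le_mul_of_nonneg_left e2 hR.le
    nlinarith [mul_le_mul_of_nonneg_left e3 hL, mul_le_mul_of_nonneg_left hij hL]
  have h4 : ∀ k', ∑ k, Pk R j k * (L * dist i k' + 2 * min (dist i k') (L * dist k i)) ≤
      L * dist i k' + 2 * (r * min κ (dist i k' / r)) := by
    intro k'
    have e0 : ∑ k, Pk R j k * (L * dist i k' + 2 * min (dist i k') (L * dist k i)) =
        L * dist i k' + 2 * ∑ k, Pk R j k * min (dist i k') (L * dist k i) := by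
      simp_rw [mul_add]
      rw [Finset.sum_add_distrib, ← Finset.sum_mul, Pk_sum, one_mul, Finset.mul_sum]
      congr 1
      apply Finset.sum_congr rfl
      intro k _; ring
    rw [e0]
    have e1 : ∑ k, Pk R j k * min (dist i k') (L * dist k i) ≤ r * min κ (dist i k' / r) := by
      have e2 : r * min κ (dist i k' / r) = min (κ * r) (dist i k') := by
        rw [mul_min_of_nonneg _ _ hr.le, mul_comm r κ, mul_div_cancel₀ _ hr.ne']
      rw [e2]
      apply le_min
      · refine le_trans ?_ hmean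
        apply Finset.sum_le_sum
        intro k _
        exact mul_le_mul_of_nonneg_left (min_le_right _ _) (Pk_pos R j k).le
      · calc ∑ k, Pk R j k * min (dist i k') (L * dist k i) ≤ ∑ k, Pk R j k * dist i k' := by
              apply Finset.sum_le_sum
              intro k _
              exact mul_le_mul_of_nonneg_left (min_le_left _ _) (Pk_pos R j k).le
          _ = dist i k' := by rw [← Finset.sum_mul, Pk_sum, one_mul]
    linarith
  have h5 : ∑ k', Pk r i k' *
        ∑ k, Pk R j k * (L * dist i k' + 2 * min (dist i k') (L * dist k i)) ≤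
      L * (r * ek r i) + 2 * (r * (4 * κ * (log (Zt r i) - log (Zt (κ * r) i)))) := by
    calc ∑ k', Pk r i k' *
        ∑ k, Pk R j k * (L * dist i k' + 2 * min (dist i k') (L * dist k i))
        ≤ ∑ k', Pk r i k' * (L * dist i k' + 2 * (r * min κ (dist i k' / r))) := by
          apply Finset.sum_le_sum
          intro k' _
          exact mul_le_mul_of_nonneg_left (h4 k') (Pk_pos r i k').le
      _ = L * ∑ k', Pk r i k' * dist i k' + 2 * (r * ∑ k', Pk r i k' * min κ (dist i k' / r)) := by
          simp_rw [Finset.mul_sum]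
          rw [← Finset.sum_add_distrib]
          apply Finset.sum_congr rfl
          intro k' _; ring
      _ ≤ _ := by
          rw [sum_P_dist hr]
          have := min_le_log hr hκ0 hκ i
          have := mul_le_mul_of_nonneg_left this hr.le
          linarith
  calc 7 * (dist i j / r) * ∑ k', Pk r i k' *
        ∑ k, Pk R j k * (L * dist i k' + 2 * min (dist i k') (L * dist k i))
      ≤ 7 * (dist i j / r) *
        (L * (r * ek r i) + 2 * (r * (4 * κ * (log (Zt r i) - log (Zt (κ * r) i))))) :=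
        mul_le_mul_of_nonneg_left h5 (by positivity)
    _ = _ := by field_simp; ring

theorem abs_dbl_le {R r L : ℝ} (hR : 0 < R) (hr : 0 < r) (F : V → V → ℝ) (hL : 0 ≤ L)
    (hF0 : ∀ k k', |F k k'| ≤ L * dist k k') (i : V) :
    |dbl R r F i| ≤ L * (R * ek R i + r * ek r i) := by
  have h := N_dbl_le absN hR hr F hL (fun k k' => by rw [absN_apply]; exact hF0 k k') i
  rwa [absN_apply] at h

theorem dbl_slope {R r L κ : ℝ} (hr : 0 < r) (hrR : r ≤ R) (F : V → V → ℝ) (hL : 0 ≤ L)
    (hF0 : ∀ k k', |F k k'| ≤ L * dist k k') (hF1 : ∀ k k' l', |F k k' - F k l'| ≤ 2 * dist k' l')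
    (hκ0 : 0 < κ) (hκ : κ ≤ 1 / 2)
    (hκL : L * (r + R * (2 * log (Fintype.card V))) ≤ κ * r) (i j : V) :
    |dbl R r F i - dbl R r F j| ≤ dist i j *
      (14 * L * (R / r) * (ek R i + ek R j + ek r i + ek r j) +
        56 * κ * (log (Zt r i) - log (Zt (κ * r) i))) := by
  have hR : 0 < R := lt_of_lt_of_le hr hrR
  have hd : 0 ≤ dist i j := dist_nonneg
  have e1 := ek_nonneg hr i
  have e2 := ek_nonneg hr j
  have e3 := ek_nonneg hR i
  have e4 := ek_nonneg hR j
  have hq : 1 ≤ R / r := (one_le_div hr).2 hrR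
  have hlog := logdiff_nonneg hr hκ0 hκ i
  have hlog2 : 0 ≤ dist i j * (56 * κ * (log (Zt r i) - log (Zt (κ * r) i))) := by positivity
  rcases le_or_gt (dist i j) r with hij | hij
  · rw [dbl_split]
    have hb : |(avg R i (fun k => avg r i (F k)) - avg R j (fun k => avg r i (F k)))| ≤
        7 * (dist i j / R) * (L * (R * ek R i + r * ek r i)) := by
      have h := N_avg_diff_le absN hR (hij.trans hrR) (fun k => avg r i (F k)) 0
        (fun k => ∑ k', Pk r i k' * (L * dist k k')) (fun k => by
          rw [sub_zero]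
          exact N_avg_le absN r i (F k) _ (fun k' => by rw [absN_apply]; exact hF0 k k'))
      rw [absN_apply] at h
      refine h.trans ?_
      apply mul_le_mul_of_nonneg_left _ (by positivity)
      have h2 : ∑ k, Pk R i k * ∑ k', Pk r i k' * (L * dist k k') =
          L * ∑ k, Pk R i k * ∑ k', Pk r i k' * dist k k' := by
        rw [Finset.mul_sum]
        apply Finset.sum_congr rfl
        intro k _
        rw [Finset.mul_sum, Finset.mul_sum, Finset.mul_sum]
        apply Finset.sum_congr rfl
        intro k' _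
        ring
      rw [h2]
      exact mul_le_mul_of_nonneg_left (sum_dist_two hR hr i) hL
    have hb2 : 7 * (dist i j / R) * (L * (R * ek R i + r * ek r i)) ≤
        7 * dist i j * L * (ek R i + ek r i) := by
      have : r * ek r i ≤ R * ek r i := mul_le_mul_of_nonneg_right hrR e1
      calc 7 * (dist i j / R) * (L * (R * ek R i + r * ek r i))
          ≤ 7 * (dist i j / R) * (L * (R * ek R i + R * ek r i)) := by
            apply mul_le_mul_of_nonneg_left _ (by positivity)
            apply mul_le_mul_of_nonneg_left _ hL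
            linarith
        _ = _ := by field_simp
    have hs := second_change hr hrR F hL hF0 hF1 hκ0 hκ hκL hij
    refine (abs_add_le _ _).trans ?_
    have h7 : 7 * dist i j * L * (ek R i + ek r i) + 7 * dist i j * (L * ek r i) ≤
        dist i j * (14 * L * (R / r) * (ek R i + ek R j + ek r i + ek r j)) := by
      have h8 : 0 ≤ dist i j * L := by positivity
      have h9 : (ek R i + ek r i) + ek r i ≤ 2 * (ek R i + ek R j + ek r i + ek r j) := by linarith
      have h10 : 2 * (ek R i + ek R j + ek r i + ek r j) ≤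
          2 * ((R / r) * (ek R i + ek R j + ek r i + ek r j)) := by
        have : 0 ≤ ek R i + ek R j + ek r i + ek r j := by linarith
        nlinarith
      have h11 := mul_le_mul_of_nonneg_left (h9.trans h10) h8
      linarith
    linarith
  · have h1 := abs_dbl_le hR hr F hL hF0 i
    have h2 := abs_dbl_le hR hr F hL hF0 j
    have h3 : |dbl R r F i - dbl R r F j| ≤ |dbl R r F i| + |dbl R r F j| := abs_sub _ _
    have h4 : ∀ i' : V, 0 ≤ ek R i' → 0 ≤ ek r i' → L * (R * ek R i' + r * ek r i') ≤
        dist i j * (L * (R / r) * (ek R i' + ek r i')) := by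
      intro i' ha hb
      have h5 : R ≤ dist i j * (R / r) := by
        rw [mul_div_assoc', le_div_iff₀ hr]
        nlinarith
      have h6 : r ≤ dist i j * (R / r) := hrR.trans h5
      have h7 : R * ek R i' + r * ek r i' ≤ dist i j * (R / r) * (ek R i' + ek r i') := by
        nlinarith
      calc L * (R * ek R i' + r * ek r i') ≤ L * (dist i j * (R / r) * (ek R i' + ek r i')) :=
            mul_le_mul_of_nonneg_left h7 hL
        _ = _ := by ring
    have h5 := h4 i e3 e1
    have h6 := h4 j e4 e2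
    have h7 : 0 ≤ dist i j * (L * (R / r) * (ek R i + ek R j + ek r i + ek r j)) := by
      have : 0 ≤ ek R i + ek R j + ek r i + ek r j := by linarith
      positivity
    linarith

theorem tot_slope {r L : ℝ} (hr : 0 < r) {T : ℕ} (hT : 1 ≤ T) (Λ : ℕ) (F : V → V → ℝ)
    (hL : 0 ≤ L) (hF0 : ∀ k k', |F k k'| ≤ L * dist k k')
    (hF1 : ∀ k k' l', |F k k' - F k l'| ≤ 2 * dist k' l') {a : ℕ} (ha : 1 ≤ a)
    (hκL : L * (1 + 2 ^ T * (2 * log (Fintype.card V))) ≤ (1 / 2) ^ a) (i j : V) :
    |tot r T Λ F i - tot r T Λ F j| ≤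
      dist i j * (log (Fintype.card V) / T * (112 * L * 2 ^ T + 56 * (1 / 2) ^ a * a)) := by
  have hT0 : (0 : ℝ) < T := by exact_mod_cast hT
  have hd : 0 ≤ dist i j := dist_nonneg
  set κ : ℝ := (1 / 2) ^ a with hκdef
  have hκ0 : 0 < κ := by positivity
  have hκ : κ ≤ 1 / 2 := by
    rw [hκdef]
    calc ((1 : ℝ) / 2) ^ a ≤ (1 / 2) ^ 1 := pow_le_pow_of_le_one (by norm_num) (by norm_num) ha
      _ = 1 / 2 := pow_one _
  have h1 : tot r T Λ F i - tot r T Λ F j = (T : ℝ)⁻¹ • ∑ m ∈ range Λ,
      (dbl (r * 2 ^ (m + T)) (r * 2 ^ m) F i - dbl (r * 2 ^ (m + T)) (r * 2 ^ m) F j) := by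
    rw [tot, tot, ← smul_sub, Finset.sum_sub_distrib]
  rw [h1, smul_eq_mul, abs_mul, abs_of_pos (inv_pos.2 hT0)]
  have hratio : ∀ m : ℕ, r * 2 ^ (m + T) / (r * 2 ^ m) = 2 ^ T := by
    intro m
    rw [pow_add]; field_simp
  have h2 : |∑ m ∈ range Λ,
      (dbl (r * 2 ^ (m + T)) (r * 2 ^ m) F i - dbl (r * 2 ^ (m + T)) (r * 2 ^ m) F j)| ≤
      ∑ m ∈ range Λ, dist i j * (14 * L * 2 ^ T *
        (ek (r * 2 ^ (m + T)) i + ek (r * 2 ^ (m + T)) j + ek (r * 2 ^ m) i +
          ek (r * 2 ^ m) j) + 56 * κ * (log (Zt (r * 2 ^ m) i) - log (Zt (κ * (r * 2 ^ m)) i))) := by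
    refine (Finset.abs_sum_le_sum_abs _ _).trans ?_
    apply Finset.sum_le_sum
    intro m _
    have h := dbl_slope (R := r * 2 ^ (m + T)) (r := r * 2 ^ m) (L := L) (κ := κ) (by positivity)
      (by
        apply mul_le_mul_of_nonneg_left _ hr.le
        exact pow_le_pow_right₀ (by norm_num) (by omega)) F hL hF0 hF1 hκ0 hκ (by
        have e : L * (r * 2 ^ m + r * 2 ^ (m + T) * (2 * log (Fintype.card V))) =
            L * (1 + 2 ^ T * (2 * log (Fintype.card V))) * (r * 2 ^ m) := by
          rw [pow_add]; ring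
        rw [e]
        exact mul_le_mul_of_nonneg_right hκL (by positivity)) i j
    rwa [hratio m] at h
  have h3 : ∀ i' : V, ∑ m ∈ range Λ, ek (r * 2 ^ (m + T)) i' ≤ 2 * log (Fintype.card V) := by
    intro i'
    have h := sum_ek_le (by positivity : 0 < r * 2 ^ T) i' Λ
    have e : ∀ m, r * 2 ^ T * 2 ^ m = r * 2 ^ (m + T) := by intro m; rw [pow_add]; ring
    simpa only [e] using h
  have h4 : ∀ i' : V, ∑ m ∈ range Λ, ek (r * 2 ^ m) i' ≤ 2 * log (Fintype.card V) :=
    fun i' => sum_ek_le hr i' Λ
  have h5 : ∑ m ∈ range Λ, (log (Zt (r * 2 ^ m) i) - log (Zt (κ * (r * 2 ^ m)) i)) ≤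
      a * log (Fintype.card V) := sum_logdiff_le hr i a Λ
  have h6 : ∑ m ∈ range Λ, dist i j * (14 * L * 2 ^ T *
        (ek (r * 2 ^ (m + T)) i + ek (r * 2 ^ (m + T)) j + ek (r * 2 ^ m) i +
          ek (r * 2 ^ m) j) + 56 * κ * (log (Zt (r * 2 ^ m) i) - log (Zt (κ * (r * 2 ^ m)) i))) ≤
      dist i j * (14 * L * 2 ^ T * (8 * log (Fintype.card V)) +
        56 * κ * (a * log (Fintype.card V))) := by
    rw [← Finset.mul_sum]
    apply mul_le_mul_of_nonneg_left _ hd
    rw [Finset.sum_add_distrib, ← Finset.mul_sum, ← Finset.mul_sum, Finset.sum_add_distrib,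
      Finset.sum_add_distrib, Finset.sum_add_distrib]
    have a1 := h3 i
    have a2 := h3 j
    have a3 := h4 i
    have a4 := h4 j
    have a5 : 0 ≤ 14 * L * 2 ^ T := by positivity
    have a6 : 0 ≤ 56 * κ := by positivity
    have a7 : (∑ m ∈ range Λ, ek (r * 2 ^ (m + T)) i + ∑ m ∈ range Λ, ek (r * 2 ^ (m + T)) j +
        ∑ m ∈ range Λ, ek (r * 2 ^ m) i + ∑ m ∈ range Λ, ek (r * 2 ^ m) j) ≤
        8 * log (Fintype.card V) := by linarith
    exact add_le_add (mul_le_mul_of_nonneg_left a7 a5) (mul_le_mul_of_nonneg_left h5 a6)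
  calc (T : ℝ)⁻¹ * |∑ m ∈ range Λ, _| ≤ (T : ℝ)⁻¹ * (dist i j * (14 * L * 2 ^ T *
        (8 * log (Fintype.card V)) + 56 * κ * (a * log (Fintype.card V)))) :=
        mul_le_mul_of_nonneg_left (h2.trans h6) (inv_pos.2 hT0).le
    _ = _ := by field_simp; ring

end slopes

end Vale.Agent.H22
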