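import Mathlib

namespace Vale.Agent.H22

open SimpleGraph

variable {V : Type*}

/-- No edge of `G` can be bypassed by a path of length at most `t` avoiding it. -/
def NoShort (G : SimpleGraph V) (t : ℕ) : Prop :=
  ∀ ⦃x y : V⦄, G.Adj x y → ∀ p : G.Walk x y, p.IsPath → s(x, y) ∉ p.edges → t < p.length

theorem path_unique_of_noShort {G : SimpleGraph V} {t : ℕ} (hG : NoShort G t) {a b : V}
    (p q : G.Walk a b) (hp : p.IsPath) (hq : q.IsPath) (hlen : p.length + q.length ≤ t + 1) :
    p = q := by
  classical
  set H : SimpleGraph V := fromEdgeSet {e | e ∈ p.edges ∨ e ∈ q.edges} with hH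
  have hHG : H ≤ G := by
    intro x y hxy
    rw [hH, fromEdgeSet_adj] at hxy
    rcases hxy.1 with h | h
    · exact p.adj_of_mem_edges h
    · exact q.adj_of_mem_edges h
  have hmem : ∀ e, e ∈ H.edgeSet → e ∈ p.edges ++ q.edges := by
    intro e he
    rw [hH, edgeSet_fromEdgeSet] at he
    exact List.mem_append.2 he.1
  have hpH : ∀ e, e ∈ p.edges → e ∈ H.edgeSet := by
    intro e he
    rw [hH, edgeSet_fromEdgeSet]
    exact ⟨Or.inl he, G.not_isDiag_of_mem_edgeSet (p.edges_subset_edgeSet he)⟩
  have hqH : ∀ e, e ∈ q.edges → e ∈ H.edgeSet := by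
    intro e he
    rw [hH, edgeSet_fromEdgeSet]
    exact ⟨Or.inr he, G.not_isDiag_of_mem_edgeSet (q.edges_subset_edgeSet he)⟩
  have hac : H.IsAcyclic := by
    intro v c hc
    cases c with
    | nil => exact (Walk.not_isCycle_nil hc)
    | cons h c' =>
      have h1 := (Walk.cons_isCycle_iff _ _).1 hc
      have h2 : t < (c'.mapLe hHG).length := by
        apply hG (hHG h).symm
        · exact (Walk.isPath_mapLe hHG).2 h1.1
        · rw [Walk.edges_mapLe_eq_edges, Sym2.eq_swap]
          exact h1.2
      have h3 : (Walk.cons h c').edges.length ≤ (p.edges ++ q.edges).length := by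
        apply List.Subperm.length_le
        apply List.subperm_of_subset
        · exact hc.edges_nodup
        · intro e he
          exact hmem e ((Walk.cons h c').edges_subset_edgeSet he)
      rw [List.length_append, Walk.length_edges, Walk.length_edges, Walk.length_edges,
        Walk.length_cons] at h3
      have h4 : (c'.mapLe hHG).length = c'.length := by
        simp [Walk.mapLe]
      omega
  have key := (hac.subsingleton_path a b).elim ⟨p.transfer H hpH, hp.transfer hpH⟩
    ⟨q.transfer H hqH, hq.transfer hqH⟩
  have key2 : p.transfer H hpH = q.transfer H hqH := congrArg Subtype.val key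
  apply Walk.ext_support
  rw [← Walk.support_transfer p hpH, ← Walk.support_transfer q hqH, key2]


/-- Endpoints of paths of length `j` from `v` inside `U`. -/
def Reach (G : SimpleGraph V) (U : Finset V) (v : V) (j : ℕ) (b : V) : Prop :=
  ∃ p : G.Walk v b, p.IsPath ∧ p.length = j ∧ ∀ x ∈ p.support, x ∈ U

theorem reach_growth [Fintype V] {G : SimpleGraph V} {k δ : ℕ} (hk : 1 ≤ k)
    (hG : NoShort G (2 * k - 1)) (U : Finset V)
    [DecidableEq V] [DecidableRel G.Adj]
    (hdeg : ∀ v ∈ U, δ + 1 ≤ (U.filter (fun w => G.Adj v w)).card) {v : V}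
    [∀ j, DecidablePred (Reach G U v j)]
    (j : ℕ) (hj : j + 1 ≤ k) :
    δ * (Finset.univ.filter (Reach G U v j)).card ≤
      (Finset.univ.filter (Reach G U v (j + 1))).card := by
  classical
  have hch : ∀ b : V, Reach G U v j b → ∃ p : G.Walk v b, p.IsPath ∧ p.length = j ∧
    ∀ x ∈ p.support, x ∈ U := fun b h => h
  let P : (b : V) → (h : Reach G U v j b) → G.Walk v b := fun b h => Classical.choose (hch b h)
  have hP : ∀ b h, (P b h).IsPath ∧ (P b h).length = j ∧ ∀ x ∈ (P b h).support, x ∈ U :=
    fun b h => Classical.choose_spec (hch b h)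
  let A : V → Finset V := fun b => (U.filter (fun w => G.Adj b w)).filter
    (fun w => ∀ h : Reach G U v j b, w ∉ (P b h).support)
  have hA : ∀ b ∈ Finset.univ.filter (Reach G U v j), δ ≤ (A b).card := by
    intro b hb
    have hb' : Reach G U v j b := (Finset.mem_filter.1 hb).2
    obtain ⟨h1, h2, h3⟩ := hP b hb'
    have hbU : b ∈ U := h3 b (Walk.end_mem_support _)
    have hsub : (U.filter (fun w => G.Adj b w)) ⊆ A b ∪ {(P b hb').penultimate} := by
      intro w hw
      by_cases hws : w ∈ (P b hb').support
      · apply Finset.mem_union_right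
        rw [Finset.mem_singleton]
        have hadj : G.Adj w b := ((Finset.mem_filter.1 hw).2).symm
        have hq : (Walk.cons hadj Walk.nil : G.Walk w b).IsPath := by
          rw [Walk.cons_isPath_iff]
          refine ⟨Walk.IsPath.nil, ?_⟩
          simp [hadj.ne]
        have hr := h1.dropUntil hws
        have hle : ((P b hb').dropUntil w hws).length ≤ j := by
          rw [← h2]; exact Walk.length_dropUntil_le_length _ _
        have heq := path_unique_of_noShort hG ((P b hb').dropUntil w hws)
          (Walk.cons hadj Walk.nil) hr hq (by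
            rw [Walk.length_cons, Walk.length_nil]; omega)
        have hspec := (P b hb').take_spec hws
        rw [heq] at hspec
        rw [← hspec, ← Walk.concat_eq_append, Walk.penultimate_concat]
      · apply Finset.mem_union_left
        exact Finset.mem_filter.2 ⟨hw, fun _ => hws⟩
    have h4 := Finset.card_le_card hsub
    have h5 := Finset.card_union_le (A b) {(P b hb').penultimate}
    have h6 := hdeg b hbU
    rw [Finset.card_singleton] at h5
    omega
  calc δ * (Finset.univ.filter (Reach G U v j)).card
      = ∑ b ∈ Finset.univ.filter (Reach G U v j), δ := by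
        rw [Finset.sum_const, smul_eq_mul, mul_comm]
    _ ≤ ∑ b ∈ Finset.univ.filter (Reach G U v j), (A b).card := Finset.sum_le_sum hA
    _ = ((Finset.univ.filter (Reach G U v j)).sigma A).card := (Finset.card_sigma _ _).symm
    _ ≤ (Finset.univ.filter (Reach G U v (j + 1))).card := by
        apply Finset.card_le_card_of_injOn (fun x => x.2)
        · rintro ⟨b, w⟩ hx
          have hx' := Finset.mem_sigma.1 (Finset.mem_coe.1 hx)
          have hb' : Reach G U v j b := (Finset.mem_filter.1 hx'.1).2
          obtain ⟨h1, h2, h3⟩ := hP b hb'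
          have hw := Finset.mem_filter.1 hx'.2
          have hw1 := Finset.mem_filter.1 hw.1
          have hw2 := hw.2 hb'
          rw [Finset.mem_coe, Finset.mem_filter]
          refine ⟨Finset.mem_univ _, ?_⟩
          refine ⟨(P b hb').concat hw1.2, h1.concat hw2 _, ?_, ?_⟩
          · rw [Walk.length_concat, h2]
          · intro x hx
            rw [Walk.support_concat, List.mem_append, List.mem_singleton] at hx
            rcases hx with hx | hx
            · exact h3 x hx
            · rw [hx]; exact hw1.1
        · rintro ⟨b, w⟩ hx ⟨b', w'⟩ hx' hww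
          simp only at hww
          subst hww
          have hx1 := Finset.mem_sigma.1 (Finset.mem_coe.1 hx)
          have hb : Reach G U v j b := (Finset.mem_filter.1 hx1.1).2
          obtain ⟨h1, h2, h3⟩ := hP b hb
          have hw := Finset.mem_filter.1 hx1.2
          have hw1 := Finset.mem_filter.1 hw.1
          have hw2 := hw.2 hb
          have hx1' := Finset.mem_sigma.1 (Finset.mem_coe.1 hx')
          have hb' : Reach G U v j b' := (Finset.mem_filter.1 hx1'.1).2
          obtain ⟨h1', h2', h3'⟩ := hP b' hb'
          have hw' := Finset.mem_filter.1 hx1'.2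
          have hw1' := Finset.mem_filter.1 hw'.1
          have hw2' := hw'.2 hb'
          have heq := path_unique_of_noShort hG ((P b hb).concat hw1.2) ((P b' hb').concat hw1'.2)
            (h1.concat hw2 _) (h1'.concat hw2' _) (by
              rw [Walk.length_concat, Walk.length_concat, h2, h2']; omega)
          have h7 := congrArg Walk.penultimate heq
          rw [Walk.penultimate_concat, Walk.penultimate_concat] at h7
          subst h7
          rfl

theorem card_lower [Fintype V] {G : SimpleGraph V} {k δ : ℕ} (hk : 1 ≤ k)
    (hG : NoShort G (2 * k - 1)) (U : Finset V)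
    [DecidableEq V] [DecidableRel G.Adj]
    (hdeg : ∀ v ∈ U, δ + 1 ≤ (U.filter (fun w => G.Adj v w)).card) (hU : U.Nonempty) :
    δ ^ k ≤ Fintype.card V := by
  classical
  obtain ⟨v, hv⟩ := hU
  have key : ∀ j, j ≤ k → δ ^ j ≤ (Finset.univ.filter (Reach G U v j)).card := by
    intro j
    induction j with
    | zero =>
      intro _
      rw [pow_zero]
      apply Finset.card_pos.2
      refine ⟨v, Finset.mem_filter.2 ⟨Finset.mem_univ _, Walk.nil, Walk.IsPath.nil, rfl, ?_⟩⟩
      intro x hx
      rw [Walk.support_nil, List.mem_singleton] at hx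
      rw [hx]; exact hv
    | succ j ih =>
      intro hj
      have h1 := ih (by omega)
      have h2 := reach_growth hk hG U hdeg (v := v) j hj
      calc δ ^ (j + 1) = δ * δ ^ j := by rw [pow_succ, mul_comm]
        _ ≤ _ := Nat.mul_le_mul_left _ h1
        _ ≤ _ := h2
  refine (key k le_rfl).trans ?_
  exact (Finset.card_le_univ _)

theorem edges_card_le [Fintype V] {G : SimpleGraph V} {k δ : ℕ} (hk : 1 ≤ k)
    (hG : NoShort G (2 * k - 1)) [DecidableEq V] [DecidableRel G.Adj]
    (hδ : Fintype.card V < δ ^ k) (E : Finset (Sym2 V)) (hE : ∀ e ∈ E, e ∈ G.edgeSet) :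
    E.card ≤ δ * Fintype.card V := by
  classical
  have key : ∀ U : Finset V, (E.filter (fun e => ∀ x ∈ e, x ∈ U)).card ≤ δ * U.card := by
    intro U
    induction U using Finset.strongInduction with
    | H U ih =>
      rcases U.eq_empty_or_nonempty with hU | hU
      · subst hU
        simp only [Finset.notMem_empty, Finset.card_empty, mul_zero, nonpos_iff_eq_zero,
          Finset.card_eq_zero]
        apply Finset.filter_eq_empty_iff.2
        intro e _ h
        induction e using Sym2.ind with
        | _ a b => exact h a (Sym2.mem_mk_left a b)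
      · by_contra hcon
        have hex : ∃ v ∈ U, (U.filter (fun w => G.Adj v w)).card ≤ δ := by
          by_contra hno
          push Not at hno
          have := card_lower (δ := δ) hk hG U (fun v hv => hno v hv) hU
          omega
        obtain ⟨v, hv, hdv⟩ := hex
        have h1 := ih (U.erase v) (Finset.erase_ssubset hv)
        have hsub : (E.filter (fun e => ∀ x ∈ e, x ∈ U)) ⊆
            (E.filter (fun e => ∀ x ∈ e, x ∈ U.erase v)) ∪
              ((U.filter (fun w => G.Adj v w)).image (fun w => s(v, w))) := by
          intro e he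
          obtain ⟨heE, heU⟩ := Finset.mem_filter.1 he
          by_cases hve : v ∈ e
          · apply Finset.mem_union_right
            obtain ⟨w, rfl⟩ := Sym2.mem_iff_exists.1 hve
            refine Finset.mem_image.2 ⟨w, Finset.mem_filter.2 ⟨heU w (Sym2.mem_mk_right v w), ?_⟩, rfl⟩
            exact (mem_edgeSet G).1 (hE _ heE)
          · apply Finset.mem_union_left
            refine Finset.mem_filter.2 ⟨heE, fun x hx => Finset.mem_erase.2 ⟨?_, heU x hx⟩⟩
            rintro rfl
            exact hve hx
        have h2 := Finset.card_le_card hsub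
        have h3 := Finset.card_union_le (E.filter (fun e => ∀ x ∈ e, x ∈ U.erase v))
          ((U.filter (fun w => G.Adj v w)).image (fun w => s(v, w)))
        have h4 : ((U.filter (fun w => G.Adj v w)).image (fun w => s(v, w))).card ≤
          (U.filter (fun w => G.Adj v w)).card := Finset.card_image_le
        have h5 : (U.erase v).card + 1 = U.card := Finset.card_erase_add_one hv
        apply hcon
        calc _ ≤ δ * (U.erase v).card + δ := by omega
          _ = δ * U.card := by rw [← h5]; ring
  have h := key Finset.univ
  have hE' : E.filter (fun e => ∀ x ∈ e, x ∈ (Finset.univ : Finset V)) = E := by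
    apply Finset.filter_true_of_mem
    intro e _ x _
    exact Finset.mem_univ x
  rw [hE', Finset.card_univ] at h
  exact h

end Vale.Agent.H22
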