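import Vale.Agent.H22.Spanner1

namespace Vale.Agent.H22

open SimpleGraph

variable {V : Type*}

theorem split_at_edge {G : SimpleGraph V} {u w : V} :
    ∀ {x y : V} (p : G.Walk x y), s(u, w) ∈ p.edges →
      (∃ (p1 : G.Walk x u) (p2 : G.Walk w y), p.edges = p1.edges ++ s(u, w) :: p2.edges) ∨
      (∃ (p1 : G.Walk x w) (p2 : G.Walk u y), p.edges = p1.edges ++ s(u, w) :: p2.edges) := by
  intro x y p
  induction p with
  | nil => intro h; simp at h
  | @cons a b c h p ih =>
    intro hmem
    rw [Walk.edges_cons, List.mem_cons] at hmem
    rcases hmem with hmem | hmem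
    · rcases Sym2.eq_iff.1 hmem with ⟨h1, h2⟩ | ⟨h1, h2⟩
      · subst h1; subst h2
        left
        exact ⟨Walk.nil, p, by simp⟩
      · subst h1; subst h2
        right
        refine ⟨Walk.nil, p, ?_⟩
        rw [Walk.edges_cons, Walk.edges_nil, List.nil_append, Sym2.eq_swap]
    · rcases ih hmem with ⟨p1, p2, he⟩ | ⟨p1, p2, he⟩
      · left
        exact ⟨Walk.cons h p1, p2, by simp [he]⟩
      · right
        exact ⟨Walk.cons h p1, p2, by simp [he]⟩

theorem sum_le_of_edges {G : SimpleGraph V} {ρ : Sym2 V → ℝ} {R : ℝ}
    (hR : ∀ e ∈ G.edgeSet, ρ e ≤ R) {x y : V} (p : G.Walk x y) :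
    (p.edges.map ρ).sum ≤ p.length * R := by
  have h := List.sum_le_card_nsmul (p.edges.map ρ) R (by
    intro r hr
    obtain ⟨e, he, rfl⟩ := List.mem_map.1 hr
    exact hR e (p.edges_subset_edgeSet he))
  rw [List.length_map, Walk.length_edges, nsmul_eq_mul] at h
  exact h

theorem exists_spanner_aux [DecidableEq V] (ρ : Sym2 V → ℝ) (hρ : ∀ e, 0 ≤ ρ e) (t : ℕ)
    (ht : 1 ≤ t) (S : Finset (Sym2 V)) :
    (∀ e ∈ S, ¬ e.IsDiag) → ∃ G : SimpleGraph V, (∀ e ∈ G.edgeSet, e ∈ S) ∧ NoShort G t ∧
      ∀ x y, s(x, y) ∈ S → ∃ p : G.Walk x y, (p.edges.map ρ).sum ≤ t * ρ s(x, y) := by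
  classical
  induction S using Finset.induction_on_max_value ρ with
  | empty =>
    intro _
    refine ⟨⊥, ?_, ?_, ?_⟩
    · intro e he; simp at he
    · intro x y hxy; simp at hxy
    · intro x y hxy; simp at hxy
  | insert a S haS hmax ih =>
    intro hdiag
    obtain ⟨G, hGS, hGno, hGsp⟩ := ih (fun e he => hdiag e (Finset.mem_insert_of_mem he))
    have hle : ∀ e ∈ G.edgeSet, ρ e ≤ ρ a := fun e he => hmax e (hGS e he)
    have ha : ¬ a.IsDiag := hdiag a (Finset.mem_insert_self _ _)
    induction a using Sym2.ind with
    | _ u w =>
    by_cases hsp : ∃ p : G.Walk u w, (p.edges.map ρ).sum ≤ t * ρ s(u, w)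
    · obtain ⟨p, hp⟩ := hsp
      refine ⟨G, fun e he => Finset.mem_insert_of_mem (hGS e he), hGno, ?_⟩
      intro x y hxy
      rcases Finset.mem_insert.1 hxy with h | h
      · rcases Sym2.eq_iff.1 h with ⟨h1, h2⟩ | ⟨h1, h2⟩
        · subst h1; subst h2; exact ⟨p, hp⟩
        · subst h1; subst h2
          refine ⟨p.reverse, ?_⟩
          rw [Walk.edges_reverse, List.map_reverse, List.sum_reverse, Sym2.eq_swap]
          exact hp
      · exact hGsp x y h
    · push Not at hsp
      -- no short walk between the endpoints of the new edge
      have hns : ∀ p : G.Walk u w, t < p.length := by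
        intro p
        by_contra hcon
        push Not at hcon
        have h1 := hsp p
        have h2 := sum_le_of_edges hle p
        have h3 : (p.length : ℝ) * ρ s(u, w) ≤ t * ρ s(u, w) :=
          mul_le_mul_of_nonneg_right (by exact_mod_cast hcon) (hρ _)
        linarith
      set G' : SimpleGraph V := fromEdgeSet (G.edgeSet ∪ {s(u, w)}) with hG'
      have hGG' : G ≤ G' := by
        intro x y hxy
        rw [hG', fromEdgeSet_adj]
        exact ⟨Or.inl hxy, hxy.ne⟩
      have hG'mem : ∀ e ∈ G'.edgeSet, e ∈ G.edgeSet ∨ e = s(u, w) := by
        intro e he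
        rw [hG', edgeSet_fromEdgeSet] at he
        exact he.1
      have htr : ∀ {x y : V} (p : G'.Walk x y), s(u, w) ∉ p.edges →
          ∀ e ∈ p.edges, e ∈ G.edgeSet := by
        intro x y p hp e he
        rcases hG'mem e (p.edges_subset_edgeSet he) with h | h
        · exact h
        · rw [h] at he; exact absurd he hp
      refine ⟨G', ?_, ?_, ?_⟩
      · intro e he
        rcases hG'mem e he with h | h
        · exact Finset.mem_insert_of_mem (hGS e h)
        · rw [h]; exact Finset.mem_insert_self _ _
      · intro x y hxy p hp hnot
        by_contra hcon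
        push Not at hcon
        rcases hG'mem s(x, y) ((mem_edgeSet G').2 hxy) with h | h
        · by_cases hmem : s(u, w) ∈ p.edges
          · have hnd := hp.isTrail.edges_nodup
            rcases split_at_edge p hmem with ⟨p1, p2, he⟩ | ⟨p1, p2, he⟩
            · rw [he] at hnd
              have hn1 : s(u, w) ∉ p1.edges := by
                intro hh
                exact (List.nodup_append.1 hnd).2.2 _ hh _ (List.mem_cons_self) rfl
              have hn2 : s(u, w) ∉ p2.edges :=
                (List.nodup_cons.1 (List.nodup_append.1 hnd).2.1).1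
              have h1 := htr p1 hn1
              have h2 := htr p2 hn2
              have h3 := hns ((p1.transfer G h1).reverse.append
                (Walk.cons ((mem_edgeSet G).1 h) (p2.transfer G h2).reverse))
              have h4 := congrArg List.length he
              rw [List.length_append, List.length_cons, Walk.length_edges, Walk.length_edges,
                Walk.length_edges] at h4
              rw [Walk.length_append, Walk.length_cons, Walk.length_reverse, Walk.length_reverse,
                Walk.length_transfer, Walk.length_transfer] at h3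
              omega
            · rw [he] at hnd
              have hn1 : s(u, w) ∉ p1.edges := by
                intro hh
                exact (List.nodup_append.1 hnd).2.2 _ hh _ (List.mem_cons_self) rfl
              have hn2 : s(u, w) ∉ p2.edges :=
                (List.nodup_cons.1 (List.nodup_append.1 hnd).2.1).1
              have h1 := htr p1 hn1
              have h2 := htr p2 hn2
              have h3 := hns ((p1.transfer G h1).reverse.append
                (Walk.cons ((mem_edgeSet G).1 h) (p2.transfer G h2).reverse)).reverse
              have h4 := congrArg List.length he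
              rw [List.length_append, List.length_cons, Walk.length_edges, Walk.length_edges,
                Walk.length_edges] at h4
              rw [Walk.length_reverse, Walk.length_append, Walk.length_cons, Walk.length_reverse,
                Walk.length_reverse, Walk.length_transfer, Walk.length_transfer] at h3
              omega
          · have h1 := hGno ((mem_edgeSet G).1 h) (p.transfer G (htr p hmem)) (hp.transfer _)
              (by rw [Walk.edges_transfer]; exact hnot)
            rw [Walk.length_transfer] at h1
            omega
        · rw [h] at hnot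
          rcases Sym2.eq_iff.1 h with ⟨h1, h2⟩ | ⟨h1, h2⟩
          · subst h1; subst h2
            have h3 := hns (p.transfer G (htr p hnot))
            rw [Walk.length_transfer] at h3
            omega
          · subst h1; subst h2
            have h3 := hns (p.transfer G (htr p hnot)).reverse
            rw [Walk.length_reverse, Walk.length_transfer] at h3
            omega
      · intro x y hxy
        rcases Finset.mem_insert.1 hxy with h | h
        · have hadj : G'.Adj x y := by
            rw [hG', fromEdgeSet_adj]
            refine ⟨Or.inr h, ?_⟩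
            rintro rfl
            apply ha
            rw [← h]
            exact Sym2.mk_isDiag_iff.2 rfl
          refine ⟨Walk.cons hadj Walk.nil, ?_⟩
          simp only [Walk.edges_cons, Walk.edges_nil, List.map_cons, List.map_nil, List.sum_cons,
            List.sum_nil, add_zero]
          have : (1 : ℝ) ≤ t := by exact_mod_cast ht
          nlinarith [hρ s(x, y)]
        · obtain ⟨p, hp⟩ := hGsp x y h
          refine ⟨p.mapLe hGG', ?_⟩
          rw [Walk.edges_mapLe_eq_edges]
          exact hp

/-- Greedy spanner with the Moore bound on its number of edges: for every positive weight on the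
pairs of an `n`-point set, `k ≥ 1` and `δ` with `n < δ ^ k`, there is a set `E` of at most `δ * n`
pairs such that every pair is joined by a walk through `E` of total weight at most `2k-1` times
its own weight. -/
theorem exists_spanner [Fintype V] [DecidableEq V] (ρ : Sym2 V → ℝ) (hρ : ∀ e, 0 ≤ ρ e)
    {k δ : ℕ} (hk : 1 ≤ k) (hδ : Fintype.card V < δ ^ k) :
    ∃ G : SimpleGraph V, ∃ E : Finset (Sym2 V), (∀ e, e ∈ E ↔ e ∈ G.edgeSet) ∧
      E.card ≤ δ * Fintype.card V ∧
      ∀ x y, x ≠ y → ∃ p : G.Walk x y, (p.edges.map ρ).sum ≤ (2 * k - 1 : ℕ) * ρ s(x, y) := by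
  classical
  obtain ⟨G, hGS, hno, hsp⟩ := exists_spanner_aux ρ hρ (2 * k - 1) (by omega)
    ((Finset.univ : Finset (Sym2 V)).filter (fun e => ¬ e.IsDiag))
    (fun e he => (Finset.mem_filter.1 he).2)
  refine ⟨G, G.edgeFinset, fun e => mem_edgeFinset, ?_, ?_⟩
  · exact edges_card_le hk hno hδ _ (fun e he => mem_edgeFinset.1 he)
  · intro x y hxy
    apply hsp
    exact Finset.mem_filter.2 ⟨Finset.mem_univ _, by simpa using hxy⟩

end Vale.Agent.H22
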